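import Vale.Agent.P096.Full.Linear.Extend

/-!
P096, LINEAR: admissible self-adjoint pairs dilate to mirrored symmetries. Only the vector
hypothesis and the vector defect are used.
-/

open scoped InnerProductSpace ComplexConjugate

namespace Vale.Agent.P096.Full.Linear

universe u

variable {H : Type u} [NormedAddCommGroup H] [InnerProductSpace ℂ H] [CompleteSpace H] {d : ℕ}

omit [CompleteSpace H] in
lemma blk_mul (a b c e a' b' c' e' : Mat H d) :
    blk a b c e * blk a' b' c' e' =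
      blk (a * a' + b * c') (a * b' + b * e') (c * a' + e * c') (c * b' + e * e') := by
  refine Matrix.ext fun i k => ?_
  refine Fin.addCases (fun i => ?_) (fun i => ?_) i <;>
    refine Fin.addCases (fun k => ?_) (fun k => ?_) k <;>
    simp only [Matrix.mul_apply, Matrix.add_apply, Fin.sum_univ_add, blk_ll, blk_lr, blk_rl, blk_rr]

omit [CompleteSpace H] in
lemma blk_one : blk (1 : Mat H d) 0 0 1 = 1 := by
  refine Matrix.ext fun i k => ?_
  refine Fin.addCases (fun i => ?_) (fun i => ?_) i <;>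
    refine Fin.addCases (fun k => ?_) (fun k => ?_) k <;>
    simp only [blk_ll, blk_lr, blk_rl, blk_rr, Matrix.one_apply, Matrix.zero_apply, Fin.ext_iff,
      Fin.val_castAdd, Fin.val_natAdd, add_right_inj] <;>
    rw [if_neg (by omega)]

lemma star_blk (a b c e : Mat H d) :
    star (blk a b c e) = blk (star a) (star c) (star b) (star e) := by
  refine Matrix.ext fun i k => ?_
  refine Fin.addCases (fun i => ?_) (fun i => ?_) i <;>
    refine Fin.addCases (fun k => ?_) (fun k => ?_) k <;>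
    simp only [Matrix.star_apply, blk_ll, blk_lr, blk_rl, blk_rr]

omit [CompleteSpace H] in
lemma blk_mem {S : Set (H →L[ℂ] H)} {a b c e : Mat H d} (ha : ∀ i j, a i j ∈ S)
    (hb : ∀ i j, b i j ∈ S) (hc : ∀ i j, c i j ∈ S) (he : ∀ i j, e i j ∈ S) :
    ∀ i j, blk a b c e i j ∈ S := by
  intro i k
  refine Fin.addCases (fun i => ?_) (fun i => ?_) i <;>
    refine Fin.addCases (fun k => ?_) (fun k => ?_) k <;>
    simp only [blk_ll, blk_lr, blk_rl, blk_rr, ha, hb, hc, he]

lemma symm_blk {x s : Mat H d} (hx : star x = x) (hs : star s = s) (h1 : x * x + s * s = 1)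
    (h2 : x * s = s * x) : IsSymm (blk x s s (-x)) := by
  refine ⟨by rw [star_blk, star_neg, hx, hs], ?_⟩
  rw [blk_mul, mul_neg, mul_neg, neg_mul, neg_mul, neg_neg, h1, h2, add_neg_cancel,
    add_comm (s * s), h1, ← blk_one]

lemma re_inner_Jd (P : Pair H) (v w : Amp H d) :
    RCLike.re ⟪P.Jd d v, P.Jd d w⟫_ℂ = RCLike.re ⟪v, w⟫_ℂ := by
  have h1 := norm_add_sq (𝕜 := ℂ) (P.Jd d v) (P.Jd d w)
  have h2 := norm_add_sq (𝕜 := ℂ) v w
  rw [← map_add, LinearIsometryEquiv.norm_map, LinearIsometryEquiv.norm_map,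
    LinearIsometryEquiv.norm_map] at h1
  linarith

/-- The square root of one minus the square of a small self-adjoint matrix. -/
theorem exists_root {S : StarSubalgebra ℂ (H →L[ℂ] H)} (hS : IsClosed (S : Set (H →L[ℂ] H)))
    {x : Mat H d} (hm : ∀ i j, x i j ∈ S) (hx : star x = x) (hn : ‖leftOp x‖ ≤ 1 / 4) :
    ∃ s : Mat H d, (∀ i j, s i j ∈ S) ∧ star s = s ∧ x * x + s * s = 1 ∧ x * s = s * x ∧
      ‖leftOp s‖ ≤ 1 ∧ ∀ v, 9 / 10 * ‖v‖ ^ 2 ≤ RCLike.re ⟪v, leftOp s v⟫_ℂ := by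
  set a := leftOp x with ha
  have hsa : IsSelfAdjoint a := by rw [IsSelfAdjoint, ha, star_leftOp, hx]
  set f : ℝ → ℝ := fun r => Real.sqrt (1 - r * r) with hf
  have hfc : Continuous f := by fun_prop
  have hspec : ∀ r ∈ spectrum ℝ a, r * r ≤ 1 / 16 := fun r hr => by
    have h1 := norm_apply_le_norm_cfc (fun r : ℝ => r) a hr
    rw [cfc_id' ℝ a hsa, Real.norm_eq_abs] at h1
    nlinarith [abs_mul_abs_self r, abs_nonneg r]
  have := isClosed_leftAlg (d := d) hS
  have haA : a ∈ leftAlg S d := ⟨x, hm, rfl⟩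
  have hmem : cfc f a ∈ leftAlg S d := cfc_mem _ haA
  obtain ⟨s, hs, hse⟩ := hmem
  have hsq : a * a + cfc f a * cfc f a = 1 := by
    rw [← cfc_mul f f a, show a * a = cfc (fun r : ℝ => r * r) a by
      rw [cfc_mul (fun r : ℝ => r) (fun r => r) a, cfc_id' ℝ a hsa],
      ← cfc_add (f := fun r : ℝ => r * r) (g := fun r => f r * f r), ← cfc_const_one ℝ a]
    refine cfc_congr fun r hr => ?_
    simp only [hf, Real.mul_self_sqrt (by linarith [hspec r hr] : 0 ≤ 1 - r * r)]
    ring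
  refine ⟨s, hs, ?_, ?_, ?_, ?_, fun v => ?_⟩
  · apply leftOp_injective
    rw [← star_leftOp, ← hse]
    exact (cfc_predicate f a).star_eq
  · apply leftOp_injective
    rw [leftOp_add, leftOp_mul, leftOp_mul, ← ha, ← hse, hsq, leftOp_one]
  · apply leftOp_injective
    rw [leftOp_mul, leftOp_mul, ← ha, ← hse]
    exact ((Commute.refl a).cfc_real f).eq.symm
  · rw [← hse]
    refine norm_cfc_le zero_le_one fun r _ => ?_
    rw [Real.norm_eq_abs, abs_of_nonneg (Real.sqrt_nonneg _)]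
    exact Real.sqrt_le_one.2 (by nlinarith [mul_self_nonneg r])
  · rw [← hse]
    have hpos : 0 ≤ cfc f a - cfc (fun _ : ℝ => (9 / 10 : ℝ)) a := by
      rw [← cfc_sub f (fun _ => (9 / 10 : ℝ)) a]
      refine cfc_nonneg fun r hr => sub_nonneg.2 (Real.le_sqrt_of_sq_le ?_)
      nlinarith [hspec r hr]
    have h1 := ((ContinuousLinearMap.nonneg_iff_isPositive _).1 hpos).inner_nonneg_right v
    have h2 := (RCLike.le_iff_re_im.1 h1).1
    rw [cfc_const (9 / 10 : ℝ) a hsa, Algebra.algebraMap_eq_smul_one, map_zero, sub_apply,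
      smul_apply, one_apply_eq_self, inner_sub_right, inner_smul_right_eq_smul, map_sub,
      RCLike.smul_re, inner_self_eq_norm_sq] at h2
    linarith

/-- The roots of nearby self-adjoint matrices are near on the trace vector. -/
theorem norm_root_sub_le (P : Pair H) {ν C : ℝ} (hν : P.NuLe ν) {x n s t : Mat H d}
    (h : Adm P C ν x n) (hsM : ∀ i j, s i j ∈ P.M) (htN : ∀ i j, t i j ∈ P.N)
    (sn : star n = n) (st : star t = t) (h1 : x * x + s * s = 1) (h2 : n * n + t * t = 1)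
    (hs1 : ‖leftOp s‖ ≤ 1) (ht1 : ‖leftOp t‖ ≤ 1)
    (hsp : ∀ v, 9 / 10 * ‖v‖ ^ 2 ≤ RCLike.re ⟪v, leftOp s v⟫_ℂ)
    (htp : ∀ v, 9 / 10 * ‖v‖ ^ 2 ≤ RCLike.re ⟪v, leftOp t v⟫_ℂ) :
    ‖(leftOp t - leftOp s) (P.xi d)‖ ≤ (C / 2 + 2) * ν := by
  set ξ := P.xi d
  set A := leftOp x with hA
  set N := leftOp n with hN
  set S := leftOp s with hS
  set T := leftOp t with hT
  set N' := rightOp (P.mirror n) with hN'
  set T' := rightOp (P.mirror t) with hT'
  have eN : N' ξ = N ξ := by rw [hN', P.rightOp_mirror_xi h.memn, sn]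
  have eT : T' ξ = T ξ := by rw [hT', P.rightOp_mirror_xi htN, st]
  have cN : ∀ v, N (N' v) = N' (N v) := DFunLike.congr_fun (P.commute_leftOp_mirror h.memn h.memn)
  have cT : ∀ v, T (T' v) = T' (T v) := DFunLike.congr_fun (P.commute_leftOp_mirror htN htN)
  have q1 : S (S ξ) = ξ - A (A ξ) := by
    have := DFunLike.congr_fun (congrArg leftOp h1) ξ
    rw [leftOp_add, leftOp_mul, leftOp_mul, leftOp_one] at this
    simp only [add_apply, mul_apply_eq_comp, one_apply_eq_self] at this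
    exact eq_sub_of_add_eq' this
  have q2 : T (T ξ) = ξ - N (N ξ) := by
    have := DFunLike.congr_fun (congrArg leftOp h2) ξ
    rw [leftOp_add, leftOp_mul, leftOp_mul, leftOp_one] at this
    simp only [add_apply, mul_apply_eq_comp, one_apply_eq_self] at this
    exact eq_sub_of_add_eq' this
  have key : ∀ (X : Mat H d) (m : Mat H d), (∀ i j, X i j ∈ P.M) → (∀ i j, m i j ∈ P.N) →
      ∀ {c e : ℝ}, ‖leftOp X‖ ≤ c → ‖leftOp m‖ ≤ e →
      ‖leftOp X (rightOp (P.mirror m) ξ) - rightOp (P.mirror m) (leftOp X ξ)‖ ≤ ν * (c * e) := by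
    intro X m hX hm c e hc he
    refine (hν.bound d X (P.mirror m) hX (P.mirror_mem hm)).trans ?_
    rw [P.norm_rightOp_mirror]
    exact mul_le_mul_of_nonneg_left (mul_le_mul hc he (norm_nonneg _)
      ((norm_nonneg _).trans hc)) hν.pos.le
  have d1 := key x n h.memX h.memn h.normX h.normn
  have d2 := key s t hsM htN hs1 ht1
  set D := S ξ - T ξ with hD
  have e1 : S D + T' D =
      (N (N ξ) - A (A ξ)) - (S (T' ξ) - T' (S ξ)) := by
    have : T' (T ξ) = T (T ξ) := by rw [← cT, eT]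
    simp only [hD, map_sub]
    rw [this, q1, q2, eT]
    abel
  have e2 : A (A ξ) - N (N ξ) = A (A ξ - N ξ) + N' (A ξ - N ξ) +
      (A (N' ξ) - N' (A ξ)) := by
    have : N' (N ξ) = N (N ξ) := by rw [← cN, eN]
    simp only [map_sub, this, eN]
    abel
  have hv : ‖A ξ - N ξ‖ ≤ C * ν := by
    rw [norm_sub_rev]
    exact h.vecNear
  have hN'n : ‖N'‖ ≤ 1 / 4 := (P.norm_rightOp_mirror n).trans_le h.normn
  have hb : ‖S D + T' D‖ ≤ (1 / 4 * (C * ν) + 1 / 4 * (C * ν) + ν * (1 / 4 * (1 / 4))) +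
      ν * (1 * 1) := by
    rw [e1]
    refine (norm_sub_le _ _).trans (add_le_add ?_ d2)
    rw [norm_sub_rev, e2]
    refine (norm_add₃_le).trans (add_le_add (add_le_add ?_ ?_) d1)
    · exact (A.le_of_opNorm_le h.normX _).trans (mul_le_mul_of_nonneg_left hv (by norm_num))
    · exact (N'.le_of_opNorm_le hN'n _).trans (mul_le_mul_of_nonneg_left hv (by norm_num))
  have hT'p : 9 / 10 * ‖D‖ ^ 2 ≤ RCLike.re ⟪D, T' D⟫_ℂ := by
    have h3 := htp (P.Jd d D)
    rw [LinearIsometryEquiv.norm_map, ← re_inner_Jd, P.Jd_Jd, P.Jd_leftOp] at h3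
    exact h3
  have hlow : 9 / 5 * ‖D‖ ^ 2 ≤ ‖D‖ * ‖S D + T' D‖ := by
    refine le_trans ?_ ((RCLike.re_le_norm _).trans (norm_inner_le_norm (𝕜 := ℂ) _ _))
    rw [inner_add_right, map_add]
    linarith [hsp D]
  have hνp := hν.pos
  have hC : 0 ≤ C * ν := (norm_nonneg _).trans hv
  rw [sub_apply, norm_sub_rev, ← hD]
  rcases (norm_nonneg D).eq_or_lt with h0 | h0
  · linarith
  · have h4 : 9 / 5 * ‖D‖ ≤ ‖S D + T' D‖ := le_of_mul_le_mul_left (by linarith) h0
    linarith

lemma norm_sq_blk_xi (P : Pair H) (a b c e : Mat H d) :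
    2 * ‖leftOp (blk a b c e) (P.xi (d + d))‖ ^ 2 =
      ‖leftOp a (P.xi d)‖ ^ 2 + ‖leftOp b (P.xi d)‖ ^ 2 +
      ‖leftOp c (P.xi d)‖ ^ 2 + ‖leftOp e (P.xi d)‖ ^ 2 := by
  simp only [P.leftOp_xi, norm_sq_vecOf, Fin.sum_univ_add, blk_ll, blk_lr, blk_rl, blk_rr,
    Finset.sum_add_distrib]
  push_cast
  ring

/-- Admissible self-adjoint pairs dilate to mirrored symmetries. -/
theorem canDilate (P : Pair H) {C ν : ℝ} (hν : P.NuLe ν) : CanDilate P C (2 * C + 2) ν := by
  intro d X n _ sX sn h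
  obtain ⟨s, hsM, ss, hs1, hs2, hsn, hsp⟩ := exists_root P.closed_M h.memX sX h.normX
  obtain ⟨t, htN, st, ht1, ht2, htn, htp⟩ := exists_root P.closed_N h.memn sn h.normn
  have hr := norm_root_sub_le P hν h hsM htN sn st hs1 ht1 hsn htn hsp htp
  have hν0 := hν.pos
  have hC : 0 ≤ C * ν := (norm_nonneg _).trans h.vecNear
  have main : ∀ s' t' : Mat H d, (∀ i j, s' i j ∈ P.M) → (∀ i j, t' i j ∈ P.N) → star s' = s' →
      star t' = t' → X * X + s' * s' = 1 → n * n + t' * t' = 1 → X * s' = s' * X →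
      n * t' = t' * n → ‖(leftOp t' - leftOp s') (P.xi d)‖ ≤ (C / 2 + 2) * ν →
      P.VecMirrored (2 * C + 2) ν (blk X s' s' (-X)) (blk n t' t' (-n)) := by
    intro s' t' a b c e f g i j hr'
    refine ⟨blk_mem h.memX a a fun i j => neg_mem (h.memX i j),
      blk_mem h.memn b b fun i j => neg_mem (h.memn i j), symm_blk sX c f i, symm_blk sn e g j, ?_⟩
    refine (pow_le_pow_iff_left₀ (norm_nonneg _) (by linarith) two_ne_zero).1 ?_
    have e1 : blk n t' t' (-n) - blk X s' s' (-X) =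
        blk (n - X) (t' - s') (t' - s') (-(n - X)) := by
      refine Matrix.ext fun i k => ?_
      refine Fin.addCases (fun i => ?_) (fun i => ?_) i <;>
        refine Fin.addCases (fun k => ?_) (fun k => ?_) k <;>
        simp only [Matrix.sub_apply, Matrix.neg_apply, blk_ll, blk_lr, blk_rl, blk_rr] <;> abel
    have e2 := norm_sq_blk_xi P (n - X) (t' - s') (t' - s') (-(n - X))
    have e3 : leftOp (-(n - X)) (P.xi d) = -((leftOp n - leftOp X) (P.xi d)) := by
      rw [neg_sub, leftOp_sub, sub_apply, sub_apply, neg_sub]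
    rw [← e1, leftOp_sub, leftOp_sub, leftOp_sub, e3, norm_neg] at e2
    have p1 := pow_le_pow_left₀ (norm_nonneg _) h.vecNear 2
    have p2 := pow_le_pow_left₀ (norm_nonneg _) hr' 2
    nlinarith [mul_nonneg hC hν0.le]
  refine ⟨s, t, main s t hsM htN ss st hs1 ht1 hs2 ht2 hr,
    main (-s) (-t) (fun i j => neg_mem (hsM i j)) (fun i j => neg_mem (htN i j))
      (by rw [star_neg, ss]) (by rw [star_neg, st]) (by rw [neg_mul_neg, hs1])
      (by rw [neg_mul_neg, ht1]) (by rw [mul_neg, neg_mul, hs2]) (by rw [mul_neg, neg_mul, ht2]) ?_⟩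
  have e : (leftOp (-t) - leftOp (-s)) (P.xi d) = -((leftOp t - leftOp s) (P.xi d)) := by
    rw [← leftOp_sub, ← leftOp_sub, show -t - -s = -(t - s) by abel, ← neg_one_smul ℂ (t - s),
      leftOp_smul, smul_apply, neg_one_smul]
  rw [e, norm_neg]
  exact hr

end Vale.Agent.P096.Full.Linear
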