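import Vale.Agent.P096.Full.Linear.Collapse
import Vale.Agent.P096.Full.Uniform.Weak

/-!
P096, LINEAR: one operator from the operators of all reweightings.
-/

open scoped InnerProductSpace ComplexConjugate
open Filter Topology

namespace Vale.Agent.P096.Full.Linear

universe u

open Uniform (WLim exists_wLim)

variable {H : Type u} [NormedAddCommGroup H] [InnerProductSpace ℂ H] [CompleteSpace H] {d : ℕ}
variable {P : Pair H}

lemma Simple.comm_left {e : H →L[ℂ] H} (he : P.Simple e) {X : Mat H d} (hX : ∀ i j, X i j ∈ P.M)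
    (v : Amp H d) : ampOp d e (leftOp X v) = leftOp X (ampOp d e v) :=
  DFunLike.congr_fun (commute_ampOp_leftOp (T := e) fun i j => he.comm_M (hX i j)) v

lemma Simple.comm_bar {e : H →L[ℂ] H} (he : P.Simple e) {n : Mat H d} (hn : ∀ i j, n i j ∈ P.N)
    (v : Amp H d) : ampOp d e (barOp P n v) = barOp P n (ampOp d e v) :=
  DFunLike.congr_fun (commute_ampOp_rightOp (T := e) fun i j => he.comm_B (barOp_mem hn i j)) v

/-- One simple operator in front of two defects. -/
lemma ampOp_defect_congr {e A A' : H →L[ℂ] H} (he : P.Simple e) (h : e * A = e * A')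
    {X n : Mat H d} (hX : ∀ i j, X i j ∈ P.M) (hn : ∀ i j, n i j ∈ P.N) :
    ampOp d e (defect P A X n) = ampOp d e (defect P A' X n) := by
  simp only [defect, add_apply, sub_apply, comp_mul_apply, map_add, map_sub,
    Simple.comm_left he hX, Simple.comm_bar he hn, ← ampOp_mul_apply, h]

/-- The defect at a reweighting. -/
lemma defect_reweigh {b A : H →L[ℂ] H} (hb : P.IsWeight b)
    (hA : ∀ k, ∀ g ∈ P.G k, A * g = g * A) {X n : Mat H d} (hX : ∀ i j, X i j ∈ P.M)
    (hn : ∀ i j, n i j ∈ P.N) :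
    defect (P.reweigh b hb) A X n = P.wscale b • ampOp d b (defect P A X n) := by
  have hbar : barOp (P.reweigh b hb) n = barOp P n := rfl
  have cA : ∀ v : Amp H d, ampOp d b (ampOp d A v) = ampOp d A (ampOp d b v) := fun v => by
    rw [← comp_mul_apply, commute_ampOp (hb.simple.comm_G hA), comp_mul_apply]
  simp only [defect, hbar, P.reweigh_xi b hb, map_smul, add_apply, sub_apply, comp_mul_apply,
    map_add, map_sub, Simple.comm_left hb.simple hX, Simple.comm_bar hb.simple hn, cA, smul_add,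
    smul_sub]

/-- The defect passes to weak limits of operators. -/
lemma wLim_defect {σ : Type*} {F : Filter σ} {A : σ → (H →L[ℂ] H)} {B : H →L[ℂ] H}
    (h : ∀ v, WLim F (fun k => A k v) (B v)) (X n : Mat H d) :
    WLim F (fun k => defect P (A k) X n) (defect P B X n) := by
  have ha : ∀ w : Amp H d, WLim F (fun k => ampOp d (A k) w) (ampOp d B w) := fun w => by
    have h1 : ∀ T : H →L[ℂ] H,
        ampOp d T w = (WithLp.toLp 2 fun p => T (w p) : Amp H d) := fun T =>
      Amp.ext' fun i k => by simp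
    simp only [h1]
    exact WLim.toLp fun p => h (w p)
  simp only [defect, sub_apply, comp_mul_apply]
  exact (WLim.const _).add (((ha _).sub ((ha _).map _)).sub ((((ha _).sub ((ha _).map _))).map _))

/-- The parts glue. -/
theorem exists_glued {r D : ℝ} (hr : 0 ≤ r) (hD : 0 ≤ D)
    (h : ∀ b (hb : P.IsWeight b), ∃ A : H →L[ℂ] H, ‖A‖ ≤ r ∧ Equiv' P A ∧
      ∀ (d : ℕ) (X n : Mat H d), 0 < d → (∀ i j, X i j ∈ P.M) → (∀ i j, n i j ∈ P.N) →
        IsSymm X → IsSymm n → ‖defect (P.reweigh b hb) A X n‖ ≤ D) :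
    ∃ A : H →L[ℂ] H, ‖A‖ ≤ r ∧ Equiv' P A ∧
      ∀ b (hb : P.IsWeight b) (d : ℕ) (X n : Mat H d), 0 < d → (∀ i j, X i j ∈ P.M) →
        (∀ i j, n i j ∈ P.N) → IsSymm X → IsSymm n →
        ‖defect (P.reweigh b hb) A X n‖ ≤ 2 * D := by
  classical
  have stage : ∀ k, ∃ A : H →L[ℂ] H, ‖A‖ ≤ r ∧ Equiv' P A ∧
      ∀ (d : ℕ) (X n : Mat H d), 0 < d → (∀ i j, X i j ∈ P.M) → (∀ i j, n i j ∈ P.N) →
        IsSymm X → IsSymm n → ∀ j, j ≤ k → ∀ q ∈ P.cen j,
          ‖ampOp d q (defect P A X n)‖ ≤ 2 * D * ‖q P.ξ‖ := fun k => by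
    obtain ⟨ε, hε0, hε⟩ : ∃ ε : ℝ, 0 < ε ∧ ∀ q ∈ P.cen k, ε ≤ ‖q P.ξ‖ := by
      have h1 : ∀ᶠ ε : ℝ in 𝓝 0, ∀ q ∈ P.cen k, ε ≤ ‖q P.ξ‖ :=
        (P.cen k).eventually_all.2 fun q hq =>
          eventually_le_nhds (norm_pos_iff.2 (P.cen_xi_ne hq))
      obtain ⟨ε, ha, hb⟩ := ((h1.filter_mono nhdsWithin_le_nhds).and
        (self_mem_nhdsWithin (s := Set.Ioi (0 : ℝ)))).exists
      exact ⟨ε, hb, ha⟩
    choose B nB gB dB using fun q : {x // x ∈ P.cen k} => h _ (Pair.isWeight_part q.2 hε0)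
    set A : H →L[ℂ] H := ∑ q ∈ (P.cen k).attach, q.1 * B q with hA
    have cq : ∀ (j : ℕ) (q : H →L[ℂ] H), q ∈ P.cen j → ∀ p, B p * q = q * B p := fun j q hq p =>
      P.cen_commute_of (fun i g hg => (gB p i g hg).1) hq
    have sel : ∀ p : {x // x ∈ P.cen k}, p.1 * A = p.1 * B p := fun p => by
      rw [hA, Finset.mul_sum, Finset.sum_eq_single p]
      · rw [← mul_assoc, (P.cen_proj k p.1 p.2).2.1]
      · intro q _ hne
        rw [← mul_assoc, P.cen_orth k p.1 p.2 q.1 q.2 fun e => hne (Subtype.ext e.symm), zero_mul]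
      · exact fun h => absurd (Finset.mem_attach _ p) h
    refine ⟨A, A.opNorm_le_bound hr fun v => ?_, fun i g hg => ?_,
      fun d X n hd hX hn sX sn j hj q hq => ?_⟩
    · refine (pow_le_pow_iff_left₀ (norm_nonneg _) (by positivity) two_ne_zero).1 ?_
      have e : ∀ w : H, ‖w‖ ^ 2 = ∑ q ∈ P.cen k, ‖q w‖ ^ 2 := fun w => by
        rw [← P.sum_norm_sq (P.cen k) subset_rfl w, P.cen_sum, one_apply_eq_self]
      rw [mul_pow, e, e v, Finset.mul_sum]
      refine Finset.sum_le_sum fun q hq => ?_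
      rw [← mul_pow, ← comp_mul_apply, sel ⟨q, hq⟩, ← cq k q hq ⟨q, hq⟩, comp_mul_apply]
      exact pow_le_pow_left₀ (norm_nonneg _) ((B ⟨q, hq⟩).le_of_opNorm_le (nB _) _) 2
    · obtain ⟨hgM, hgN, -, -⟩ := P.G_mem i g hg
      simp only [hA, Finset.sum_mul, Finset.mul_sum]
      constructor <;> refine Finset.sum_congr rfl fun p _ => ?_
      · rw [mul_assoc, (gB p i g hg).1, ← mul_assoc, P.cen_comm k p.1 p.2 g hgM, mul_assoc]
      · rw [mul_assoc, (gB p i g hg).2, ← mul_assoc, P.cen_comm_B p.2 ⟨g, hgN, rfl⟩, mul_assoc]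
    refine Pair.loc_coarse hj (fun p hp => ?_) (by positivity) hq
    set b := p + (ε : ℂ) • (1 - p) with hbdef
    have hb : P.IsWeight b := Pair.isWeight_part hp hε0
    have hpb : p * b = p := by simp [hbdef, mul_add, mul_sub, (P.cen_proj k p hp).2.1]
    have hs : P.Simple p := Pair.simple_cen hp
    have hdef := dB ⟨p, hp⟩ d X n hd hX hn sX sn
    rw [defect_reweigh hb (fun i g hg => (gB ⟨p, hp⟩ i g hg).1) hX hn, norm_smul,
      P.norm_wscale] at hdef
    rw [ampOp_defect_congr hs (sel ⟨p, hp⟩) hX hn]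
    have e : ampOp d p (defect P (B ⟨p, hp⟩) X n) =
        ampOp d p (ampOp d b (defect P (B ⟨p, hp⟩) X n)) := by rw [← ampOp_mul_apply, hpb]
    have hbξ : ‖b P.ξ‖ ≤ 2 * ‖p P.ξ‖ := by
      refine (norm_add_le _ _).trans ?_
      show ‖p P.ξ‖ + ‖(ε : ℂ) • (1 - p) P.ξ‖ ≤ _
      rw [norm_smul, Complex.norm_real, Real.norm_of_nonneg hε0.le]
      have h1 : ‖(1 - p) P.ξ‖ ≤ 1 := by
        refine (((1 : H →L[ℂ] H) - p).le_opNorm P.ξ).trans ?_
        rw [P.norm_ξ, mul_one]
        exact (show IsStarProjection p from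
          ⟨(P.cen_proj k p hp).2.1, (P.cen_proj k p hp).1⟩).one_sub.norm_le
      nlinarith [hε p hp, mul_le_mul_of_nonneg_left h1 hε0.le]
    rw [inv_mul_le_iff₀ hb.norm_pos] at hdef
    rw [e]
    calc _ ≤ ‖ampOp d p‖ * ‖ampOp d b (defect P (B ⟨p, hp⟩) X n)‖ := (ampOp d p).le_opNorm _
      _ ≤ 1 * (‖b P.ξ‖ * D) := mul_le_mul ((norm_ampOp_le p).trans (P.norm_cen_le hp)) hdef
          (norm_nonneg _) zero_le_one
      _ ≤ _ := by nlinarith [mul_le_mul_of_nonneg_right hbξ hD]
  choose A nA gA dA using stage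
  let U : Ultrafilter ℕ := Ultrafilter.of atTop
  have hev : ∀ k₀, ∀ᶠ k in (U : Filter ℕ), k₀ ≤ k := fun k₀ =>
    Ultrafilter.of_le _ (eventually_ge_atTop k₀)
  choose f hf using fun v => exists_wLim U (fun k => A k v)
    (Eventually.of_forall fun k => (A k).le_of_opNorm_le (nA k) v)
  let F : H →ₗ[ℂ] H :=
    { toFun := f
      map_add' := fun v w => (hf (v + w)).unique (((hf v).add (hf w)).congr
        (Eventually.of_forall fun k => ((A k).map_add v w).symm))
      map_smul' := fun c v => (hf (c • v)).unique (((hf v).smul c).congr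
        (Eventually.of_forall fun k => ((A k).map_smul c v).symm)) }
  set T : H →L[ℂ] H := F.mkContinuous r fun v =>
    (hf v).norm_le (Eventually.of_forall fun k => (A k).le_of_opNorm_le (nA k) v) with hT
  have hTv : ∀ v, WLim (U : Filter ℕ) (fun k => A k v) (T v) := fun v => hf v
  have gT : Equiv' P T := fun i g hg => by
    constructor <;> refine ContinuousLinearMap.ext fun v => ?_ <;>
      simp only [comp_mul_apply]
    · exact (hTv _).unique (((hTv v).map g).congr
        (Eventually.of_forall fun k => (DFunLike.congr_fun (gA k i g hg).1 v).symm))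
    · exact (hTv _).unique (((hTv v).map (P.conjOp g)).congr
        (Eventually.of_forall fun k => (DFunLike.congr_fun (gA k i g hg).2 v).symm))
  refine ⟨T, F.mkContinuous_norm_le hr _, gT, fun b hb d X n hd hX hn sX sn => ?_⟩
  have hloc : P.Loc (2 * D) (defect P T X n) := fun j q hq =>
    ((wLim_defect hTv X n).map (ampOp d q)).norm_le
      ((hev j).mono fun k hk => dA k d X n hd hX hn sX sn j hk q hq)
  have h1 := hloc.simple hb.simple
  rw [abs_of_nonneg (by positivity : (0 : ℝ) ≤ 2 * D)] at h1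
  rw [defect_reweigh hb (fun i g hg => (gT i g hg).1) hX hn, norm_smul, P.norm_wscale,
    inv_mul_le_iff₀ hb.norm_pos]
  exact h1.trans_eq (mul_comm _ _)

end Vale.Agent.P096.Full.Linear
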