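import Vale.Agent.P096.Full.Centre

/-!
P096, LINEAR: averages over the finite groups become central on the trace vector.
-/

open scoped InnerProductSpace ComplexConjugate
open Filter Topology

namespace Vale.Agent.P096.Full.Linear

universe u

variable {H : Type u} [NormedAddCommGroup H] [InnerProductSpace ℂ H] [CompleteSpace H]

/-- The features common to the two algebras of a pair. -/
structure Side (P : Pair H) (S : StarSubalgebra ℂ (H →L[ℂ] H)) : Prop where
  closed : IsClosed (S : Set (H →L[ℂ] H))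
  J_eq : ∀ x ∈ S, P.J (x P.ξ) = star x P.ξ
  dense : Dense ((fun x : H →L[ℂ] H => x P.ξ) '' (S : Set (H →L[ℂ] H)))
  gMem : ∀ k, ∀ g ∈ P.G k, g ∈ S
  comm : ∀ x ∈ S, ∀ y ∈ S, x * P.conjOp y = P.conjOp y * x
  cenComm : ∀ k, ∀ q ∈ P.cen k, ∀ x ∈ S, q * x = x * q

variable {P : Pair H} {S : StarSubalgebra ℂ (H →L[ℂ] H)}

theorem sideM (P : Pair H) : Side P P.M :=
  ⟨P.closed_M, P.J_M, P.dense_M, fun k g hg => (P.G_mem k g hg).1,
    fun _ hx _ hy => P.comm_M_conjOp hx hy, P.cen_comm⟩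

theorem sideN (P : Pair H) : Side P P.N :=
  ⟨P.closed_N, P.J_N, P.dense_N, fun k g hg => (P.G_mem k g hg).2.1,
    fun _ hx _ hy => P.comm_N_B hx ⟨_, hy, rfl⟩, fun _ _ hq _ hx => P.cen_comm_N hq hx⟩

lemma Side.cen_mem (hS : Side P S) {k : ℕ} {q : H →L[ℂ] H} (hq : q ∈ P.cen k) : q ∈ S := by
  rw [P.cen_eq hq]
  exact SMulMemClass.smul_mem _ (sub_mem (one_mem _) (hS.gMem k _ (P.cen_sym k q hq)))

lemma Side.conj_xi (hS : Side P S) {x : H →L[ℂ] H} (hx : x ∈ S) :
    P.conjOp x P.ξ = star x P.ξ := by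
  rw [P.conjOp_apply, P.J_xi, hS.J_eq x hx]

lemma Side.norm_star_xi (hS : Side P S) {x : H →L[ℂ] H} (hx : x ∈ S) :
    ‖star x P.ξ‖ = ‖x P.ξ‖ := by
  rw [← hS.J_eq x hx, LinearIsometryEquiv.norm_map]

lemma norm_le_one_of_star_mul_self {g : H →L[ℂ] H} (h : star g * g = 1) : ‖g‖ ≤ 1 :=
  g.opNorm_le_bound zero_le_one fun v => by
    have e : ‖g v‖ = ‖v‖ := by
      refine (pow_left_inj₀ (norm_nonneg _) (norm_nonneg _) two_ne_zero).1 ?_
      rw [← inner_self_eq_norm_sq (𝕜 := ℂ), ← inner_self_eq_norm_sq (𝕜 := ℂ),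
        ← ContinuousLinearMap.adjoint_inner_left, ← ContinuousLinearMap.star_eq_adjoint,
        ← ContinuousLinearMap.mul_apply, h, ContinuousLinearMap.one_apply]
    rw [one_mul, e]

lemma norm_G_le {k : ℕ} {g : H →L[ℂ] H} (hg : g ∈ P.G k) : ‖g‖ ≤ 1 :=
  norm_le_one_of_star_mul_self (P.G_mem k g hg).2.2.1

lemma G_le {k l : ℕ} (hkl : k ≤ l) : P.G k ⊆ P.G l := by
  induction hkl with
  | refl => exact subset_rfl
  | step _ ih => exact ih.trans (P.G_mono _)

lemma G_card_pos (k : ℕ) : 0 < (P.G k).card := Finset.card_pos.2 ⟨1, P.G_one k⟩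

lemma G_card_ne (k : ℕ) : ((P.G k).card : ℂ) ≠ 0 := Nat.cast_ne_zero.2 (G_card_pos k).ne'

/-- Reindexing the group by a translation on the left. -/
lemma sum_mul_left {E : Type*} [AddCommMonoid E] {k : ℕ} {h : H →L[ℂ] H} (hh : h ∈ P.G k)
    (f : (H →L[ℂ] H) → E) : ∑ g ∈ P.G k, f (h * g) = ∑ g ∈ P.G k, f g := by
  obtain ⟨-, -, h1, h2⟩ := P.G_mem k h hh
  exact Finset.sum_nbij' (fun g => h * g) (fun g => star h * g)
    (fun g hg => P.G_mul k h hh g hg) (fun g hg => P.G_mul k _ (P.G_star k h hh) g hg)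
    (fun g _ => by simp only [← mul_assoc, h1, one_mul])
    (fun g _ => by simp only [← mul_assoc, h2, one_mul]) (fun g _ => rfl)

lemma sum_mul_right {E : Type*} [AddCommMonoid E] {k : ℕ} {h : H →L[ℂ] H} (hh : h ∈ P.G k)
    (f : (H →L[ℂ] H) → E) : ∑ g ∈ P.G k, f (g * h) = ∑ g ∈ P.G k, f g := by
  obtain ⟨-, -, h1, h2⟩ := P.G_mem k h hh
  exact Finset.sum_nbij' (fun g => g * h) (fun g => g * star h)
    (fun g hg => P.G_mul k g hg h hh) (fun g hg => P.G_mul k g hg _ (P.G_star k h hh))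
    (fun g _ => by simp only [mul_assoc, h2, mul_one])
    (fun g _ => by simp only [mul_assoc, h1, mul_one]) (fun g _ => rfl)

lemma sum_star {E : Type*} [AddCommMonoid E] {k : ℕ} (f : (H →L[ℂ] H) → E) :
    ∑ g ∈ P.G k, f (star g) = ∑ g ∈ P.G k, f g :=
  Finset.sum_nbij' star star (fun g hg => P.G_star k g hg) (fun g hg => P.G_star k g hg)
    (fun g _ => star_star g) (fun g _ => star_star g) (fun g _ => rfl)

lemma conj_pair_mul {k l : ℕ} {g h : H →L[ℂ] H} (hg : g ∈ P.G k) (hh : h ∈ P.G l) :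
    g * P.conjOp g * (h * P.conjOp h) = g * h * P.conjOp (g * h) := by
  have e : P.conjOp g * h = h * P.conjOp g :=
    (P.comm_N_B (P.G_mem l h hh).2.1 ⟨g, (P.G_mem k g hg).2.1, rfl⟩).symm
  rw [P.conjOp_mul]
  simp only [mul_assoc]
  rw [← mul_assoc (P.conjOp g) h, e, mul_assoc]

/-- The average of `g J g J` over the group of level `k`. -/
noncomputable def meanU (P : Pair H) (k : ℕ) : H →L[ℂ] H :=
  ((P.G k).card : ℂ)⁻¹ • ∑ g ∈ P.G k, g * P.conjOp g

lemma star_meanU (k : ℕ) : star (meanU P k) = meanU P k := by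
  rw [meanU, star_smul, star_sum, star_inv₀, star_natCast, ← sum_star]
  refine congrArg _ (Finset.sum_congr rfl fun g hg => ?_)
  rw [star_mul, P.star_conjOp, star_star]
  exact (P.comm_N_B (P.G_mem k g hg).2.1 ⟨g, (P.G_mem k g hg).2.1, rfl⟩).symm

lemma pair_mul_meanU {k l : ℕ} (hkl : k ≤ l) {h : H →L[ℂ] H} (hh : h ∈ P.G k) :
    h * P.conjOp h * meanU P l = meanU P l := by
  rw [meanU, mul_smul_comm, Finset.mul_sum]
  rw [Finset.sum_congr rfl fun g hg => conj_pair_mul (G_le hkl hh) hg]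
  rw [sum_mul_left (G_le hkl hh) fun g => g * P.conjOp g]

lemma meanU_mul {k l : ℕ} (hkl : k ≤ l) : meanU P l * meanU P k = meanU P l := by
  have e : ∀ h ∈ P.G k, meanU P l * (h * P.conjOp h) = meanU P l := fun h hh => by
    rw [meanU, smul_mul_assoc, Finset.sum_mul]
    rw [Finset.sum_congr rfl fun g hg => conj_pair_mul hg (G_le hkl hh)]
    rw [sum_mul_right (G_le hkl hh) fun g => g * P.conjOp g]
  conv_lhs => rw [meanU.eq_def P k, mul_smul_comm, Finset.mul_sum, Finset.sum_congr rfl e,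
    Finset.sum_const, ← Nat.cast_smul_eq_nsmul ℂ, smul_smul, inv_mul_cancel₀ (G_card_ne k),
    one_smul]

lemma norm_meanU_le (k : ℕ) : ‖meanU P k‖ ≤ 1 := by
  rw [meanU, norm_smul, norm_inv, Complex.norm_natCast,
    inv_mul_le_one₀ (by exact_mod_cast G_card_pos k)]
  refine (norm_sum_le _ _).trans ((Finset.sum_le_card_nsmul _ _ 1 fun g hg => ?_).trans (by simp))
  exact (norm_mul_le _ _).trans (mul_le_one₀ (norm_G_le hg) (norm_nonneg _)
    ((P.norm_conjOp g).trans_le (norm_G_le hg)))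

lemma norm_sub_meanU_sq {k l : ℕ} (hkl : k ≤ l) (v : H) :
    ‖meanU P k v - meanU P l v‖ ^ 2 = ‖meanU P k v‖ ^ 2 - ‖meanU P l v‖ ^ 2 := by
  have h1 : meanU P l v = meanU P l (meanU P k v) := by
    rw [← ContinuousLinearMap.mul_apply, meanU_mul hkl]
  set w := meanU P k v
  have h2 : ⟪w, meanU P l w⟫_ℂ = ⟪meanU P l w, meanU P l w⟫_ℂ := by
    symm
    calc ⟪meanU P l w, meanU P l w⟫_ℂ
        = ⟪(star (meanU P l)) w, meanU P l w⟫_ℂ := by rw [star_meanU]
      _ = ⟪w, (meanU P l * meanU P l) w⟫_ℂ := by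
          rw [ContinuousLinearMap.star_eq_adjoint, ContinuousLinearMap.adjoint_inner_left,
            ContinuousLinearMap.mul_apply]
      _ = _ := by rw [meanU_mul le_rfl]
  rw [h1, norm_sub_sq (𝕜 := ℂ), h2, inner_self_eq_norm_sq]
  ring

/-- The coefficient of `v` on `q ξ`. -/
noncomputable def coef (P : Pair H) (q : H →L[ℂ] H) (v : H) : ℂ :=
  ⟪q P.ξ, v⟫_ℂ / ((‖q P.ξ‖ ^ 2 : ℝ) : ℂ)

/-- The projection on the vectors `q ξ` of level `k`. -/
noncomputable def proj (P : Pair H) (k : ℕ) (v : H) : H := ∑ q ∈ P.cen k, coef P q v • q P.ξ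

lemma cen_xi_sq_ne {k : ℕ} {q : H →L[ℂ] H} (hq : q ∈ P.cen k) :
    ((‖q P.ξ‖ ^ 2 : ℝ) : ℂ) ≠ 0 :=
  Complex.ofReal_ne_zero.2 (pow_ne_zero 2 (norm_ne_zero_iff.2 (P.cen_xi_ne hq)))

lemma inner_cen_right {k : ℕ} {q : H →L[ℂ] H} (hq : q ∈ P.cen k) (u v : H) :
    ⟪q u, v⟫_ℂ = ⟪u, q v⟫_ℂ := by
  conv_lhs => rw [← (P.cen_proj k q hq).1]
  rw [ContinuousLinearMap.star_eq_adjoint, ContinuousLinearMap.adjoint_inner_left]

lemma cen_apply_self {k : ℕ} {q : H →L[ℂ] H} (hq : q ∈ P.cen k) (v : H) : q (q v) = q v := by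
  rw [← comp_mul_apply, (P.cen_proj k q hq).2.1]

lemma cen_apply_ne {k : ℕ} {q p : H →L[ℂ] H} (hq : q ∈ P.cen k) (hp : p ∈ P.cen k) (h : q ≠ p)
    (v : H) : q (p v) = 0 := by
  rw [← comp_mul_apply, P.cen_orth k q hq p hp h, zero_apply]

lemma proj_cen {k : ℕ} {p : H →L[ℂ] H} (hp : p ∈ P.cen k) (v : H) :
    p (proj P k v) = coef P p v • p P.ξ := by
  rw [proj, map_sum, Finset.sum_eq_single p]
  · rw [map_smul, cen_apply_self hp]
  · intro q hq hne
    rw [map_smul, cen_apply_ne hp hq (Ne.symm hne), smul_zero]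
  · exact fun h => absurd hp h

lemma norm_proj_le (k : ℕ) (v : H) : ‖proj P k v‖ ≤ ‖v‖ := by
  refine (pow_le_pow_iff_left₀ (norm_nonneg _) (norm_nonneg _) two_ne_zero).1 ?_
  have e : ∀ w : H, ‖w‖ ^ 2 = ∑ q ∈ P.cen k, ‖q w‖ ^ 2 := fun w => by
    rw [← P.sum_norm_sq (P.cen k) subset_rfl w, P.cen_sum, one_apply_eq_self]
  rw [e, e v]
  refine Finset.sum_le_sum fun q hq => pow_le_pow_left₀ (norm_nonneg _) ?_ 2
  rw [proj_cen hq, coef, norm_smul, norm_div, Complex.norm_real, Real.norm_of_nonneg (sq_nonneg _)]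
  have hp := norm_pos_iff.2 (P.cen_xi_ne hq)
  have h1 : ‖⟪q P.ξ, v⟫_ℂ‖ ≤ ‖q P.ξ‖ * ‖q v‖ := by
    have e2 : ⟪q P.ξ, v⟫_ℂ = ⟪q P.ξ, q v⟫_ℂ := by
      rw [← inner_cen_right hq, cen_apply_self hq]
    rw [e2]
    exact norm_inner_le_norm _ _
  rw [div_mul_eq_mul_div, div_le_iff₀ (pow_pos hp 2)]
  calc _ ≤ ‖q P.ξ‖ * ‖q v‖ * ‖q P.ξ‖ := mul_le_mul_of_nonneg_right h1 hp.le
    _ = _ := by ring

lemma proj_sub (k : ℕ) (u v : H) : proj P k (u - v) = proj P k u - proj P k v := by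
  simp only [proj, coef, inner_sub_right, sub_div, sub_smul, Finset.sum_sub_distrib]

lemma proj_smul_add (k : ℕ) (c : ℂ) (u v : H) :
    proj P k (c • u + v) = c • proj P k u + proj P k v := by
  simp only [proj, coef, inner_add_right, inner_smul_right, add_div, mul_div_assoc, add_smul,
    mul_smul, Finset.sum_add_distrib, Finset.smul_sum]

lemma proj_fix {j k : ℕ} (hjk : j ≤ k) {q : H →L[ℂ] H} (hq : q ∈ P.cen j) :
    proj P k (q P.ξ) = q P.ξ := by
  classical
  have e : ∀ p ∈ P.cen k, proj P k (p P.ξ) = p P.ξ := fun p hp => by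
    rw [proj, Finset.sum_eq_single p]
    · rw [coef, show ⟪p P.ξ, p P.ξ⟫_ℂ = ((‖p P.ξ‖ ^ 2 : ℝ) : ℂ) by
        rw [inner_self_eq_norm_sq_to_K]; norm_cast, div_self (cen_xi_sq_ne hp), one_smul]
    · intro r hr hne
      rw [coef, inner_cen_right hr, cen_apply_ne hr hp hne, inner_zero_right, zero_div,
        zero_smul]
    · exact fun h => absurd hp h
  have sums : ∀ t : Finset (H →L[ℂ] H), t ⊆ P.cen k →
      proj P k (∑ p ∈ t, p P.ξ) = ∑ p ∈ t, p P.ξ := by
    intro t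
    induction t using Finset.cons_induction with
    | empty => intro _; simp [proj, coef]
    | cons r t hr ih =>
      intro ht
      rw [Finset.sum_cons, ← one_smul ℂ (r P.ξ), proj_smul_add, one_smul,
        e r (ht (Finset.mem_cons_self r t)), ih fun p hp => ht (Finset.mem_cons_of_mem hp), one_smul]
  rw [← P.cen_split hjk hq, sum_apply]
  exact sums _ fun p hp => (P.mem_under.1 hp).1

/-- The projections exhaust the closed span. -/
theorem tendsto_proj {w : H}
    (hw : w ∈ (Submodule.span ℂ {v | ∃ k, ∃ q ∈ P.cen k, v = q P.ξ}).topologicalClosure) :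
    Tendsto (fun k => proj P k w) atTop (𝓝 w) := by
  rw [Metric.tendsto_atTop]
  intro ε hε
  obtain ⟨u, hu, hd⟩ := Metric.mem_closure_iff.1 hw (ε / 2) (by positivity)
  have hfix : ∃ k₀, ∀ k ≥ k₀, proj P k u = u := by
    clear hd
    induction hu using Submodule.span_induction with
    | mem x hx => obtain ⟨j, q, hq, rfl⟩ := hx; exact ⟨j, fun k hk => proj_fix hk hq⟩
    | zero => exact ⟨0, fun k _ => by simp [proj, coef]⟩
    | add x y _ _ hx hy =>
      obtain ⟨i, hi⟩ := hx; obtain ⟨j, hj⟩ := hy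
      refine ⟨max i j, fun k hk => ?_⟩
      conv_lhs => rw [← one_smul ℂ x]
      rw [proj_smul_add, hi k ((le_max_left _ _).trans hk), hj k ((le_max_right _ _).trans hk),
        one_smul]
    | smul c x _ hx =>
      obtain ⟨i, hi⟩ := hx
      refine ⟨i, fun k hk => ?_⟩
      conv_lhs => rw [← add_zero (c • x)]
      rw [proj_smul_add, hi k hk]
      simp [proj, coef]
  obtain ⟨k₀, hk₀⟩ := hfix
  refine ⟨k₀, fun k hk => ?_⟩
  rw [dist_eq_norm] at hd ⊢
  calc ‖proj P k w - w‖ = ‖proj P k (w - u) - (w - u)‖ := by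
        rw [proj_sub, hk₀ k hk]; congr 1; abel
    _ ≤ ‖proj P k (w - u)‖ + ‖w - u‖ := norm_sub_le _ _
    _ < ε := by linarith [norm_proj_le (P := P) k (w - u)]

lemma pair_fix_cen {k l : ℕ} {g q : H →L[ℂ] H} (hg : g ∈ P.G k) (hq : q ∈ P.cen l) :
    (g * P.conjOp g) (q P.ξ) = q P.ξ := by
  have e : (g * P.conjOp g) P.ξ = P.ξ := by
    rw [ContinuousLinearMap.mul_apply, P.conjOp_apply_xi (P.G_mem k g hg).2.1,
      ← ContinuousLinearMap.mul_apply, (P.G_mem k g hg).2.2.2, ContinuousLinearMap.one_apply]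
  have c : (g * P.conjOp g) * q = q * (g * P.conjOp g) := by
    rw [mul_assoc, ← P.cen_comm_B hq ⟨g, (P.G_mem k g hg).2.1, rfl⟩, ← mul_assoc,
      ← P.cen_comm l q hq g (P.G_mem k g hg).1, mul_assoc]
  rw [← ContinuousLinearMap.mul_apply, c, ContinuousLinearMap.mul_apply, e]

/-- The averages and the projections have the same limit. -/
theorem tendsto_meanU (v : H) :
    Tendsto (fun k => meanU P k v - proj P k v) atTop (𝓝 0) := by
  set a : ℕ → ℝ := fun k => ‖meanU P k v‖ ^ 2 with ha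
  have anti : Antitone a := fun k l hkl => by
    have := norm_sub_meanU_sq (P := P) hkl v
    simp only [a]
    linarith [sq_nonneg ‖meanU P k v - meanU P l v‖]
  have bdd : BddBelow (Set.range a) := ⟨0, by rintro _ ⟨k, rfl⟩; exact sq_nonneg _⟩
  have hl := tendsto_atTop_ciInf anti bdd
  have cs : CauchySeq fun k => meanU P k v := by
    refine cauchySeq_of_le_tendsto_0 (fun N => 2 * √(a N - ⨅ k, a k)) (fun n m N hn hm => ?_) ?_
    · have e : ∀ n, N ≤ n → dist (meanU P N v) (meanU P n v) ≤ √(a N - ⨅ k, a k) := fun n hn => by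
        rw [dist_eq_norm]
        refine Real.le_sqrt_of_sq_le ?_
        rw [norm_sub_meanU_sq hn v]
        linarith [ciInf_le bdd n, show ‖meanU P n v‖ ^ 2 = a n from rfl,
          show ‖meanU P N v‖ ^ 2 = a N from rfl]
      calc _ ≤ dist (meanU P n v) (meanU P N v) + dist (meanU P N v) (meanU P m v) :=
            dist_triangle _ _ _
        _ ≤ _ := by rw [dist_comm, two_mul]; exact add_le_add (e n hn) (e m hm)
    · simpa using ((hl.sub_const (⨅ k, a k)).sqrt).const_mul 2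
  obtain ⟨w, hw⟩ := cauchySeq_tendsto_of_complete cs
  have hwfix := P.G_fix w fun k g hg => by
    have h : Tendsto (fun l => (g * P.conjOp g) (meanU P l v)) atTop
        (𝓝 ((g * P.conjOp g) w)) := ((g * P.conjOp g).continuous.tendsto w).comp hw
    exact tendsto_nhds_unique (h.congr' ((eventually_ge_atTop k).mono fun l hl => by
      rw [← ContinuousLinearMap.mul_apply, pair_mul_meanU hl hg])) hw
  have hproj : ∀ k, proj P k w = proj P k v := fun k => by
    refine Finset.sum_congr rfl fun q hq => ?_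
    have hξ : ∀ l, meanU P l (q P.ξ) = q P.ξ := fun l => by
      rw [meanU, smul_apply, sum_apply, Finset.sum_congr rfl fun g hg => pair_fix_cen hg hq,
        Finset.sum_const, ← Nat.cast_smul_eq_nsmul ℂ, smul_smul,
        inv_mul_cancel₀ (G_card_ne l), one_smul]
    have hin : ⟪q P.ξ, w⟫_ℂ = ⟪q P.ξ, v⟫_ℂ := by
      refine tendsto_nhds_unique (((continuous_const.inner continuous_id).tendsto w).comp hw)
        (tendsto_const_nhds.congr fun l => ?_)
      rw [Function.comp_apply, id_eq, ← star_meanU l, ContinuousLinearMap.star_eq_adjoint,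
        ContinuousLinearMap.adjoint_inner_right, hξ]
    rw [coef, coef, hin]
  simpa only [hproj, sub_self] using hw.sub (tendsto_proj hwfix)

/-- The average of the conjugates of `y`. -/
noncomputable def av (P : Pair H) (k : ℕ) (y : H →L[ℂ] H) : H →L[ℂ] H :=
  ((P.G k).card : ℂ)⁻¹ • ∑ g ∈ P.G k, g * y * star g

lemma Side.av_mem (hS : Side P S) (k : ℕ) {y : H →L[ℂ] H} (hy : y ∈ S) : av P k y ∈ S :=
  SMulMemClass.smul_mem _ <| sum_mem fun g hg =>
    mul_mem (mul_mem (hS.gMem k g hg) hy) (star_mem (hS.gMem k g hg))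

lemma av_commute {k : ℕ} {h : H →L[ℂ] H} (hh : h ∈ P.G k) (y : H →L[ℂ] H) :
    Commute h (av P k y) := by
  show h * av P k y = av P k y * h
  have e : (h * ∑ g ∈ P.G k, g * y * star g) = (∑ g ∈ P.G k, g * y * star g) * h := by
    rw [Finset.mul_sum, Finset.sum_mul, ← sum_mul_left hh fun g => g * y * star g * h]
    refine Finset.sum_congr rfl fun g _ => ?_
    simp only [star_mul, mul_assoc, (P.G_mem k h hh).2.2.1, mul_one]
  rw [av, mul_smul_comm, smul_mul_assoc, e]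

lemma Side.av_xi (hS : Side P S) (k : ℕ) {y : H →L[ℂ] H} (hy : y ∈ S) :
    av P k y P.ξ = meanU P k (y P.ξ) := by
  simp only [av, meanU, smul_apply, sum_apply]
  refine congrArg _ (Finset.sum_congr rfl fun g hg => ?_)
  simp only [ContinuousLinearMap.mul_apply]
  rw [← hS.conj_xi (hS.gMem k g hg), ← ContinuousLinearMap.mul_apply y,
    hS.comm y hy g (hS.gMem k g hg), ContinuousLinearMap.mul_apply]

/-- The central operator of the coefficients of `y ξ`. -/
noncomputable def cavg (P : Pair H) (k : ℕ) (y : H →L[ℂ] H) : H →L[ℂ] H :=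
  ∑ q ∈ P.cen k, coef P q (y P.ξ) • q

lemma Side.cavg_mem (hS : Side P S) (k : ℕ) (y : H →L[ℂ] H) : cavg P k y ∈ S :=
  sum_mem fun _ hq => SMulMemClass.smul_mem _ (hS.cen_mem hq)

lemma cavg_xi (k : ℕ) (y : H →L[ℂ] H) : cavg P k y P.ξ = proj P k (y P.ξ) := by
  simp only [cavg, proj, sum_apply, smul_apply]

/-- Averages become central on the trace vector. -/
theorem Side.tendsto_av (hS : Side P S) {y : H →L[ℂ] H} (hy : y ∈ S) :
    Tendsto (fun k => av P k y P.ξ - cavg P k y P.ξ) atTop (𝓝 0) := by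
  simpa only [hS.av_xi _ hy, cavg_xi] using tendsto_meanU (P := P) (y P.ξ)

end Vale.Agent.P096.Full.Linear
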