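import Vale.Agent.P096.Full.Linear.Limit
import Vale.Agent.P096.Full.Linear.Average

/-!
P096, LINEAR: the central operator with the same value at the trace vector.
-/

open scoped InnerProductSpace ComplexConjugate
open Filter Topology

namespace Vale.Agent.P096.Full.Linear

universe u

variable {H : Type u} [NormedAddCommGroup H] [InnerProductSpace ℂ H] [CompleteSpace H]
variable {P : Pair H}

/-- An operator commuting with the groups fixes the span of the parts at the trace vector. -/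
lemma Equiv'.pair_fix {T : H →L[ℂ] H} (hT : Equiv' P T) {k : ℕ} {g : H →L[ℂ] H} (hg : g ∈ P.G k) :
    (g * P.conjOp g) (T P.ξ) = T P.ξ := by
  obtain ⟨h1, h2⟩ := hT k g hg
  have e : (g * P.conjOp g) P.ξ = P.ξ := by
    rw [mul_apply_eq_comp, P.conjOp_apply_xi (P.G_mem k g hg).2.1, ← mul_apply_eq_comp,
      (P.G_mem k g hg).2.2.2, one_apply_eq_self]
  have c : (g * P.conjOp g) * T = T * (g * P.conjOp g) := by
    rw [mul_assoc, ← h2, ← mul_assoc, ← h1, mul_assoc]
  rw [← mul_apply_eq_comp, c, mul_apply_eq_comp, e]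

/-- An operator commuting with the groups sends the trace vector into the span of the parts. -/
lemma Equiv'.tendsto_proj_xi {T : H →L[ℂ] H} (hT : Equiv' P T) :
    Tendsto (fun k => proj P k (T P.ξ)) atTop (𝓝 (T P.ξ)) :=
  tendsto_proj (P.G_fix _ fun k g hg => hT.pair_fix hg)

lemma inner_cen_apply {T : H →L[ℂ] H} (hT : Equiv' P T) {k : ℕ} {q : H →L[ℂ] H}
    (hq : q ∈ P.cen k) : ⟪q P.ξ, T P.ξ⟫_ℂ = ⟪q P.ξ, T (q P.ξ)⟫_ℂ := by
  conv_rhs => rw [← mul_apply_eq_comp T, P.cen_commute_of (fun k g hg => (hT k g hg).1) hq,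
    mul_apply_eq_comp, ← inner_cen_right hq, cen_apply_self hq]

/-- The central operator with the same value at the trace vector. -/
theorem exists_central {T : H →L[ℂ] H} {a : ℝ} (hT : Equiv' P T) (hJ : P.conjOp T = T)
    (ha : ‖T‖ ≤ a) :
    ∃ c : H →L[ℂ] H, ‖c‖ ≤ a ∧ (∀ x ∈ P.M, c * x = x * c) ∧ (∀ x ∈ P.B, c * x = x * c) ∧
      P.conjOp c = c ∧ Equiv' P c ∧ c P.ξ = T P.ξ := by
  have ha0 : 0 ≤ a := (norm_nonneg T).trans ha
  have hre : ∀ k, ∀ q ∈ P.cen k, conj (coef P q (T P.ξ)) = coef P q (T P.ξ) := fun k q hq => by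
    have e1 : P.J (q P.ξ) = q P.ξ := by
      conv_rhs => rw [← P.conjOp_cen hq, P.conjOp_apply, P.J_xi]
    have e2 : P.J (T P.ξ) = T P.ξ := by
      conv_rhs => rw [← hJ, P.conjOp_apply, P.J_xi]
    have e3 := P.inner_J (q P.ξ) (T P.ξ)
    rw [e1, e2] at e3
    rw [coef, map_div₀, Complex.conj_ofReal, ← e3]
  have hcb : ∀ k, ∀ q ∈ P.cen k, ‖coef P q (T P.ξ)‖ ≤ a := fun k q hq => by
    have hp := norm_pos_iff.2 (P.cen_xi_ne hq)
    rw [coef, norm_div, Complex.norm_real, Real.norm_of_nonneg (sq_nonneg _),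
      div_le_iff₀ (pow_pos hp 2), inner_cen_apply hT hq]
    refine (norm_inner_le_norm _ _).trans ?_
    calc ‖q P.ξ‖ * ‖T (q P.ξ)‖ ≤ ‖q P.ξ‖ * (a * ‖q P.ξ‖) :=
          mul_le_mul_of_nonneg_left (T.le_of_opNorm_le ha _) (norm_nonneg _)
      _ = _ := by ring
  set e : ℕ → H →L[ℂ] H := fun k => cavg P k T with he
  have heq : ∀ k, ∀ r ∈ P.cen k, e k * r = coef P r (T P.ξ) • r := fun k r hr => by
    simp only [e, cavg, Finset.sum_mul, smul_mul_assoc]
    rw [Finset.sum_eq_single r (fun q hq hne => by rw [P.cen_orth k q hq r hr hne, smul_zero])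
      (fun h => absurd hr h), (P.cen_proj k r hr).2.1]
  have hs : ∀ k, P.Simple (e k) := fun k => ⟨k, fun r hr => ⟨(coef P r (T P.ξ)).re, by
    rw [heq k r hr]
    congr 1
    exact (Complex.conj_eq_iff_re.1 (hre k r hr)).symm⟩⟩
  have hbd : ∀ k v, ‖e k v‖ ≤ a * ‖v‖ := fun k v => by
    refine (pow_le_pow_iff_left₀ (norm_nonneg _) (by positivity) two_ne_zero).1 ?_
    have sp : ∀ w : H, ‖w‖ ^ 2 = ∑ q ∈ P.cen k, ‖q w‖ ^ 2 := fun w => by
      rw [← P.sum_norm_sq (P.cen k) subset_rfl w, P.cen_sum, one_apply_eq_self]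
    rw [mul_pow, sp, sp v, Finset.mul_sum]
    refine Finset.sum_le_sum fun q hq => ?_
    rw [← mul_apply_eq_comp q, ← (hs k).comm_M (P.cen_memM hq), heq k q hq, smul_apply, norm_smul,
      mul_pow]
    exact mul_le_mul_of_nonneg_right (pow_le_pow_left₀ (norm_nonneg _) (hcb k q hq) 2) (sq_nonneg _)
  have hξ : Tendsto (fun k => e k P.ξ) atTop (𝓝 (T P.ξ)) := by
    simpa only [e, cavg_xi] using hT.tendsto_proj_xi
  have hex : ∀ v : H, ∃ w, Tendsto (fun k => e k v) atTop (𝓝 w) := fun v => by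
    refine cauchySeq_tendsto_of_complete (Metric.cauchySeq_iff.2 fun ε hε => ?_)
    set δ : ℝ := ε / (4 * (a + 1)) with hδ
    obtain ⟨u, ⟨y, hy, hu⟩, hd⟩ := P.dense_M.exists_dist_lt v (show 0 < δ by positivity)
    have hu' : Tendsto (fun k => e k u) atTop (𝓝 (y (T P.ξ))) :=
      ((y.continuous.tendsto _).comp hξ).congr fun k => by
        rw [Function.comp_apply, ← hu, ← mul_apply_eq_comp y, ← (hs k).comm_M hy,
          mul_apply_eq_comp]
    obtain ⟨N, hN⟩ := Metric.cauchySeq_iff.1 hu'.cauchySeq (ε / 2) (half_pos hε)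
    refine ⟨N, fun m hm n hn => ?_⟩
    have hb : ∀ k, dist (e k v) (e k u) ≤ a * δ := fun k => by
      rw [dist_eq_norm, ← map_sub]
      refine (hbd k _).trans (mul_le_mul_of_nonneg_left ?_ ha0)
      rw [← dist_eq_norm]; exact hd.le
    have h4 : a * δ ≤ ε / 4 := by
      rw [hδ, mul_div_assoc', div_le_div_iff₀ (by positivity) (by norm_num)]
      nlinarith
    calc dist (e m v) (e n v)
        ≤ dist (e m v) (e m u) + dist (e m u) (e n u) + dist (e n u) (e n v) :=
          dist_triangle4 _ _ _ _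
      _ < ε := by rw [dist_comm (e n u)]; linarith [hb m, hb n, hN m hm n hn]
  choose f hf using hex
  let g : H →ₗ[ℂ] H :=
    { toFun := f
      map_add' := fun u v => tendsto_nhds_unique (hf (u + v))
        (by simpa only [map_add] using (hf u).add (hf v))
      map_smul' := fun z v => tendsto_nhds_unique (hf (z • v))
        (by simpa only [map_smul, RingHom.id_apply] using (hf v).const_smul z) }
  have hfb : ∀ v, ‖g v‖ ≤ a * ‖v‖ := fun v =>
    le_of_tendsto (hf v).norm (Eventually.of_forall fun k => hbd k v)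
  set c : H →L[ℂ] H := g.mkContinuous a hfb with hc
  have hcl : ∀ v, Tendsto (fun k => e k v) atTop (𝓝 (c v)) := hf
  have comm : ∀ x : H →L[ℂ] H, (∀ k, e k * x = x * e k) → c * x = x * c := fun x hx =>
    ContinuousLinearMap.ext fun v => tendsto_nhds_unique (hcl (x v))
      (((x.continuous.tendsto _).comp (hcl v)).congr fun k => by
        rw [Function.comp_apply, ← mul_apply_eq_comp x, ← hx k, mul_apply_eq_comp])
  refine ⟨c, g.mkContinuous_norm_le ha0 hfb, fun x hx => comm x fun k => (hs k).comm_M hx,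
    fun x hx => comm x fun k => (hs k).comm_B hx, ?_, fun k g hg => ?_,
    tendsto_nhds_unique (hcl P.ξ) hξ⟩
  · refine ContinuousLinearMap.ext fun v => tendsto_nhds_unique ?_ (hcl v)
    rw [P.conjOp_apply]
    refine ((P.J.continuous.tendsto _).comp (hcl (P.J v))).congr fun k => ?_
    rw [Function.comp_apply, ← P.conjOp_apply, (hs k).spec.2.2]
  · exact ⟨comm g fun l => (hs l).comm_M (P.G_mem k g hg).1,
      comm _ fun l => (hs l).comm_B ⟨g, (P.G_mem k g hg).2.1, rfl⟩⟩

end Vale.Agent.P096.Full.Linear
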