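import Vale.Agent.P096.Full.Linear.Average

/-!
P096, LINEAR: an operator commuting with the conjugation and the groups is controlled by its
quadratic form on self-adjoint contractions.
-/

open scoped InnerProductSpace ComplexConjugate
open Filter Topology

namespace Vale.Agent.P096.Full.Linear

universe u

variable {H : Type u} [NormedAddCommGroup H] [InnerProductSpace ℂ H] [CompleteSpace H]
variable {P : Pair H}

/-- The mean over all choices of signs of a function of the signed sum. -/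
noncomputable def signAvg {A : Type*} [AddCommGroup A] : (A → ℝ) → List A → ℝ
  | f, [] => f 0
  | f, y :: l => signAvg (fun w => (f (w + y) + f (w - y)) / 2) l

section signs

variable {A : Type*} [AddCommGroup A]

lemma signAvg_add (f g : A → ℝ) (l : List A) :
    signAvg (fun w => f w + g w) l = signAvg f l + signAvg g l := by
  induction l generalizing f g with
  | nil => rfl
  | cons y l ih =>
    simp only [signAvg]
    rw [← ih]
    exact congrArg (fun h => signAvg h l) (funext fun w => by ring)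

lemma signAvg_mul (c : ℝ) (f : A → ℝ) (l : List A) :
    signAvg (fun w => c * f w) l = c * signAvg f l := by
  induction l generalizing f with
  | nil => rfl
  | cons y l ih =>
    simp only [signAvg]
    rw [← ih]
    exact congrArg (fun h => signAvg h l) (funext fun w => by ring)

lemma signAvg_const (c : ℝ) (l : List A) : signAvg (fun _ : A => c) l = c := by
  induction l with
  | nil => rfl
  | cons y l ih => simp only [signAvg, add_self_div_two]; exact ih

lemma signAvg_mono {p : A → Prop} (h0 : p 0) {l : List A}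
    (hl : ∀ y ∈ l, ∀ w, p w → p (w + y) ∧ p (w - y)) {f g : A → ℝ} (h : ∀ w, p w → f w ≤ g w) :
    signAvg f l ≤ signAvg g l := by
  induction l generalizing f g with
  | nil => exact h 0 h0
  | cons y l ih =>
    refine ih (fun z hz => hl z (List.mem_cons_of_mem _ hz)) fun w hw => ?_
    have hy := hl y List.mem_cons_self w hw
    linarith [h _ hy.1, h _ hy.2]

end signs

/-- The quadratic form of an operator. -/
noncomputable def qf (T : H →L[ℂ] H) (v : H) : ℝ := RCLike.re ⟪v, T v⟫_ℂ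

omit [CompleteSpace H] in
lemma qf_par (T : H →L[ℂ] H) (u v : H) :
    qf T (u + v) + qf T (u - v) = 2 * qf T u + 2 * qf T v := by
  simp only [qf, map_add, map_sub, inner_add_left, inner_add_right, inner_sub_left,
    inner_sub_right]
  ring

omit [CompleteSpace H] in
lemma qf_smul (T : H →L[ℂ] H) (c : ℂ) (v : H) : qf T (c • v) = ‖c‖ ^ 2 * qf T v := by
  simp only [qf, map_smul, inner_smul_left, inner_smul_right, ← mul_assoc]
  rw [mul_comm (c : ℂ) _, Complex.conj_mul']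
  simp [← Complex.ofReal_pow]

omit [CompleteSpace H] in
lemma signAvg_qf (T : H →L[ℂ] H) (v : H) (l : List (H →L[ℂ] H)) :
    signAvg (fun w => qf T (w v)) l = (l.map fun y => qf T (y v)).sum := by
  induction l with
  | nil => simp [signAvg, qf]
  | cons y l ih =>
    simp only [signAvg, List.map_cons, List.sum_cons, add_apply, sub_apply]
    simp only [qf_par]
    have e : (fun w : H →L[ℂ] H => (2 * qf T (w v) + 2 * qf T (y v)) / 2) =
        fun w => qf T (w v) + qf T (y v) := funext fun w => by ring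
    rw [e, signAvg_add, signAvg_const, ih, add_comm]

omit [CompleteSpace H] in
lemma signAvg_sq (u v : H) (l : List (H →L[ℂ] H)) :
    signAvg (fun w => RCLike.re ⟪(w * w) u, v⟫_ℂ) l =
      RCLike.re ⟪((l.map fun y => y * y).sum : H →L[ℂ] H) u, v⟫_ℂ := by
  induction l with
  | nil => simp [signAvg]
  | cons y l ih =>
    simp only [signAvg, List.map_cons, List.sum_cons]
    have e : (fun w : H →L[ℂ] H => (RCLike.re ⟪((w + y) * (w + y)) u, v⟫_ℂ +
        RCLike.re ⟪((w - y) * (w - y)) u, v⟫_ℂ) / 2) =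
        fun w => RCLike.re ⟪(w * w) u, v⟫_ℂ + RCLike.re ⟪(y * y) u, v⟫_ℂ := funext fun w => by
      simp only [add_mul, mul_add, sub_mul, mul_sub, add_apply, sub_apply, inner_add_left,
        inner_sub_left, map_add, map_sub]
      ring
    rw [e, signAvg_add, signAvg_const, ih, add_apply (y * y), inner_add_left, map_add, add_comm]

/-- The trace property on the trace vector. -/
lemma inner_xi_comm {z w : H →L[ℂ] H} (hz : z ∈ P.M) (hw : w ∈ P.M) :
    ⟪P.ξ, (z * w) P.ξ⟫_ℂ = ⟪P.ξ, (w * z) P.ξ⟫_ℂ := by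
  have e : ∀ (a b : H →L[ℂ] H), ⟪P.ξ, (a * b) P.ξ⟫_ℂ = ⟪star a P.ξ, b P.ξ⟫_ℂ := fun a b => by
    rw [mul_apply_eq_comp, ContinuousLinearMap.star_eq_adjoint,
      ContinuousLinearMap.adjoint_inner_left]
  rw [e, e, ← P.J_M z hz, P.inner_J_left, P.J_M w hw, inner_conj_symm]

/-- Products in either order of two self-adjoint elements. -/
lemma norm_anticomm_sq_le {a b : H →L[ℂ] H} (ha : a ∈ P.M) (hb : b ∈ P.M) (has : star a = a)
    (hbs : star b = b) :
    ‖(a * b + b * a) P.ξ‖ ^ 2 ≤ 4 * RCLike.re ⟪(a * a) P.ξ, (b * b) P.ξ⟫_ℂ := by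
  have h1 : ‖(b * a) P.ξ‖ = ‖(a * b) P.ξ‖ := by
    rw [← LinearIsometryEquiv.norm_map P.J ((a * b) P.ξ), P.J_M _ (mul_mem ha hb), star_mul,
      has, hbs]
  have h2 : ⟪(a * b) P.ξ, (a * b) P.ξ⟫_ℂ = ⟪(a * a) P.ξ, (b * b) P.ξ⟫_ℂ := by
    calc ⟪(a * b) P.ξ, (a * b) P.ξ⟫_ℂ
        = ⟪P.ξ, (b * (a * (a * b))) P.ξ⟫_ℂ := by
          rw [show b * (a * (a * b)) = star (a * b) * (a * b) by
            simp only [star_mul, has, hbs, mul_assoc], mul_apply_eq_comp
              (star (a * b)), ContinuousLinearMap.star_eq_adjoint,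
            ContinuousLinearMap.adjoint_inner_right]
      _ = ⟪P.ξ, ((a * (a * b)) * b) P.ξ⟫_ℂ := inner_xi_comm hb (mul_mem ha (mul_mem ha hb))
      _ = _ := by
          rw [show a * (a * b) * b = star (a * a) * (b * b) by
            simp only [star_mul, has, mul_assoc], mul_apply_eq_comp
              (star (a * a)), ContinuousLinearMap.star_eq_adjoint,
            ContinuousLinearMap.adjoint_inner_right]
  rw [← h2, inner_self_eq_norm_sq, add_apply]
  nlinarith [norm_add_le ((a * b) P.ξ) ((b * a) P.ξ), norm_nonneg ((a * b) P.ξ + (b * a) P.ξ),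
    norm_nonneg ((a * b) P.ξ)]

/-- The fourth moment of a signed sum. -/
lemma signAvg_fourth {l : List (H →L[ℂ] H)} (hl : ∀ y ∈ l, y ∈ P.M ∧ star y = y) :
    signAvg (fun w => ‖(w * w) P.ξ‖ ^ 2) l ≤
      3 * ‖((l.map fun y => y * y).sum : H →L[ℂ] H) P.ξ‖ ^ 2 := by
  induction l with
  | nil => simp [signAvg]
  | cons y l ih =>
    have hl' : ∀ z ∈ l, z ∈ P.M ∧ star z = z := fun z hz => hl z (List.mem_cons_of_mem _ hz)
    obtain ⟨hy, hys⟩ := hl y List.mem_cons_self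
    set v := (y * y) P.ξ
    have key : signAvg (fun w => (‖((w + y) * (w + y)) P.ξ‖ ^ 2 +
        ‖((w - y) * (w - y)) P.ξ‖ ^ 2) / 2) l ≤
        signAvg (fun w => ‖(w * w) P.ξ‖ ^ 2 +
          (6 * RCLike.re ⟪(w * w) P.ξ, v⟫_ℂ + ‖v‖ ^ 2)) l := by
      refine signAvg_mono (p := fun w => w ∈ P.M ∧ star w = w) ⟨zero_mem _, star_zero _⟩
        (fun z hz w hw => ⟨⟨add_mem hw.1 (hl' z hz).1, by rw [star_add, hw.2, (hl' z hz).2]⟩,
          sub_mem hw.1 (hl' z hz).1, by rw [star_sub, hw.2, (hl' z hz).2]⟩) fun w hw => ?_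
      have e1 : ((w + y) * (w + y)) P.ξ = ((w * w) P.ξ + v) + (w * y + y * w) P.ξ := by
        simp only [v, add_mul, mul_add, add_apply]; abel
      have e2 : ((w - y) * (w - y)) P.ξ = ((w * w) P.ξ + v) - (w * y + y * w) P.ξ := by
        simp only [v, sub_mul, mul_sub, add_apply, sub_apply]; abel
      rw [e1, e2]
      have h1 := parallelogram_law_with_norm ℂ ((w * w) P.ξ + v) ((w * y + y * w) P.ξ)
      have h2 := norm_add_sq (𝕜 := ℂ) ((w * w) P.ξ) v
      have h3 : ‖(w * y + y * w) P.ξ‖ ^ 2 ≤ 4 * RCLike.re ⟪(w * w) P.ξ, v⟫_ℂ :=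
        norm_anticomm_sq_le hw.1 hy hw.2 hys
      linarith
    rw [signAvg_add, signAvg_add, signAvg_mul, signAvg_sq, signAvg_const] at key
    simp only [signAvg, List.map_cons, List.sum_cons]
    rw [add_apply (y * y), add_comm ((y * y) P.ξ), norm_add_sq (𝕜 := ℂ)]
    nlinarith [ih hl', sq_nonneg ‖v‖]

/-- Functions of a self-adjoint operator compare pointwise on vectors. -/
lemma norm_cfc_apply_le {W : H →L[ℂ] H} (hW : IsSelfAdjoint W) {f g : ℝ → ℝ} (hf : Continuous f)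
    (hg : Continuous g) (h : ∀ r, |f r| ≤ |g r|) (v : H) : ‖cfc f W v‖ ≤ ‖cfc g W v‖ := by
  have hpos : 0 ≤ cfc g W * cfc g W - cfc f W * cfc f W := by
    rw [← cfc_mul g g W, ← cfc_mul f f W, ← cfc_sub (fun r => g r * g r) (fun r => f r * f r) W]
    exact cfc_nonneg fun r _ => sub_nonneg.2 (abs_le_iff_mul_self_le.1 (h r))
  have h1 := ((ContinuousLinearMap.nonneg_iff_isPositive _).1 hpos).inner_nonneg_right v
  have e : ∀ (f : ℝ → ℝ), RCLike.re ⟪v, (cfc f W * cfc f W) v⟫_ℂ = ‖cfc f W v‖ ^ 2 := fun f => by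
    have hs : star (cfc f W) = cfc f W := (cfc_predicate f W).star_eq
    conv_lhs => rw [show cfc f W * cfc f W = star (cfc f W) * cfc f W by rw [hs]]
    rw [mul_apply_eq_comp, ContinuousLinearMap.star_eq_adjoint,
      ContinuousLinearMap.adjoint_inner_right]
    exact inner_self_eq_norm_sq _
  have h2 := (RCLike.le_iff_re_im.1 h1).1
  rw [map_zero, sub_apply, inner_sub_right, map_sub, e, e, sub_nonneg] at h2
  exact (pow_le_pow_iff_left₀ (norm_nonneg _) (norm_nonneg _) two_ne_zero).1 h2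

/-- The clamp at height two. -/
noncomputable def clamp2 (r : ℝ) : ℝ := max (-2) (min 2 r)

lemma clamp2_facts (r : ℝ) :
    |clamp2 r| ≤ 2 ∧ |clamp2 r| ≤ |r| ∧ |r - clamp2 r| ≤ |r * r / 8| := by
  have h8 : 0 ≤ r * r / 8 := div_nonneg (mul_self_nonneg r) (by norm_num)
  rw [abs_of_nonneg h8]
  unfold clamp2
  rcases le_total r (-2) with h | h
  · rw [min_eq_right (h.trans (by norm_num)), max_eq_left h, abs_of_nonpos (by linarith : r ≤ 0)]
    norm_num
    exact ⟨by linarith, abs_le.2 ⟨by nlinarith [sq_nonneg (r + 4)], by nlinarith⟩⟩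
  rcases le_total r 2 with h' | h'
  · rw [min_eq_right h', max_eq_right h, sub_self, abs_zero]
    exact ⟨abs_le.2 ⟨h, h'⟩, le_rfl, h8⟩
  · rw [min_eq_left h', max_eq_right (by norm_num), abs_of_nonneg (by linarith : 0 ≤ r)]
    norm_num
    exact ⟨h', abs_le.2 ⟨by nlinarith, by nlinarith [sq_nonneg (r - 4)]⟩⟩

lemma continuous_clamp2 : Continuous clamp2 :=
  continuous_const.max (continuous_const.min continuous_id)

/-- The quadratic form on a self-adjoint element, clipped at height two. -/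
lemma abs_qf_le (T : H →L[ℂ] H) (v : H) {ε : ℝ}
    (h : ∀ x ∈ P.M, star x = x → ‖x‖ ≤ 1 → |qf T (x v)| ≤ ε) {W : H →L[ℂ] H}
    (hW : W ∈ P.M) (hWs : star W = W) :
    |qf T (W v)| ≤ 4 * ε + ‖T‖ * (5 / 64 * ‖(W * W) v‖ ^ 2 + 1 / 5 * ‖W v‖ ^ 2) := by
  have := P.closed_M
  have hWsa : IsSelfAdjoint W := hWs
  set c := cfc clamp2 W with hc
  have hc2 : ‖c‖ ≤ 2 := norm_cfc_le (by norm_num) fun r _ => (clamp2_facts r).1
  have hcs : star c = c := (cfc_predicate clamp2 W).star_eq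
  have hcW : ‖c v‖ ≤ ‖W v‖ := by
    have := norm_cfc_apply_le (W := W) hWsa continuous_clamp2 continuous_id
      (fun r => (clamp2_facts r).2.1) v
    rwa [cfc_id ℝ W hWsa] at this
  have hD : ‖W v - c v‖ ≤ 1 / 8 * ‖(W * W) v‖ := by
    have h1 := norm_cfc_apply_le (W := W) hWsa (continuous_id.sub continuous_clamp2)
      ((continuous_id.mul continuous_id).div_const 8) (fun r => (clamp2_facts r).2.2) v
    have e1 : cfc (fun r : ℝ => r - clamp2 r) W = W - c := by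
      rw [cfc_sub (fun r => r) clamp2 W continuousOn_id continuous_clamp2.continuousOn,
        cfc_id' ℝ W hWsa]
    have e2 : cfc (fun r : ℝ => r * r / 8) W = (1 / 8 : ℝ) • (W * W) := by
      rw [show (fun r : ℝ => r * r / 8) = fun r => (1 / 8) * (r * r) from funext fun r => by ring,
        cfc_const_mul (1 / 8 : ℝ) (fun r => r * r) W, cfc_mul (fun r => r) (fun r => r) W,
        cfc_id' ℝ W hWsa]
    simp only [Pi.sub_def, Pi.mul_def, id] at h1
    rw [e1, e2, sub_apply, smul_apply, norm_smul, Real.norm_eq_abs] at h1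
    norm_num at h1 ⊢
    exact h1
  have hsmall : |qf T (c v)| ≤ 4 * ε := by
    have hcM : c ∈ P.M := cfc_mem _ hW
    have hm : ((1 / 2 : ℝ) : ℂ) • c ∈ P.M := SMulMemClass.smul_mem _ hcM
    have h1 := h _ hm (by rw [star_smul, hcs, RCLike.star_def, Complex.conj_ofReal]) (by
      rw [norm_smul, Complex.norm_real]; norm_num; linarith)
    rw [smul_apply, qf_smul, Complex.norm_real] at h1
    norm_num [abs_mul] at h1
    linarith
  have hdiff : |qf T (W v) - qf T (c v)| ≤ 2 * (‖T‖ * ‖W v - c v‖ * ‖W v‖) := by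
    have e : qf T (W v) - qf T (c v) = RCLike.re ⟪W v - c v, T (W v)⟫_ℂ +
        RCLike.re ⟪c v, T (W v - c v)⟫_ℂ := by
      simp only [qf, map_sub, inner_sub_left, inner_sub_right]; ring
    rw [e]
    refine (abs_add_le _ _).trans ?_
    rw [two_mul]
    refine add_le_add ?_ ?_
    · refine (RCLike.abs_re_le_norm _).trans ((norm_inner_le_norm _ _).trans ?_)
      calc _ ≤ ‖W v - c v‖ * (‖T‖ * ‖W v‖) := by gcongr; exact T.le_opNorm _
        _ = _ := by ring
    · refine (RCLike.abs_re_le_norm _).trans ((norm_inner_le_norm _ _).trans ?_)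
      calc _ ≤ ‖W v‖ * (‖T‖ * ‖W v - c v‖) :=
            mul_le_mul hcW (T.le_opNorm _) (norm_nonneg _) (norm_nonneg _)
        _ = _ := by ring
  set a := ‖W v - c v‖
  set b := ‖W v‖
  set s := ‖(W * W) v‖
  have ham : 2 * (a * b) ≤ 5 / 64 * s ^ 2 + 1 / 5 * b ^ 2 := by
    nlinarith [sq_nonneg (5 * a - b), norm_nonneg (W v - c v)]
  have := abs_sub_abs_le_abs_sub (qf T (W v)) (qf T (c v))
  nlinarith [mul_le_mul_of_nonneg_left ham (norm_nonneg T)]

/-- The quadratic form on one central part. -/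
lemma abs_qf_part_le (T : H →L[ℂ] H)
    (hG : ∀ k, ∀ g ∈ P.G k, T * g = g * T ∧ T * P.conjOp g = P.conjOp g * T) {ε : ℝ} {m : ℕ}
    {q : H →L[ℂ] H} (hq : q ∈ P.cen m)
    (h : ∀ x ∈ P.M, star x = x → ‖x‖ ≤ 1 → |qf T (x (q P.ξ))| ≤ ε * ‖q P.ξ‖ ^ 2)
    {x : H →L[ℂ] H} (hx : x ∈ P.M) (hxs : star x = x) (hxq : x * q = x) :
    |qf T (x P.ξ)| ≤ 4 * ε * ‖q P.ξ‖ ^ 2 +
      ‖T‖ * (15 / 64 * ‖av P m (x * x) P.ξ‖ ^ 2 + 1 / 5 * ‖x P.ξ‖ ^ 2) := by
  have hS := sideM P
  set r : ℝ := (Real.sqrt (P.G m).card)⁻¹ with hr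
  have hr2 : r * r = ((P.G m).card : ℝ)⁻¹ := by
    rw [hr, ← mul_inv, Real.mul_self_sqrt (Nat.cast_nonneg _)]
  let y : (H →L[ℂ] H) → (H →L[ℂ] H) := fun g => (r : ℂ) • (g * x * star g)
  set l := (P.G m).toList.map y with hl
  have hmem : ∀ z ∈ l, z ∈ P.M ∧ star z = z := by
    intro z hz
    obtain ⟨g, hg, rfl⟩ := List.mem_map.1 hz
    have hgM := (P.G_mem m g (Finset.mem_toList.1 hg)).1
    exact ⟨SMulMemClass.smul_mem _ (mul_mem (mul_mem hgM hx) (star_mem hgM)), by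
      simp only [y, star_smul, star_mul, star_star, hxs, RCLike.star_def, Complex.conj_ofReal,
        mul_assoc]⟩
  have hlq : ∀ z ∈ l, z * q = z := by
    intro z hz
    obtain ⟨g, hg, rfl⟩ := List.mem_map.1 hz
    have hgM := (P.G_mem m g (Finset.mem_toList.1 hg)).1
    simp only [y, smul_mul_assoc, mul_assoc]
    rw [← P.cen_comm m q hq _ (star_mem hgM), ← mul_assoc x q, hxq]
  have hsum : ∀ f : (H →L[ℂ] H) → ℝ, (l.map f).sum = ∑ g ∈ P.G m, f (y g) := fun f => by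
    rw [hl, List.map_map, Finset.sum_map_toList]; rfl
  have hy : ∀ g ∈ P.G m, y g P.ξ = (r : ℂ) • (g * P.conjOp g) (x P.ξ) := fun g hg => by
    have hgM := (P.G_mem m g hg).1
    simp only [y, smul_apply, mul_apply_eq_comp]
    rw [← hS.conj_xi hgM, ← mul_apply_eq_comp x, P.comm_M_conjOp hx hgM,
      mul_apply_eq_comp]
  have hU : ∀ (S : H →L[ℂ] H),
      (∀ g ∈ P.G m, S * g = g * S ∧ S * P.conjOp g = P.conjOp g * S) →
      signAvg (fun w => qf S (w P.ξ)) l = qf S (x P.ξ) := fun S hSG => by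
    rw [signAvg_qf, hsum, Finset.sum_congr rfl fun g hg => ?_,
      Finset.sum_const (b := r * r * qf S (x P.ξ)), hr2, nsmul_eq_mul, ← mul_assoc,
      mul_inv_cancel₀ (Nat.cast_ne_zero.2 (G_card_pos m).ne'), one_mul]
    have hgg := (P.G_mem m g hg).2.2.1
    rw [hy g hg, qf_smul, Complex.norm_real, Real.norm_eq_abs, sq_abs, pow_two]
    refine congrArg _ ?_
    have e : S ((g * P.conjOp g) (x P.ξ)) = (g * P.conjOp g) (S (x P.ξ)) := by
      rw [← mul_apply_eq_comp S, ← mul_assoc, (hSG g hg).1, mul_assoc, (hSG g hg).2,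
        ← mul_assoc]
      rfl
    have e2 : star (g * P.conjOp g) * (g * P.conjOp g) = 1 := by
      rw [star_mul, P.star_conjOp, mul_assoc, ← mul_assoc (star g), hgg, one_mul,
        ← P.conjOp_mul, hgg, P.conjOp_one]
    rw [qf, qf, e, ← ContinuousLinearMap.adjoint_inner_right, ← ContinuousLinearMap.star_eq_adjoint,
      ← mul_apply_eq_comp, e2, one_apply_eq_self]
  have hsq : signAvg (fun w => ‖(w * w) P.ξ‖ ^ 2) l ≤ 3 * ‖av P m (x * x) P.ξ‖ ^ 2 := by
    refine (signAvg_fourth hmem).trans (mul_le_mul_of_nonneg_left (le_of_eq ?_) (by norm_num))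
    refine congrArg (fun T : H →L[ℂ] H => ‖T P.ξ‖ ^ 2) ?_
    rw [hl, List.map_map, Finset.sum_map_toList, av, Finset.smul_sum]
    refine Finset.sum_congr rfl fun g hg => ?_
    simp only [y, Function.comp_apply, smul_mul_assoc, mul_smul_comm, smul_smul, mul_assoc,
      ← Complex.ofReal_mul, hr2, Complex.ofReal_inv, Complex.ofReal_natCast]
    rw [← mul_assoc (star g) g, (P.G_mem m g hg).2.2.1, one_mul]
  have hnorm : signAvg (fun w => ‖w P.ξ‖ ^ 2) l = ‖x P.ξ‖ ^ 2 := by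
    have e : ∀ v : H, ‖v‖ ^ 2 = qf 1 v := fun v => (inner_self_eq_norm_sq (𝕜 := ℂ) v).symm
    simp only [e]
    exact hU 1 fun g _ => by simp
  have hqT := hU T (hG m)
  set B : (H →L[ℂ] H) → ℝ := fun W =>
    4 * (ε * ‖q P.ξ‖ ^ 2) + ‖T‖ * (5 / 64 * ‖(W * W) P.ξ‖ ^ 2 + 1 / 5 * ‖W P.ξ‖ ^ 2) with hB
  have h0 : (0 : H →L[ℂ] H) ∈ P.M ∧ star (0 : H →L[ℂ] H) = 0 ∧ (0 : H →L[ℂ] H) * q = 0 :=
    ⟨zero_mem _, star_zero _, zero_mul _⟩
  have hp : ∀ z ∈ l, ∀ w, (w ∈ P.M ∧ star w = w ∧ w * q = w) →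
      ((w + z ∈ P.M ∧ star (w + z) = w + z ∧ (w + z) * q = w + z) ∧
        (w - z ∈ P.M ∧ star (w - z) = w - z ∧ (w - z) * q = w - z)) :=
    fun z hz w hw => ⟨⟨add_mem hw.1 (hmem z hz).1, by rw [star_add, hw.2.1, (hmem z hz).2],
        by rw [add_mul, hw.2.2, hlq z hz]⟩,
      sub_mem hw.1 (hmem z hz).1, by rw [star_sub, hw.2.1, (hmem z hz).2],
        by rw [sub_mul, hw.2.2, hlq z hz]⟩
  have hW : ∀ W, (W ∈ P.M ∧ star W = W ∧ W * q = W) → |qf T (W P.ξ)| ≤ B W := fun W hW => by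
    have e1 : W (q P.ξ) = W P.ξ := by rw [← mul_apply_eq_comp, hW.2.2]
    have e2 : (W * W) (q P.ξ) = (W * W) P.ξ := by rw [mul_apply_eq_comp, e1, ← mul_apply_eq_comp]
    have h1 := abs_qf_le T (q P.ξ) h hW.1 hW.2.1
    rwa [e1, e2] at h1
  have hBv : signAvg B l ≤ 4 * ε * ‖q P.ξ‖ ^ 2 +
      ‖T‖ * (15 / 64 * ‖av P m (x * x) P.ξ‖ ^ 2 + 1 / 5 * ‖x P.ξ‖ ^ 2) := by
    rw [hB, signAvg_add, signAvg_const, signAvg_mul, signAvg_add, signAvg_mul, signAvg_mul, hnorm]
    nlinarith [mul_le_mul_of_nonneg_left hsq (norm_nonneg T)]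
  rw [abs_le]
  constructor
  · have h1 := signAvg_mono (p := fun w => w ∈ P.M ∧ star w = w ∧ w * q = w) h0 hp
      (f := fun W => -1 * B W) (g := fun W => qf T (W P.ξ)) fun W hW' => by
      linarith [(abs_le.1 (hW W hW')).1]
    rw [signAvg_mul, hqT] at h1
    linarith
  · have h1 := signAvg_mono (p := fun w => w ∈ P.M ∧ star w = w ∧ w * q = w) h0 hp
      (f := fun W => qf T (W P.ξ)) (g := B) fun W hW' => (abs_le.1 (hW W hW')).2
    rw [hqT] at h1
    linarith

/-- The quadratic form on a self-adjoint element, atom by atom. -/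
lemma abs_qf_xi_le (T : H →L[ℂ] H)
    (hG : ∀ k, ∀ g ∈ P.G k, T * g = g * T ∧ T * P.conjOp g = P.conjOp g * T) {ε : ℝ} (hε : 0 ≤ ε)
    (h : ∀ k, ∀ q ∈ P.cen k, ∀ x ∈ P.M, star x = x → ‖x‖ ≤ 1 →
      |qf T (x (q P.ξ))| ≤ ε * ‖q P.ξ‖ ^ 2)
    {x : H →L[ℂ] H} (hx : x ∈ P.M) (hxs : star x = x) :
    |qf T (x P.ξ)| ≤ (4 * ε + 0.46 * ‖T‖) * ‖x P.ξ‖ ^ 2 := by
  set κ : ℝ := 4 * ε + 0.46 * ‖T‖ with hκ
  have hS := sideM P
  have hT := norm_nonneg T
  refine le_of_forall_pos_le_add fun η hη => ?_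
  set θ : ℝ := η / (2 * (‖T‖ + 1)) with hθ'
  have hθ : 0 < θ := by positivity
  obtain ⟨m, hm⟩ : ∃ m, 3 * ‖T‖ / θ * ‖av P m (x * x) P.ξ - cavg P m (x * x) P.ξ‖ ^ 2 ≤ η / 2 := by
    have h1 := (((hS.tendsto_av (mul_mem hx hx)).norm).pow 2).const_mul (3 * ‖T‖ / θ)
    simp only [norm_zero, ne_eq, OfNat.ofNat_ne_zero, not_false_eq_true, zero_pow, mul_zero] at h1
    exact (h1.eventually (eventually_le_nhds (half_pos hη))).exists
  set dv := av P m (x * x) P.ξ - cavg P m (x * x) P.ξ with hdv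
  have split : ∀ v : H, ‖v‖ ^ 2 = ∑ q ∈ P.cen m, ‖q v‖ ^ 2 := fun v => by
    rw [← P.sum_norm_sq (P.cen m) subset_rfl v, P.cen_sum, one_apply_eq_self]
  have hq' : qf T (x P.ξ) = ∑ q ∈ P.cen m, qf T (q (x P.ξ)) := by
    conv_lhs => rw [show x P.ξ = (1 : H →L[ℂ] H) (x P.ξ) from rfl, ← P.cen_sum m]
    simp only [qf, sum_apply, sum_inner, map_sum]
    refine Finset.sum_congr rfl fun q hq => ?_
    rw [inner_sum, map_sum, Finset.sum_eq_single q]
    · intro p hp hne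
      rw [← mul_apply_eq_comp T, P.cen_commute_of (fun k g hg => (hG k g hg).1) hp,
        mul_apply_eq_comp, inner_cen_right hq, cen_apply_ne hq hp (Ne.symm hne),
        inner_zero_right, map_zero]
    · exact fun h => absurd hq h
  have hatom : ∀ q ∈ P.cen m, |qf T (q (x P.ξ))| ≤
      κ * ‖q (x P.ξ)‖ ^ 2 + (3 * ‖T‖ / θ * ‖q dv‖ ^ 2 + ‖T‖ * θ * ‖q P.ξ‖ ^ 2) := by
    intro q hq
    obtain ⟨hqs, hqq, -⟩ := P.cen_proj m q hq
    set ρ := ‖q P.ξ‖ with hρ'
    set z := ‖q (x P.ξ)‖ with hz'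
    have hρ : 0 < ρ := norm_pos_iff.2 (P.cen_xi_ne hq)
    have hz : 0 ≤ z := norm_nonneg _
    have pos1 : 0 ≤ 3 * ‖T‖ / θ * ‖q dv‖ ^ 2 := by positivity
    rcases lt_or_ge (z ^ 2) (θ * ρ ^ 2) with hlt | hge
    · have : |qf T (q (x P.ξ))| ≤ ‖T‖ * z ^ 2 := by
        refine (RCLike.abs_re_le_norm _).trans ((norm_inner_le_norm _ _).trans ?_)
        nlinarith [T.le_opNorm (q (x P.ξ))]
      nlinarith [mul_le_mul_of_nonneg_left hlt.le hT, show 0 ≤ κ * z ^ 2 by positivity]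
    have hz2 : 0 < z ^ 2 := lt_of_lt_of_le (by positivity) hge
    have hz0 : 0 < z := by nlinarith [sq_nonneg z]
    set u : H →L[ℂ] H := ((ρ / z : ℝ) : ℂ) • (q * x) with hu
    have hqM := P.cen_memM hq
    have cq := P.cen_comm m q hq x hx
    have hqxq : q * x * q = q * x := by rw [mul_assoc, ← cq, ← mul_assoc, hqq]
    have h1 := abs_qf_part_le T hG hq (h m q hq) (x := u)
      (SMulMemClass.smul_mem _ (mul_mem hqM hx))
      (by rw [hu, star_smul, star_mul, hqs, hxs, ← cq, RCLike.star_def, Complex.conj_ofReal])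
      (by rw [hu, smul_mul_assoc, hqxq])
    have hs : u P.ξ = ((ρ / z : ℝ) : ℂ) • q (x P.ξ) := rfl
    have hc : |ρ / z| = ρ / z := abs_of_pos (by positivity)
    have hn : ‖u P.ξ‖ = ρ := by
      rw [hs, norm_smul, Complex.norm_real, Real.norm_eq_abs, hc, ← hz', div_mul_cancel₀ _ hz0.ne']
    rw [hn, hs, qf_smul, Complex.norm_real, Real.norm_eq_abs, hc, abs_mul,
      abs_of_nonneg (sq_nonneg (ρ / z))] at h1
    have hav : av P m (u * u) P.ξ = (((ρ / z) ^ 2 : ℝ) : ℂ) • q (av P m (x * x) P.ξ) := by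
      have e : u * u = (((ρ / z) ^ 2 : ℝ) : ℂ) • (q * (x * x)) := by
        rw [hu, smul_mul_assoc, mul_smul_comm, smul_smul, ← Complex.ofReal_mul, ← pow_two,
          ← mul_assoc, hqxq, mul_assoc]
      have e' : av P m (u * u) = (((ρ / z) ^ 2 : ℝ) : ℂ) • (q * av P m (x * x)) := by
        rw [e, av, av, mul_smul_comm, Finset.mul_sum, Finset.smul_sum, Finset.smul_sum,
          Finset.smul_sum]
        refine Finset.sum_congr rfl fun g hg => ?_
        rw [mul_smul_comm, smul_mul_assoc, smul_comm (((ρ / z) ^ 2 : ℝ) : ℂ)]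
        refine congrArg _ (congrArg _ ?_)
        simp only [← mul_assoc]
        rw [← P.cen_comm m q hq g (P.G_mem m g hg).1]
      rw [e']; rfl
    have hcoef : coef P q ((x * x) P.ξ) = ((z ^ 2 / ρ ^ 2 : ℝ) : ℂ) := by
      have e : ⟪q P.ξ, (x * x) P.ξ⟫_ℂ = ((z ^ 2 : ℝ) : ℂ) := by
        calc ⟪q P.ξ, (x * x) P.ξ⟫_ℂ = ⟪x (q P.ξ), x P.ξ⟫_ℂ := by
              rw [mul_apply_eq_comp, ← ContinuousLinearMap.adjoint_inner_left,
                ← ContinuousLinearMap.star_eq_adjoint, hxs]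
          _ = ⟪q (x P.ξ), q (x P.ξ)⟫_ℂ := by
              rw [inner_cen_right hq (x P.ξ), cen_apply_self hq, ← inner_cen_right hq,
                ← mul_apply_eq_comp x, ← cq, mul_apply_eq_comp]
          _ = _ := by rw [inner_self_eq_norm_sq_to_K, hz']; norm_cast
      rw [coef, e, ← hρ', Complex.ofReal_div]
    have hqa : ‖q (av P m (x * x) P.ξ)‖ ≤ z ^ 2 / ρ + ‖q dv‖ := by
      have e : q (av P m (x * x) P.ξ) = q (cavg P m (x * x) P.ξ) + q dv := by
        rw [hdv, map_sub]; abel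
      rw [e]
      refine (norm_add_le _ _).trans (add_le_add (le_of_eq ?_) le_rfl)
      rw [cavg_xi, proj_cen hq, hcoef, norm_smul, Complex.norm_real,
        Real.norm_of_nonneg (by positivity), ← hρ']
      field_simp
    rw [hav, norm_smul, Complex.norm_real, Real.norm_of_nonneg (by positivity)] at h1
    have h2 : ‖q (av P m (x * x) P.ξ)‖ ^ 2 ≤ 1.1 * (z ^ 2 / ρ) ^ 2 + 11 * ‖q dv‖ ^ 2 := by
      refine (pow_le_pow_left₀ (norm_nonneg _) hqa 2).trans ?_
      nlinarith [sq_nonneg (z ^ 2 / ρ - 10 * ‖q dv‖)]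
    have h3 : (z / ρ) ^ 2 * ((ρ / z) ^ 2 * |qf T (q (x P.ξ))|) = |qf T (q (x P.ξ))| := by
      field_simp
    rw [← h3]
    refine (mul_le_mul_of_nonneg_left (h1.trans (add_le_add le_rfl (mul_le_mul_of_nonneg_left
      (add_le_add (mul_le_mul_of_nonneg_left
        ((mul_pow ((ρ / z) ^ 2) ‖q (av P m (x * x) P.ξ)‖ 2).trans_le
          (mul_le_mul_of_nonneg_left h2 (sq_nonneg _))) (by norm_num)) le_rfl) hT)))
        (sq_nonneg _)).trans ?_
    have h4 : (z / ρ) ^ 2 * (4 * ε * ρ ^ 2 + ‖T‖ * (15 / 64 * (((ρ / z) ^ 2) ^ 2 *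
        (1.1 * (z ^ 2 / ρ) ^ 2 + 11 * ‖q dv‖ ^ 2)) + 1 / 5 * ρ ^ 2)) =
        4 * ε * z ^ 2 + ‖T‖ * (15 / 64 * 1.1 + 1 / 5) * z ^ 2 +
          15 / 64 * 11 * ‖T‖ * (ρ ^ 2 / z ^ 2 * ‖q dv‖ ^ 2) := by
      field_simp
      ring
    rw [h4]
    have h5 : ρ ^ 2 / z ^ 2 ≤ 1 / θ := by
      rw [div_le_div_iff₀ hz2 hθ]; linarith
    have h6 : 15 / 64 * 11 * ‖T‖ * (ρ ^ 2 / z ^ 2 * ‖q dv‖ ^ 2) ≤
        3 * ‖T‖ / θ * ‖q dv‖ ^ 2 := by
      calc _ ≤ 3 * ‖T‖ * (1 / θ * ‖q dv‖ ^ 2) := by gcongr; norm_num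
        _ = _ := by ring
    have h7 : ‖T‖ * (15 / 64 * 1.1 + 1 / 5) * z ^ 2 ≤ 0.46 * ‖T‖ * z ^ 2 :=
      mul_le_mul_of_nonneg_right (by linarith) (sq_nonneg z)
    have h8 : κ * z ^ 2 = 4 * ε * z ^ 2 + 0.46 * ‖T‖ * z ^ 2 := by rw [hκ, add_mul]
    have h9 : 0 ≤ ‖T‖ * θ * ρ ^ 2 := by positivity
    linarith
  rw [hq']
  refine (Finset.abs_sum_le_sum_abs _ _).trans ((Finset.sum_le_sum hatom).trans ?_)
  rw [Finset.sum_add_distrib, Finset.sum_add_distrib, ← Finset.mul_sum, ← Finset.mul_sum,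
    ← Finset.mul_sum, ← split, ← split, ← split, P.norm_ξ]
  have : ‖T‖ * θ ≤ η / 2 := by
    rw [hθ', mul_div_assoc', div_le_iff₀ (by positivity)]
    nlinarith
  linarith

/-- A self-adjoint operator is bounded by its quadratic form. -/
lemma norm_le_of_qf {T : H →L[ℂ] H} (hsa : star T = T) {κ : ℝ} (hκ : 0 ≤ κ)
    (h : ∀ v, |qf T v| ≤ κ * ‖v‖ ^ 2) : ‖T‖ ≤ κ := by
  refine T.opNorm_le_bound hκ fun v => ?_
  rcases eq_or_ne (T v) 0 with h0 | h0
  · rw [h0, norm_zero]; positivity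
  have hb : ∀ u w, RCLike.re ⟪u, T w⟫_ℂ ≤ κ / 2 * (‖u‖ ^ 2 + ‖w‖ ^ 2) := fun u w => by
    have e1 : RCLike.re ⟪w, T u⟫_ℂ = RCLike.re ⟪u, T w⟫_ℂ := by
      conv_rhs => rw [← hsa, ContinuousLinearMap.star_eq_adjoint,
        ContinuousLinearMap.adjoint_inner_right]
      exact inner_re_symm (𝕜 := ℂ) _ _
    have e : qf T (u + w) - qf T (u - w) = 4 * RCLike.re ⟪u, T w⟫_ℂ := by
      simp only [qf, map_add, map_sub, inner_add_left, inner_add_right, inner_sub_left,
        inner_sub_right]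
      linarith
    have h4 := parallelogram_law_with_norm ℂ u w
    nlinarith [(abs_le.1 (h (u + w))).2, (abs_le.1 (h (u - w))).1]
  have hp : 0 < ‖T v‖ := norm_pos_iff.2 h0
  have h2 := hb (((‖v‖ / ‖T v‖ : ℝ) : ℂ) • T v) v
  rw [inner_smul_left, Complex.conj_ofReal, inner_self_eq_norm_sq_to_K, norm_smul,
    Complex.norm_real, Real.norm_eq_abs, abs_of_nonneg (by positivity),
    div_mul_cancel₀ _ hp.ne'] at h2
  have e : RCLike.re (((‖v‖ / ‖T v‖ : ℝ) : ℂ) * (RCLike.ofReal ‖T v‖ : ℂ) ^ 2) =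
      ‖v‖ * ‖T v‖ := by
    simp [← Complex.ofReal_pow]
    field_simp
  rw [e] at h2
  rcases (norm_nonneg v).eq_or_lt with hv | hv
  · exact absurd (by rw [norm_eq_zero.1 hv.symm, map_zero]) h0
  · nlinarith

/-- An operator commuting with the conjugation and the groups is controlled by its quadratic
form on self-adjoint contractions of every central part. -/
theorem norm_le_of_quadratic (P : Pair H) (T : H →L[ℂ] H) (hsa : star T = T)
    (hJ : P.conjOp T = T)
    (hG : ∀ k, ∀ g ∈ P.G k, T * g = g * T ∧ T * P.conjOp g = P.conjOp g * T) {ε : ℝ}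
    (h : ∀ k, ∀ q ∈ P.cen k, ∀ x ∈ P.M, star x = x → ‖x‖ ≤ 1 →
      |RCLike.re ⟪x (q P.ξ), T (x (q P.ξ))⟫_ℂ| ≤ ε * ‖q P.ξ‖ ^ 2) :
    ‖T‖ ≤ 8 * ε := by
  have hε : 0 ≤ ε := by
    obtain ⟨q, hq⟩ : (P.cen 0).Nonempty := Finset.nonempty_of_sum_ne_zero (f := fun q => q) (by
      rw [P.cen_sum]
      intro h1
      have := P.norm_ξ
      rw [show P.ξ = (1 : H →L[ℂ] H) P.ξ from rfl, h1, zero_apply, norm_zero] at this
      exact zero_ne_one this)
    have h0 := le_trans (abs_nonneg _) (h 0 q hq 0 (zero_mem _) (star_zero _) (by simp))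
    exact nonneg_of_mul_nonneg_left h0 (pow_pos (norm_pos_iff.2 (P.cen_xi_ne hq)) 2)
  set κ : ℝ := 4 * ε + 0.46 * ‖T‖ with hκ'
  have hκ : 0 ≤ κ := by positivity
  have hx : ∀ x ∈ P.M, star x = x → |qf T (x P.ξ)| ≤ κ * ‖x P.ξ‖ ^ 2 :=
    fun x hx hxs => abs_qf_xi_le T hG hε h hx hxs
  have hreal : ∀ a : H, P.J a = a → |qf T a| ≤ κ * ‖a‖ ^ 2 := by
    intro a ha
    let Φ : H → H := fun v => (1 / 2 : ℂ) • (v + P.J v)
    have hΦ : Continuous Φ := (continuous_id.add P.J.continuous).const_smul _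
    have hc : IsClosed {v : H | |qf T v| ≤ κ * ‖v‖ ^ 2} :=
      isClosed_le (RCLike.continuous_re.comp (continuous_id.inner T.continuous)).abs
        ((continuous_norm.pow 2).const_mul κ)
    have hall : Dense (Φ ⁻¹' {v : H | |qf T v| ≤ κ * ‖v‖ ^ 2}) :=
      P.dense_M.mono (by
        rintro v ⟨m, hm, hv⟩
        have e : Φ v = ((1 / 2 : ℂ) • (m + star m)) P.ξ := by
          subst hv
          simp [Φ, P.J_M m hm]
        show |qf T (Φ v)| ≤ κ * ‖Φ v‖ ^ 2
        rw [e]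
        refine hx _ (SMulMemClass.smul_mem _ (add_mem hm (star_mem hm))) ?_
        rw [star_smul, star_add, star_star, add_comm (star m), RCLike.star_def]
        simp only [map_div₀, map_one, map_ofNat])
    have h1 : a ∈ closure (Φ ⁻¹' {v : H | |qf T v| ≤ κ * ‖v‖ ^ 2}) := hall a
    rw [(hc.preimage hΦ).closure_eq] at h1
    have e : Φ a = a := by simp only [Φ, ha, ← two_smul ℂ a, smul_smul]; norm_num
    simpa only [Set.mem_preimage, Set.mem_ofPred_eq, e] using h1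
  have hK : ‖T‖ ≤ κ := norm_le_of_qf hsa hκ fun v => by
    set a := v + P.J v with ha
    set b := Complex.I • (v - P.J v) with hb
    have hJa : P.J a = a := by rw [ha, map_add, P.J_J, add_comm]
    have hJb : P.J b = b := by
      rw [hb, LinearIsometryEquiv.map_smulₛₗ, map_sub, P.J_J, Complex.conj_I, neg_smul,
        ← smul_neg, neg_sub]
    have hTJ : P.J (T v) = T (P.J v) := by
      conv_rhs => rw [← hJ, P.conjOp_apply, P.J_J]
    have e1 : qf T (P.J v) = qf T v := by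
      rw [qf, qf, ← hTJ, P.inner_J, RCLike.conj_re]
    have e2 : qf T b = qf T (v - P.J v) := by rw [hb, qf_smul, Complex.norm_I]; ring
    have e3 : ‖b‖ = ‖v - P.J v‖ := by rw [hb, norm_smul, Complex.norm_I, one_mul]
    have e4 := qf_par T v (P.J v)
    have e5 := parallelogram_law_with_norm ℂ v (P.J v)
    rw [LinearIsometryEquiv.norm_map] at e5
    have ea := abs_le.1 (hreal a hJa)
    have eb := abs_le.1 (hreal b hJb)
    rw [e2, e3] at eb
    rw [ha] at ea
    rw [abs_le]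
    constructor <;> nlinarith
  rw [hκ'] at hK
  linarith [norm_nonneg T]

end Vale.Agent.P096.Full.Linear
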