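import Vale.Agent.P096.Full.Linear.Collapse
import Vale.Agent.P096.Full.Linear.Central
import Vale.Agent.P096.Full.Linear.Skew
import Vale.Agent.P096.Full.Mirror

/-!
P096, LINEAR: the operator can be taken skew and fixed by the conjugation.
-/

open scoped InnerProductSpace ComplexConjugate
open Filter Topology

namespace Vale.Agent.P096.Full.Linear

universe u

variable {H : Type u} [NormedAddCommGroup H] [InnerProductSpace ℂ H] [CompleteSpace H] {d : ℕ}
variable {P : Pair H}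

/-- `A` makes the defect at most `D` on mirrored symmetries. -/
def SolvesBd (P : Pair H) (C γ ν D : ℝ) (A : H →L[ℂ] H) : Prop :=
  ∀ (d : ℕ) (X nX Y nY : Mat H d), 0 < d → P.Mirrored C γ ν X nX → P.Mirrored C γ ν Y nY →
    ‖defect P A X nY‖ ≤ D

lemma barOp_of_star {m : Mat H d} (h : star m = m) : barOp P m = rightOp (P.mirror m) := by
  rw [barOp, h]

lemma barOp_smul (c : ℂ) (m : Mat H d) : barOp P (c • m) = c • barOp P m := by
  have e : P.mirror (star (c • m)) = c • P.mirror (star m) := by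
    funext i j
    simp only [Pair.mirror, Matrix.star_apply, Matrix.smul_apply, star_smul, P.conjOp_smul,
      RCLike.star_def, Complex.conj_conj]
  rw [barOp, e, rightOp_smul, barOp]

lemma defect_smul (A : H →L[ℂ] H) (b c : ℂ) (X m : Mat H d) :
    defect P A (b • X) (c • m) = (b * c) • defect P A X m := by
  simp only [defect, barOp_smul, leftOp_smul, smul_mul_assoc, mul_smul_comm, sub_mul, mul_sub,
    sub_apply, add_apply, smul_apply, smul_sub, smul_add]
  module

omit [CompleteSpace H] in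
lemma ampOp_sub (S T : H →L[ℂ] H) : ampOp d (S - T) = ampOp d S - ampOp d T :=
  ContinuousLinearMap.ext fun v => Amp.ext' fun i k => by simp

omit [CompleteSpace H] in
lemma ampOp_smul (c : ℂ) (T : H →L[ℂ] H) : ampOp d (c • T) = c • ampOp d T :=
  ContinuousLinearMap.ext fun v => Amp.ext' fun i k => by simp

omit [CompleteSpace H] in
lemma ampOp_one : ampOp d (1 : H →L[ℂ] H) = 1 :=
  ContinuousLinearMap.ext fun v => Amp.ext' fun i k => by simp

lemma star_ampOp (T : H →L[ℂ] H) : star (ampOp d T) = ampOp d (star T) := by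
  rw [ContinuousLinearMap.star_eq_adjoint]
  refine ((ContinuousLinearMap.eq_adjoint_iff _ _).2 fun x y => ?_).symm
  simp only [PiLp.inner_apply]
  refine Finset.sum_congr rfl fun p _ => ?_
  obtain ⟨i, k⟩ := p
  simp [ampOp_apply, ContinuousLinearMap.star_eq_adjoint, ContinuousLinearMap.adjoint_inner_left]

lemma Jd_ampOp (T : H →L[ℂ] H) (v : Amp H d) :
    P.Jd d (ampOp d T (P.Jd d v)) = ampOp d (P.conjOp T) v :=
  Amp.ext' fun i k => by simp

lemma Jd_ampOp' (T : H →L[ℂ] H) (v : Amp H d) :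
    P.Jd d (ampOp d T v) = ampOp d (P.conjOp T) (P.Jd d v) := by
  rw [← Jd_ampOp, P.Jd_Jd]

lemma Jd_leftOp' (n : Mat H d) (v : Amp H d) :
    P.Jd d (leftOp n v) = rightOp (P.mirror n) (P.Jd d v) := by
  rw [← P.Jd_leftOp, P.Jd_Jd]

lemma Jd_rightOp' (n : Mat H d) (v : Amp H d) :
    P.Jd d (rightOp (P.mirror n) v) = leftOp n (P.Jd d v) := by
  rw [← P.Jd_leftOp, P.Jd_Jd]

omit [CompleteSpace H] in
lemma norm_comm_le {K : Type*} [NormedRing K] (S T : K) : ‖S * T - T * S‖ ≤ 2 * ‖S‖ * ‖T‖ :=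
  (norm_sub_le _ _).trans ((add_le_add (norm_mul_le _ _) (norm_mul_le _ _)).trans_eq (by ring))

omit [CompleteSpace H] in
lemma norm_comm_comm_le {K : Type*} [NormedRing K] {S T U : K} {s t r : ℝ} (hS : ‖S‖ ≤ s)
    (hT : ‖T‖ ≤ t) (hU : ‖U‖ ≤ r) :
    ‖(S * T - T * S) * U - U * (S * T - T * S)‖ ≤ 4 * s * t * r := by
  have hs := (norm_nonneg S).trans hS
  have ht := (norm_nonneg T).trans hT
  calc ‖(S * T - T * S) * U - U * (S * T - T * S)‖ ≤ 2 * (2 * ‖S‖ * ‖T‖) * ‖U‖ := by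
        refine (norm_comm_le _ _).trans ?_
        gcongr
        exact norm_comm_le _ _
    _ ≤ 2 * (2 * s * t) * r := by gcongr
    _ = _ := by ring

lemma defect_avg (A B : H →L[ℂ] H) (X m : Mat H d) :
    defect P ((1 / 2 : ℂ) • (A + B)) X m =
      (1 / 2 : ℂ) • defect P A X m + (1 / 2 : ℂ) • defect P B X m := by
  simp only [defect, ampOp_smul, ampOp_add, smul_mul_assoc, mul_smul_comm, ← smul_sub,
    smul_apply, add_mul, mul_add, sub_mul, mul_sub, sub_apply, add_apply]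
  module

lemma defect_sub_scalar (A : H →L[ℂ] H) (c : ℂ) (X m : Mat H d) :
    defect P (A - c • 1) X m = defect P A X m := by
  have e : (ampOp d A - c • 1) * leftOp X - leftOp X * (ampOp d A - c • 1) =
      ampOp d A * leftOp X - leftOp X * ampOp d A := by
    simp only [sub_mul, mul_sub, smul_mul_assoc, mul_smul_comm, one_mul, mul_one]
    abel
  rw [defect, ampOp_sub, ampOp_smul, ampOp_one, e, defect]

lemma mirrored_bounds {C γ ν : ℝ} {X n : Mat H d} (h : P.Mirrored C γ ν X n) :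
    ‖leftOp X‖ ≤ 1 ∧ ‖barOp P n‖ ≤ 1 :=
  ⟨norm_le_one_of_isSymm h.symmX, (norm_barOp n).trans_le (norm_le_one_of_isSymm h.symmn)⟩

lemma defect_sub_le {d : ℕ} (hd : 0 < d) (A S : H →L[ℂ] H) {X m : Mat H d}
    (hX : ‖leftOp X‖ ≤ 1) (hm : ‖barOp P m‖ ≤ 1) :
    ‖defect P (A - S) X m‖ ≤ ‖defect P A X m‖ + 4 * ‖S‖ := by
  set x := leftOp X
  set y := barOp P m
  set s := ampOp d S
  have e : defect P (A - S) X m =
      defect P A X m - ((s * x - x * s) * y - y * (s * x - x * s)) (P.xi d) := by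
    simp only [defect, ampOp_sub, x, y, s, sub_mul, mul_sub, sub_apply, add_apply]
    abel
  rw [e]
  refine (norm_sub_le _ _).trans (add_le_add le_rfl ?_)
  refine (ContinuousLinearMap.le_opNorm _ _).trans ?_
  rw [P.norm_xi hd, mul_one]
  exact (norm_comm_comm_le (norm_ampOp_le S) hX hm).trans_eq (by ring)

/-- The symmetric counterpart of `A` works as well. -/
theorem SolvesBd.conj {C γ ν D : ℝ} {A : H →L[ℂ] H} (hC : 0 ≤ C) (hν : 0 ≤ ν) (hγ : P.OpLe γ)
    (h : SolvesBd P C γ ν D A) :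
    SolvesBd P C γ ν (D + 2 * C * C * γ * ν + (8 * C + 2) * γ * ‖A‖) (P.conjOp A) := by
  intro d X nX Y nY hd hX hY
  have hγ0 := hγ.nonneg
  have hE := h d Y nY X nX hd hY hX
  set ξd := P.xi d with hξd
  set x := leftOp X with hx
  set z := leftOp nX with hz
  set y := rightOp (P.mirror nY) with hy
  set w := rightOp (P.mirror Y) with hw
  set S := ampOp d (P.conjOp A) with hS
  have cyz : z * y = y * z := P.commute_leftOp_mirror hX.memn hY.memn
  have cwx : x * w = w * x :=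
    commute_leftOp_rightOp fun i j l k => P.comm_M_conjOp (hX.memX i j) (hY.memX k l)
  have hJE : P.Jd d (defect P A Y nX) =
      (w * z - z * w) ξd + ((S * w - w * S) * z - z * (S * w - w * S)) ξd := by
    rw [defect, barOp_of_star hX.symmn.1]
    simp only [map_add, map_sub, sub_apply, add_apply, ContinuousLinearMap.mul_apply,
      sub_mul, mul_sub, Jd_leftOp', Jd_rightOp', Jd_ampOp', P.Jd_xi, hz, hw, hS, hξd]
  have alg : (x * y - y * x) + ((S * x - x * S) * y - y * (S * x - x * S)) =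
      ((w * z - z * w) + ((S * w - w * S) * z - z * (S * w - w * S))) +
        ((y - w) * (z - x) - (z - x) * (y - w)) - (S * (y * x - x * y) - (y * x - x * y) * S) -
        ((S * y - y * S) * (z - x) - (z - x) * (S * y - y * S)) +
        ((S * (y - w) - (y - w) * S) * z - z * (S * (y - w) - (y - w) * S)) := by
    simp only [sub_mul, mul_sub, mul_assoc, cyz, cwx]
    abel
  have key : defect P (P.conjOp A) X nY = P.Jd d (defect P A Y nX) +
      ((y - w) * (z - x) - (z - x) * (y - w)) ξd -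
      (S * (y * x - x * y) - (y * x - x * y) * S) ξd -
      ((S * y - y * S) * (z - x) - (z - x) * (S * y - y * S)) ξd +
      ((S * (y - w) - (y - w) * S) * z - z * (S * (y - w) - (y - w) * S)) ξd := by
    rw [hJE, defect, barOp_of_star hY.symmn.1, ← hx, ← hy, ← hS, ← hξd, ← add_apply, alg]
    rfl
  have nξ : ‖ξd‖ = 1 := P.norm_xi hd
  have nx : ‖x‖ ≤ 1 := (mirrored_bounds hX).1
  have nz : ‖z‖ ≤ 1 := norm_le_one_of_isSymm hX.symmn
  have ny : ‖y‖ ≤ 1 := (P.norm_rightOp_mirror nY).trans_le (norm_le_one_of_isSymm hY.symmn)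
  have ne : ‖z - x‖ ≤ C * γ := hX.opNear
  have nev : ‖(z - x) ξd‖ ≤ C * ν := hX.vecNear
  have ef : y - w = rightOp (P.mirror (nY - Y)) := by
    rw [hy, hw, ← rightOp_sub]
    congr 1
    funext i j
    simp [Pair.mirror, P.conjOp_sub]
  have nf : ‖y - w‖ ≤ C * γ := by
    rw [ef, P.norm_rightOp_mirror, leftOp_sub]; exact hY.opNear
  have nfv : ‖(y - w) ξd‖ ≤ C * ν := by
    rw [ef, hξd, ← P.Jd_leftOp, LinearIsometryEquiv.norm_map, P.Jd_xi, leftOp_sub]
    exact hY.vecNear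
  have nS : ‖S‖ ≤ ‖A‖ := (norm_ampOp_le _).trans (P.norm_conjOp A).le
  have nxy : ‖y * x - x * y‖ ≤ γ := by
    rw [norm_sub_rev]
    refine (hγ.comm d X _ hX.memX fun i j => P.mirror_mem hY.memn i j).trans
      (mul_le_of_le_one_right hγ0 ?_)
    exact mul_le_one₀ nx (norm_nonneg _) ny
  have ev : ∀ (T : Amp H d →L[ℂ] Amp H d) (b : ℝ), ‖T‖ ≤ b → ‖T ξd‖ ≤ b := fun T b hb => by
    simpa [nξ] using T.le_of_opNorm_le hb ξd
  have t1 : ‖((y - w) * (z - x) - (z - x) * (y - w)) ξd‖ ≤ 2 * C * C * γ * ν := by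
    rw [sub_apply, ContinuousLinearMap.mul_apply, ContinuousLinearMap.mul_apply]
    refine (norm_sub_le _ _).trans ?_
    have a1 := (y - w).le_of_opNorm_le nf ((z - x) ξd)
    have a2 := (z - x).le_of_opNorm_le ne ((y - w) ξd)
    nlinarith [mul_le_mul_of_nonneg_left nev (mul_nonneg hC hγ0),
      mul_le_mul_of_nonneg_left nfv (mul_nonneg hC hγ0)]
  have t2 : ‖(S * (y * x - x * y) - (y * x - x * y) * S) ξd‖ ≤ 2 * ‖A‖ * γ :=
    ev _ _ ((norm_comm_le _ _).trans (by gcongr))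
  have t3 : ‖((S * y - y * S) * (z - x) - (z - x) * (S * y - y * S)) ξd‖ ≤
      4 * ‖A‖ * 1 * (C * γ) := ev _ _ (norm_comm_comm_le nS ny ne)
  have t4 : ‖((S * (y - w) - (y - w) * S) * z - z * (S * (y - w) - (y - w) * S)) ξd‖ ≤
      4 * ‖A‖ * (C * γ) * 1 := ev _ _ (norm_comm_comm_le nS nf nz)
  rw [key]
  refine (norm_add_le _ _).trans ((add_le_add (norm_sub_le _ _) le_rfl).trans ?_)
  refine (add_le_add (add_le_add (norm_sub_le _ _) le_rfl) le_rfl).trans ?_
  refine (add_le_add (add_le_add (add_le_add (norm_add_le _ _) le_rfl) le_rfl) le_rfl).trans ?_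
  rw [LinearIsometryEquiv.norm_map]
  linarith

lemma defect_sub_central {A c : H →L[ℂ] H} {X : Mat H d} (h : ∀ i j, c * X i j = X i j * c)
    (m : Mat H d) : defect P (A - c) X m = defect P A X m := by
  have e : (ampOp d A - ampOp d c) * leftOp X - leftOp X * (ampOp d A - ampOp d c) =
      ampOp d A * leftOp X - leftOp X * ampOp d A := by
    simp only [sub_mul, mul_sub, commute_ampOp_leftOp h]
    abel
  rw [defect, ampOp_sub, e, defect]

/-- The dilation of a self-adjoint contraction. -/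
def dil (x s : H →L[ℂ] H) : Mat H 2 := fun i j => ![![x, s], ![s, -x]] i j

/-- One pair of the scalar test. -/
theorem SolvesBd.abs_pair_le {C γ ν D b : ℝ} {T : H →L[ℂ] H} (hC : 0 ≤ C) (hν : 0 ≤ ν)
    (hT : ‖T‖ ≤ b) (hξ : T P.ξ = 0) (hξ' : star T P.ξ = 0) (h : SolvesBd P C γ ν D T)
    {X nX Y nY : Mat H 2} (hX : P.Mirrored C γ ν X nX) (hY : P.Mirrored C γ ν Y nY) :
    |RCLike.re ⟪leftOp X (P.xi 2), ampOp 2 (T + star T) (leftOp Y (P.xi 2))⟫_ℂ| ≤
      D + 2 * b * C * ν := by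
  have hd := h 2 X nX Y nY (by norm_num) hX hY
  set S := T + star T with hS
  set ξd := P.xi 2 with hξd
  set t := ampOp 2 T with ht
  have tξ : t ξd = 0 := Amp.ext' fun i k => by
    by_cases hik : i = k <;> simp [ht, hξd, hik, hξ]
  have tξ' : star t ξd = 0 := by
    rw [ht, star_ampOp]
    exact Amp.ext' fun i k => by by_cases hik : i = k <;> simp [hξd, hik, hξ']
  have sx : star (leftOp X) = leftOp X := by rw [star_leftOp, hX.symmX.1]
  have sy : star (barOp P nY) = barOp P nY := by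
    rw [barOp_of_star hY.symmn.1, star_rightOp]
    congr 1
    funext i j
    have := congrFun (congrFun hY.symmn.1 j) i
    simp only [Matrix.star_apply] at this
    simp [Pair.mirror, P.star_conjOp, this]
  have adj : ∀ (R : Amp H 2 →L[ℂ] Amp H 2) (u v : Amp H 2),
      ⟪u, R v⟫_ℂ = ⟪star R u, v⟫_ℂ := fun R u v => by
    rw [ContinuousLinearMap.star_eq_adjoint, ContinuousLinearMap.adjoint_inner_left]
  set u := leftOp X ξd with hu
  set v := leftOp nY ξd with hv
  set v0 := leftOp Y ξd with hv0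
  have eb : barOp P nY ξd = v := barOp_xi hY.memn
  have eq : ⟪ξd, defect P T X nY⟫_ℂ = -⟪u, t v⟫_ℂ - ⟪v, t u⟫_ℂ := by
    have r : ⟪u, v⟫_ℂ = ⟪v, u⟫_ℂ := by
      have e1 : P.Jd 2 u = u := by rw [hu, hξd, P.Jd_leftOp_xi (Or.inl hX.memX), hX.symmX.1]
      have e2 : P.Jd 2 v = v := by rw [hv, hξd, P.Jd_leftOp_xi (Or.inr hY.memn), hY.symmn.1]
      conv_lhs => rw [← e1, ← e2]
      simp only [PiLp.inner_apply, Fintype.sum_prod_type, Pair.Jd_apply, P.inner_J,
        inner_conj_symm]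
      exact Finset.sum_comm
    simp only [defect, ← ht, ← hξd, sub_apply, add_apply, ContinuousLinearMap.mul_apply, eb,
      inner_add_right, inner_sub_right, ← hu, tξ, map_zero, sub_zero]
    rw [adj (leftOp X) ξd v, sx, ← hu, adj (barOp P nY) ξd u, sy, eb, r,
      adj t ξd (leftOp X v), tξ', adj (leftOp X) ξd (t v), sx, ← hu,
      adj (barOp P nY) ξd (t u), sy, eb, inner_zero_left]
    ring
  have nu : ‖u‖ ≤ 1 := by
    have := (leftOp X).le_of_opNorm_le (mirrored_bounds hX).1 ξd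
    rwa [one_mul, P.norm_xi (by norm_num)] at this
  have nt : ‖t‖ ≤ b := (norm_ampOp_le T).trans hT
  have hb0 : 0 ≤ b := (norm_nonneg T).trans hT
  have nd : ‖v - v0‖ ≤ C * ν := by
    rw [hv, hv0, ← sub_apply]; exact hY.vecNear
  have e1 : RCLike.re ⟪u, ampOp 2 S v0⟫_ℂ = RCLike.re ⟪u, t v0⟫_ℂ + RCLike.re ⟪v0, t u⟫_ℂ := by
    rw [hS, ampOp_add, add_apply, inner_add_right, map_add, ← star_ampOp, ← ht,
      ContinuousLinearMap.star_eq_adjoint, ContinuousLinearMap.adjoint_inner_right,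
      inner_re_symm (𝕜 := ℂ) (t u)]
  have e2 : RCLike.re ⟪ξd, defect P T X nY⟫_ℂ = -RCLike.re ⟪u, ampOp 2 S v0⟫_ℂ -
      RCLike.re ⟪u, t (v - v0)⟫_ℂ - RCLike.re ⟪v - v0, t u⟫_ℂ := by
    rw [eq, e1, map_sub t, inner_sub_right, inner_sub_left]
    simp only [map_sub, map_neg]
    ring
  have b1 : |RCLike.re ⟪ξd, defect P T X nY⟫_ℂ| ≤ D := by
    refine (RCLike.abs_re_le_norm _).trans ((norm_inner_le_norm _ _).trans ?_)
    rw [hξd, P.norm_xi (by norm_num), one_mul]; exact hd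
  have b2 : |RCLike.re ⟪u, t (v - v0)⟫_ℂ| ≤ b * (C * ν) := by
    refine (RCLike.abs_re_le_norm _).trans ((norm_inner_le_norm _ _).trans ?_)
    calc ‖u‖ * ‖t (v - v0)‖ ≤ 1 * (b * (C * ν)) :=
          mul_le_mul nu ((t.le_of_opNorm_le nt _).trans (mul_le_mul_of_nonneg_left nd hb0))
            (norm_nonneg _) zero_le_one
      _ = _ := one_mul _
  have b3 : |RCLike.re ⟪v - v0, t u⟫_ℂ| ≤ b * (C * ν) := by
    refine (RCLike.abs_re_le_norm _).trans ((norm_inner_le_norm _ _).trans ?_)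
    calc ‖v - v0‖ * ‖t u‖ ≤ (C * ν) * (b * 1) :=
          mul_le_mul nd ((t.le_of_opNorm_le nt _).trans (mul_le_mul_of_nonneg_left nu hb0))
            (norm_nonneg _) (by positivity)
      _ = _ := by ring
  rw [abs_le] at b1 b2 b3 ⊢
  constructor <;> linarith

/-- A self-adjoint contraction has a complementary one. -/
lemma exists_complement {x : H →L[ℂ] H} (hx : x ∈ P.M) (hxs : star x = x) (hx1 : ‖x‖ ≤ 1) :
    ∃ s ∈ P.M, star s = s ∧ x * s = s * x ∧ x * x + s * s = 1 := by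
  have := P.closed_M
  have hxsa : IsSelfAdjoint x := hxs
  let f : ℝ → ℝ := fun r => Real.sqrt (1 - r * r)
  have hf : Continuous f := Real.continuous_sqrt.comp (by fun_prop)
  set s := cfc f x with hs
  have hsM : s ∈ P.M := cfc_mem _ hx
  have hss : star s = s := (cfc_predicate f x).star_eq
  have hxs' : x * s = s * x := by
    conv_lhs => arg 1; rw [← cfc_id' ℝ x hxsa]
    conv_rhs => arg 2; rw [← cfc_id' ℝ x hxsa]
    exact cfc_commute_cfc _ _ x
  have hsq : x * x + s * s = 1 := by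
    conv_lhs => arg 1; rw [← cfc_id' ℝ x hxsa, ← cfc_mul (fun r => r) (fun r => r) x]
    rw [hs, ← cfc_mul f f x, ← cfc_add x (fun r => r * r) (fun r => f r * f r)]
    conv_rhs => rw [← cfc_one ℝ x hxsa]
    refine cfc_congr fun r hr => ?_
    have h1 : |r| ≤ 1 := by
      have := (spectrum.norm_le_norm_mul_of_mem hr).trans
        (mul_le_one₀ hx1 (norm_nonneg _) ContinuousLinearMap.norm_id_le)
      simpa using this
    simp only [f, Pi.one_apply]
    rw [Real.mul_self_sqrt (by nlinarith [abs_le.1 h1])]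
    ring
  exact ⟨s, hsM, hss, hxs', hsq⟩

/-- The dilation is a symmetry over `M`. -/
lemma isSymm_dil {x σ : H →L[ℂ] H} (hx : x ∈ P.M) (hxs : star x = x) (h1 : σ ∈ P.M)
    (h2 : star σ = σ) (h3 : x * σ = σ * x) (h4 : x * x + σ * σ = 1) :
    (∀ i j, dil x σ i j ∈ P.M) ∧ IsSymm (dil x σ) := by
  refine ⟨fun i j => ?_, Matrix.ext fun i j => ?_, Matrix.ext fun i j => ?_⟩
  · fin_cases i <;> fin_cases j <;> simp [dil, hx, h1]
  · fin_cases i <;> fin_cases j <;> simp [dil, Matrix.star_apply, hxs, h2]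
  · fin_cases i <;> fin_cases j <;>
      simp [dil, Matrix.mul_apply, Fin.sum_univ_two, h3, h4, add_comm (σ * σ)]

/-- The scalar test on one self-adjoint contraction. -/
theorem SolvesBd.abs_quad_le {C γ ν D b : ℝ} {T : H →L[ℂ] H} (hC : 0 ≤ C) (hν : 0 ≤ ν)
    (hM : ∀ X : Mat H 2, (∀ i j, X i j ∈ P.M) → IsSymm X → ∃ n, P.Mirrored C γ ν X n)
    (hT : ‖T‖ ≤ b) (hξ : T P.ξ = 0) (hξ' : star T P.ξ = 0) (h : SolvesBd P C γ ν D T)
    {x : H →L[ℂ] H} (hx : x ∈ P.M) (hxs : star x = x) (hx1 : ‖x‖ ≤ 1) :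
    |RCLike.re ⟪x P.ξ, (T + star T) (x P.ξ)⟫_ℂ| ≤ D + 2 * b * C * ν := by
  set S := T + star T with hS
  have q : ∀ (X nX Y nY : Mat H 2), P.Mirrored C γ ν X nX → P.Mirrored C γ ν Y nY →
      |RCLike.re ⟪leftOp X (P.xi 2), ampOp 2 S (leftOp Y (P.xi 2))⟫_ℂ| ≤ D + 2 * b * C * ν :=
    fun X nX Y nY hX hY => h.abs_pair_le hC hν hT hξ hξ' hX hY
  obtain ⟨s, hsM, hss, hxs', hsq⟩ := exists_complement hx hxs hx1
  obtain ⟨mp, sp⟩ := isSymm_dil hx hxs hsM hss hxs' hsq
  obtain ⟨mm, sm⟩ := isSymm_dil (σ := -s) hx hxs (neg_mem hsM) (by rw [star_neg, hss])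
    (by rw [mul_neg, neg_mul, hxs']) (by rw [neg_mul_neg]; exact hsq)
  obtain ⟨np, hp⟩ := hM _ mp sp
  obtain ⟨nm, hm⟩ := hM _ mm sm
  have q1 := q _ _ _ _ hp hp
  have q2 := q _ _ _ _ hp hm
  have key : RCLike.re ⟪leftOp (dil x s) (P.xi 2), ampOp 2 S (leftOp (dil x s) (P.xi 2))⟫_ℂ +
      RCLike.re ⟪leftOp (dil x s) (P.xi 2), ampOp 2 S (leftOp (dil x (-s)) (P.xi 2))⟫_ℂ =
      2 * RCLike.re ⟪x P.ξ, S (x P.ξ)⟫_ℂ := by
    rw [← map_add, ← inner_add_right, ← map_add, P.leftOp_xi, P.leftOp_xi]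
    simp only [PiLp.inner_apply, Fintype.sum_prod_type, Fin.sum_univ_two, vecOf_apply,
      PiLp.add_apply, ampOp_apply, dil]
    simp only [Matrix.cons_val_zero, Matrix.cons_val_one, Matrix.head_cons, neg_apply,
      map_add, map_smul, map_neg, smul_neg, add_neg_cancel, map_zero, inner_zero_right,
      inner_smul_left, inner_smul_right, inner_neg_left, inner_neg_right, inner_add_right,
      Complex.conj_ofReal]
    ring_nf
    have hs2 : ((Real.sqrt 2)⁻¹ : ℝ) ^ 2 = 1 / 2 := by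
      rw [inv_pow, Real.sq_sqrt zero_le_two]; norm_num
    simp [← Complex.ofReal_pow, hs2]
    ring
  rw [abs_le] at q1 q2 ⊢
  constructor <;> linarith

lemma Equiv'.adj {T : H →L[ℂ] H} (hT : Equiv' P T) : Equiv' P (star T) := fun k g hg => by
  have hs := P.G_star k g hg
  constructor
  · have := congrArg star (hT k (star g) hs).1
    rwa [star_mul, star_mul, star_star, eq_comm] at this
  · have := congrArg star (hT k (star g) hs).2
    rwa [star_mul, star_mul, P.star_conjOp, star_star, eq_comm] at this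

/-- The adjoint of an operator killing the trace vector kills it as well. -/
lemma Equiv'.star_xi_eq_zero {T : H →L[ℂ] H} (hT : Equiv' P T) (h0 : T P.ξ = 0) :
    star T P.ξ = 0 := by
  refine tendsto_nhds_unique hT.adj.tendsto_proj_xi (tendsto_const_nhds.congr fun k => ?_)
  refine (Finset.sum_eq_zero fun q hq => ?_).symm
  have e : T (q P.ξ) = 0 := by
    rw [← mul_apply_eq_comp, P.cen_commute_of (fun k g hg => (hT k g hg).1) hq, mul_apply_eq_comp,
      h0, map_zero]
  rw [coef, ContinuousLinearMap.star_eq_adjoint, ContinuousLinearMap.adjoint_inner_right, e,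
    inner_zero_left, zero_div, zero_smul]

/-- An operator commuting with the groups and killing the trace vector kills its reweightings. -/
lemma Equiv'.reweigh_xi_eq_zero {T : H →L[ℂ] H} (hT : Equiv' P T) (h0 : T P.ξ = 0)
    {b : H →L[ℂ] H} (hb : P.IsWeight b) : T (P.reweigh b hb).ξ = 0 := by
  rw [P.reweigh_ξ b hb, map_smul, ← mul_apply_eq_comp,
    ← hb.simple.comm_G (fun k g hg => (hT k g hg).1), mul_apply_eq_comp, h0, map_zero, smul_zero]

/-- A skew solution, fixed by the conjugation and the groups, at all reweightings. -/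
theorem skew_loc {C γ ν D a : ℝ} {A : H →L[ℂ] H} (hC : 0 ≤ C) (hν : 0 ≤ ν) (hγ : P.OpLe γ)
    (hM : ∀ (b : H →L[ℂ] H) (hb : P.IsWeight b) (X : Mat H 2), (∀ i j, X i j ∈ P.M) → IsSymm X →
      ∃ n, (P.reweigh b hb).Mirrored C γ ν X n)
    (hG : Equiv' P A) (hA : ‖A‖ ≤ a)
    (h : ∀ (b : H →L[ℂ] H) (hb : P.IsWeight b), SolvesBd (P.reweigh b hb) C γ ν D A) :
    ∃ T : H →L[ℂ] H, ‖T‖ ≤ 2 * a ∧ star T = -T ∧ P.conjOp T = T ∧ Equiv' P T ∧
      ∀ (b : H →L[ℂ] H) (hb : P.IsWeight b), SolvesBd (P.reweigh b hb) C γ ν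
        (17 * (D + 2 * C * C * γ * ν + (8 * C + 2) * γ * a) + 64 * a * C * ν) T := by
  have hγ0 := hγ.nonneg
  have ha0 : 0 ≤ a := (norm_nonneg A).trans hA
  set E := D + 2 * C * C * γ * ν + (8 * C + 2) * γ * a with hE
  set A' : H →L[ℂ] H := (1 / 2 : ℂ) • (A + P.conjOp A) with hA'
  have nA' : ‖A'‖ ≤ a := by
    rw [hA', norm_smul, norm_div, norm_one, Complex.norm_ofNat]
    have := (norm_add_le A (P.conjOp A)).trans_eq (by rw [P.norm_conjOp])
    linarith
  have jA' : P.conjOp A' = A' := by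
    rw [hA', P.conjOp_smul, P.conjOp_add, P.conjOp_conjOp, add_comm (P.conjOp A), map_div₀,
      map_one, map_ofNat]
  have gA' : Equiv' P A' := fun k g hg => by
    have h1 := hG k g hg
    have h2 := hG.conjOp k g hg
    constructor <;> simp only [hA', smul_mul_assoc, mul_smul_comm, add_mul, mul_add, h1.1, h1.2,
      h2.1, h2.2]
  obtain ⟨c, nc, cM, -, jc, gc, cξ⟩ := exists_central gA' jA' nA'
  set T := A' - c with hT
  have gT : Equiv' P T := fun k g hg => by
    constructor <;> simp only [hT, sub_mul, mul_sub, (gA' k g hg).1, (gA' k g hg).2,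
      (gc k g hg).1, (gc k g hg).2]
  have jT : P.conjOp T = T := by rw [hT, P.conjOp_sub, jA', jc]
  have nT : ‖T‖ ≤ 2 * a := (norm_sub_le _ _).trans (by linarith)
  have Tξ : T P.ξ = 0 := by rw [hT, sub_apply, cξ, sub_self]
  have gs := gT.adj
  have Tξ' : star T P.ξ = 0 := gT.star_xi_eq_zero Tξ
  have hsol : ∀ (b : H →L[ℂ] H) (hb : P.IsWeight b), SolvesBd (P.reweigh b hb) C γ ν E T := by
    intro b hb d X nX Y nY hd hX hY
    rw [hT, defect_sub_central fun i j => cM _ (hX.memX i j), hA', defect_avg]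
    have h1 := h b hb d X nX Y nY hd hX hY
    have h2 : ‖defect (P.reweigh b hb) (P.conjOp A) X nY‖ ≤
        D + 2 * C * C * γ * ν + (8 * C + 2) * γ * ‖A‖ :=
      (h b hb).conj hC hν (hγ.reweigh hb) d X nX Y nY hd hX hY
    refine (norm_add_le _ _).trans ?_
    rw [norm_smul, norm_smul, norm_div, norm_one, Complex.norm_ofNat]
    have e1 : (8 * C + 2) * γ * ‖A‖ ≤ (8 * C + 2) * γ * a :=
      mul_le_mul_of_nonneg_left hA (by positivity)
    have e2 : 0 ≤ 2 * C * C * γ * ν + (8 * C + 2) * γ * a := by positivity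
    linarith
  set S := T + star T with hS
  set B := E + 2 * (2 * a) * C * ν with hB
  have hq : ∀ k, ∀ q ∈ P.cen k, ∀ x ∈ P.M, star x = x → ‖x‖ ≤ 1 →
      |RCLike.re ⟪x (q P.ξ), S (x (q P.ξ))⟫_ℂ| ≤ B * ‖q P.ξ‖ ^ 2 := by
    intro k q hq x hx hxs hx1
    let u : ℝ → H := fun ε => q P.ξ + (ε : ℂ) • (P.ξ - q P.ξ)
    let F : ℝ → ℝ := fun ε => |RCLike.re ⟪x (u ε), S (x (u ε))⟫_ℂ| - B * ‖u ε‖ ^ 2
    have hu : Continuous u := continuous_const.add
      (Complex.continuous_ofReal.smul continuous_const)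
    have hF : Continuous F := by
      have hxu : Continuous fun ε => x (u ε) := x.continuous.comp hu
      exact (RCLike.continuous_re.comp (hxu.inner (S.continuous.comp hxu))).abs.sub
        ((hu.norm.pow 2).const_mul B)
    have key : ∀ ε : ℝ, 0 < ε → F ε ≤ 0 := fun ε hε => by
      have hb := Pair.isWeight_part (P := P) hq hε
      have hp := hb.norm_pos
      have e : (q + (ε : ℂ) • (1 - q)) P.ξ = u ε := rfl
      rw [e] at hp
      have h1 := (hsol _ hb).abs_quad_le hC hν (hM _ hb) nT (gT.reweigh_xi_eq_zero Tξ hb)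
        (gs.reweigh_xi_eq_zero Tξ' hb) hx hxs hx1
      rw [P.reweigh_ξ _ hb, Pair.wscale, e, map_smul, map_smul, inner_smul_left, inner_smul_right,
        Complex.conj_ofReal, ← mul_assoc, ← Complex.ofReal_mul] at h1
      change |(((‖u ε‖⁻¹ * ‖u ε‖⁻¹ : ℝ) : ℂ) * ⟪x (u ε), S (x (u ε))⟫_ℂ).re| ≤ B at h1
      rw [Complex.re_ofReal_mul, abs_mul, abs_of_nonneg (by positivity),
        ← mul_inv, inv_mul_le_iff₀ (by positivity)] at h1
      show |(⟪x (u ε), S (x (u ε))⟫_ℂ).re| - B * ‖u ε‖ ^ 2 ≤ 0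
      linarith
    have h0 := le_of_tendsto ((hF.tendsto 0).mono_left (nhdsWithin_le_nhds (s := Set.Ioi 0)))
      (eventually_nhdsWithin_of_forall key)
    simp only [F, u, Complex.ofReal_zero, zero_smul, add_zero] at h0
    linarith
  have nS : ‖S‖ ≤ 8 * B := norm_le_of_quadratic P S (by rw [hS, star_add, star_star, add_comm])
    (by rw [hS, P.conjOp_add, ← P.star_conjOp, jT]) (fun k g hg => by
      constructor <;> simp only [hS, add_mul, mul_add, (gT k g hg).1, (gT k g hg).2,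
        (gs k g hg).1, (gs k g hg).2]) hq
  refine ⟨(1 / 2 : ℂ) • (T - star T), ?_, ?_, ?_, ?_, fun b hb d X nX Y nY hd hX hY => ?_⟩
  · rw [norm_smul, norm_div, norm_one, Complex.norm_ofNat]
    have := (norm_sub_le T (star T)).trans_eq (by rw [norm_star])
    linarith
  · rw [star_smul, star_sub, star_star, RCLike.star_def, map_div₀, map_one, map_ofNat,
      ← smul_neg, neg_sub]
  · rw [P.conjOp_smul, P.conjOp_sub, ← P.star_conjOp, jT, map_div₀, map_one, map_ofNat]
  · intro k g hg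
    constructor <;> simp only [smul_mul_assoc, mul_smul_comm, sub_mul, mul_sub, (gT k g hg).1,
      (gT k g hg).2, (gs k g hg).1, (gs k g hg).2]
  · have e : (1 / 2 : ℂ) • (T - star T) = T - (1 / 2 : ℂ) • S := by rw [hS]; module
    rw [e]
    refine (defect_sub_le hd T _ (mirrored_bounds hX).1 (mirrored_bounds hY).2).trans ?_
    rw [norm_smul, norm_div, norm_one, Complex.norm_ofNat]
    have := hsol b hb d X nX Y nY hd hX hY
    linarith

end Vale.Agent.P096.Full.Linear
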