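import Vale.Agent.P096.Full.Amp

/-!
P096, LINEAR: two by two block matrices of operators.
-/

namespace Vale.Agent.P096.Full.Linear

universe u

variable {H : Type u} [NormedAddCommGroup H] [InnerProductSpace ℂ H] {d : ℕ}

/-- The block matrix with the four given blocks. -/
noncomputable def blk (a b c e : Mat H d) : Mat H (d + d) :=
  Matrix.of (Fin.addCases (fun i => Fin.addCases (fun k => a i k) (fun k => b i k))
    (fun i => Fin.addCases (fun k => c i k) (fun k => e i k)))

variable (a b c e : Mat H d) (i k : Fin d)

@[simp] lemma blk_ll : blk a b c e (Fin.castAdd d i) (Fin.castAdd d k) = a i k := by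
  simp only [blk, Matrix.of_apply, Fin.addCases_left, Fin.addCases_right]
@[simp] lemma blk_lr : blk a b c e (Fin.castAdd d i) (Fin.natAdd d k) = b i k := by
  simp only [blk, Matrix.of_apply, Fin.addCases_left, Fin.addCases_right]
@[simp] lemma blk_rl : blk a b c e (Fin.natAdd d i) (Fin.castAdd d k) = c i k := by
  simp only [blk, Matrix.of_apply, Fin.addCases_left, Fin.addCases_right]
@[simp] lemma blk_rr : blk a b c e (Fin.natAdd d i) (Fin.natAdd d k) = e i k := by
  simp only [blk, Matrix.of_apply, Fin.addCases_left, Fin.addCases_right]

end Vale.Agent.P096.Full.Linear
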