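import Vale.Agent.P096.Full.Linear.Residual

/-!
P096, LINEAR: the residual passes to the iterated limit of the cuts.
-/

open scoped InnerProductSpace ComplexConjugate
open Filter Topology

namespace Vale.Agent.P096.Full.Linear

universe u v

section General

variable {H : Type u} [NormedAddCommGroup H] [InnerProductSpace ℂ H] {ι : Type v}
variable {U : Ultrafilter ι}

lemma Tw2.sub {f f' : ι → ι → H} {v w : H} (h : Tw2 U f v) (h' : Tw2 U f' w) :
    Tw2 U (fun i o => f i o - f' i o) (v - w) := by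
  simpa [sub_eq_add_neg] using h.add (h'.smul (-1 : ℂ))

lemma Tw2.sum {κ : Type*} (s : Finset κ) {f : κ → ι → ι → H} {v : κ → H}
    (h : ∀ j ∈ s, Tw2 U (f j) (v j)) :
    Tw2 U (fun i o => ∑ j ∈ s, f j i o) (∑ j ∈ s, v j) := by
  induction s using Finset.cons_induction with
  | empty =>
    simp only [Finset.sum_empty]
    exact ⟨fun _ => 0, Eventually.of_forall fun _ => .of_tendsto tendsto_const_nhds,
      .of_tendsto tendsto_const_nhds⟩
  | cons j s hj ih =>
    simp only [Finset.sum_cons]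
    exact (h j (Finset.mem_cons_self j s)).add (ih fun k hk => h k (Finset.mem_cons_of_mem hk))

lemma Tw2.tendsV_of_const {f : ι → H} {v : H} (h : Tw2 U (fun _ o => f o) v) : TendsV U f v := by
  obtain ⟨g, hg, hv⟩ := h
  obtain ⟨i, hi⟩ := hg.exists
  have e : v = g i := hv.unique
    ((TendsV.of_tendsto tendsto_const_nhds).congr (hg.mono fun j hj => hi.unique hj))
  exact e ▸ hi

lemma tw2_amp {d : ℕ} {f : ι → ι → Amp H d} {v : Amp H d}
    (h : ∀ p, Tw2 U (fun i o => f i o p) (v p)) : Tw2 U f v := by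
  classical
  choose g hg hv using h
  refine ⟨fun i => WithLp.toLp 2 fun p => g p i, ?_, fun η => ?_⟩
  · refine (eventually_all.2 hg).mono fun i hi η => ?_
    simp only [PiLp.inner_apply]
    exact tendsto_finsetSum _ fun p _ => hi p (η p)
  · simp only [PiLp.inner_apply]
    exact tendsto_finsetSum _ fun p _ => hv p (η p)

omit [InnerProductSpace ℂ H] in
lemma t2_amp [InnerProductSpace ℂ H] {d : ℕ} {f : ι → ι → Amp H d} {v : Amp H d}
    (h : ∀ p, T2 U (fun i o => f i o p) (v p)) : T2 U f v := by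
  classical
  choose g hg hv using h
  have key : ∀ {κ : Type v} {l : Filter κ} (F : κ → Amp H d) (w : Amp H d),
      (∀ p, Tendsto (fun i => F i p) l (𝓝 (w p))) → Tendsto F l (𝓝 w) := fun F w hp => by
    have := (((PiLp.continuousLinearEquiv 2 ℂ (fun _ : Fin d × Fin d => H)).symm.continuous).tendsto
      (WithLp.ofLp w)).comp (tendsto_pi_nhds.2 hp)
    exact this
  exact ⟨fun i => WithLp.toLp 2 fun p => g p i,
    (eventually_all.2 hg).mono fun i hi => key _ _ hi, key _ _ hv⟩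

end General

variable {H : Type u} [NormedAddCommGroup H] [InnerProductSpace ℂ H] [CompleteSpace H] {d : ℕ}
variable {P : Pair H} {a : ℝ} {L Λ : (H →L[ℂ] H) → H}

/-- The six operators of the limit and the vector `v₀`. -/
structure Ops (H : Type u) [NormedAddCommGroup H] [InnerProductSpace ℂ H] where
  Too : H →L[ℂ] H
  Tio : H →L[ℂ] H
  Toi : H →L[ℂ] H
  Soo : H →L[ℂ] H
  Sio : H →L[ℂ] H
  Soi : H →L[ℂ] H
  v0 : H

/-- An operator commuting with the groups on both sides. -/
def Equiv' (P : Pair H) (T : H →L[ℂ] H) : Prop :=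
  ∀ k, ∀ g ∈ P.G k, T * g = g * T ∧ T * P.conjOp g = P.conjOp g * T

lemma Equiv'.conjOp {T : H →L[ℂ] H} (h : Equiv' P T) : Equiv' P (P.conjOp T) := fun k g hg => by
  constructor
  · conv_lhs => rw [← P.conjOp_conjOp g, ← P.conjOp_mul, (h k g hg).2, P.conjOp_mul,
      P.conjOp_conjOp]
  · rw [← P.conjOp_mul, (h k g hg).1, P.conjOp_mul]

/-- The norms and commutations of the six operators. -/
structure Ops.Good (P : Pair H) (a : ℝ) (O : Ops H) : Prop where
  nToo : ‖O.Too‖ ≤ 3 * a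
  nTio : ‖O.Tio‖ ≤ 3 * a
  nToi : ‖O.Toi‖ ≤ 3 * a
  nSoo : ‖O.Soo‖ ≤ 3 * a
  nSio : ‖O.Sio‖ ≤ 3 * a
  nSoi : ‖O.Soi‖ ≤ 3 * a
  nv0 : ‖O.v0‖ ≤ 2 * a
  eToo : Equiv' P O.Too
  eTio : Equiv' P O.Tio
  eToi : Equiv' P O.Toi
  eSoo : Equiv' P O.Soo
  eSio : Equiv' P O.Sio
  eSoi : Equiv' P O.Soi

/-- One entry of the limit residual. -/
noncomputable def rInf (P : Pair H) (O : Ops H) (x n y m : H →L[ℂ] H) : H :=
  x (bar P m P.ξ) - bar P m (x P.ξ) + O.Too (x (y P.ξ)) + O.Soo (n (m P.ξ)) -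
    x (O.Tio (y P.ξ) + O.Sio (m P.ξ)) - bar P m (O.Toi (x P.ξ) + O.Soi (n P.ξ)) +
    x (bar P m O.v0)

/-- The cut of an entry. -/
noncomputable def cut2 {S : StarSubalgebra ℂ (H →L[ℂ] H)} (hS : Side P S) (s t : Bool)
    (x : H →L[ℂ] H) (i o : Idx H) : H →L[ℂ] H :=
  cut hS (sel s i o) * x * cut hS (sel t i o)

lemma s2_cut2 {S : StarSubalgebra ℂ (H →L[ℂ] H)} (hS : Side P S) (s t : Bool) (x : H →L[ℂ] H) :
    S2 (Ulim H) (cut2 hS s t x) x := by
  have := ((s2_cut hS s).mul (S2.const x)).mul (s2_cut hS t)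
  rwa [one_mul, mul_one] at this

lemma cut2_mem {S : StarSubalgebra ℂ (H →L[ℂ] H)} (hS : Side P S) (s t : Bool) {x : H →L[ℂ] H}
    (hx : x ∈ S) (i o : Idx H) : cut2 hS s t x i o ∈ S :=
  mul_mem (mul_mem (cut_mem hS _) hx) (cut_mem hS _)

lemma norm_cut2_le {S : StarSubalgebra ℂ (H →L[ℂ] H)} (hS : Side P S) (s t : Bool)
    (x : H →L[ℂ] H) (i o : Idx H) : ‖cut2 hS s t x i o‖ ≤ ‖x‖ :=
  (norm_mul_le _ _).trans ((mul_le_of_le_one_right (norm_nonneg _) (norm_cut_le hS _)).trans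
    ((norm_mul_le _ _).trans (mul_le_of_le_one_left (norm_nonneg _) (norm_cut_le hS _))))

lemma star_cut2 {S : StarSubalgebra ℂ (H →L[ℂ] H)} (hS : Side P S) (s t : Bool)
    (x : H →L[ℂ] H) (i o : Idx H) : star (cut2 hS s t x i o) = cut2 hS t s (star x) i o := by
  simp only [cut2, star_mul, cut_star, mul_assoc]

lemma norm_bar (m : H →L[ℂ] H) : ‖bar P m‖ = ‖m‖ := by
  rw [bar, P.norm_conjOp, norm_star]

/-- The weak limit of a product of two cuts. -/
lemma Eqv.tw2_prod {S : StarSubalgebra ℂ (H →L[ℂ] H)} (hS : Side P S) (hL : Eqv P S a L)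
    {T : H →L[ℂ] H} (hT : ∀ x ∈ S, Tw2 (Ulim H) (cutFam hS L true true x) (T (x P.ξ)))
    {x y : H →L[ℂ] H} (hx : x ∈ S) (hy : y ∈ S) :
    Tw2 (Ulim H) (fun i o => L (cut2 hS true false x i o * cut2 hS false true y i o))
      (T (x (y P.ξ))) := by
  refine ⟨fun i => T ((x * (cut hS i * cut hS i) * y) P.ξ), Eventually.of_forall fun i => ?_, ?_⟩
  · have hz : x * (cut hS i * cut hS i) * y ∈ S :=
      mul_mem (mul_mem hx (mul_mem (cut_mem hS i) (cut_mem hS i))) hy
    refine (Tw2.tendsV_of_const (f := fun o => cutFam hS L true true _ o o)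
      ((hT _ hz).congr (Eventually.of_forall fun _ => Eventually.of_forall fun o => rfl))).congr
      (Eventually.of_forall fun o => ?_)
    simp only [cutFam, cut2, sel, if_true, Bool.false_eq_true, if_false, mul_assoc]
  · refine .of_tendsto ((T.continuous.tendsto _).comp ((x.continuous.tendsto _).comp ?_))
    have h2 : Tendsto (fun i => cut hS i (cut hS i (y P.ξ))) (Ulim H) (𝓝 (y P.ξ)) :=
      tendsto_apply (B := 1) (Eventually.of_forall fun i => norm_cut_le hS i)
        (fun v => tendsto_cut hS v) (tendsto_cut hS (y P.ξ))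
    exact h2

lemma Maps.Λ_bar_eq (n : H →L[ℂ] H) : Λ (bar P n) = P.J (flipMap P Λ (star n)) := by
  rw [flipMap, P.J_J]; rfl

lemma conj_flip (T : H →L[ℂ] H) {n : H →L[ℂ] H} (hn : n ∈ P.N) :
    P.J (T (star n P.ξ)) = P.conjOp T (n P.ξ) := by
  rw [P.conjOp_apply, P.J_N n hn]

/-- The limit operators exist and the entries converge. -/
theorem Maps.exists_ops (h : Maps P a L Λ) :
    ∃ O : Ops H, O.Good P a ∧ ∀ x ∈ P.M, ∀ n ∈ P.N, ∀ y ∈ P.M, ∀ m ∈ P.N,
      Tw2 (Ulim H) (fun i o => res1 P L Λ (cut2 (sideM P) true false x i o)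
        (cut2 (sideN P) true false n i o) (cut2 (sideM P) false true y i o)
        (cut2 (sideN P) false true m i o)) (rInf P O x n y m) := by
  have hM := h.eqvM
  have hN := h.eqvN
  obtain ⟨Too, nToo, cToo, eToo⟩ := hM.exists_op (sideM P) h.locL true true
  obtain ⟨Tio, nTio, cTio, eTio⟩ := hM.exists_op (sideM P) h.locL false true
  obtain ⟨Toi, nToi, cToi, eToi⟩ := hM.exists_op (sideM P) h.locL true false
  obtain ⟨S1, nS1, cS1, eS1⟩ := hN.exists_op (sideN P) h.locN true true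
  obtain ⟨S2', nS2, cS2, eS2⟩ := hN.exists_op (sideN P) h.locN false true
  obtain ⟨S3, nS3, cS3, eS3⟩ := hN.exists_op (sideN P) h.locN true false
  have hone : ‖(1 : H →L[ℂ] H)‖ ≤ 1 := ContinuousLinearMap.norm_id_le
  refine ⟨⟨Too, Tio, Toi, P.conjOp S1, P.conjOp S3, P.conjOp S2', L 1 + Λ 1⟩,
    ⟨nToo, nTio, nToi, (P.norm_conjOp _).trans_le nS1, (P.norm_conjOp _).trans_le nS3,
      (P.norm_conjOp _).trans_le nS2, ?_, eToo, eTio, eToi, Equiv'.conjOp eS1,
      Equiv'.conjOp eS3, Equiv'.conjOp eS2⟩, ?_⟩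
  · have h1 := h.bddL 1 (one_mem P.M)
    have h2 := h.bddΛ 1 (one_mem P.Bal)
    have ha := hM.nonneg
    refine (norm_add_le _ _).trans ?_
    nlinarith
  intro x hx n hn y hy m hm
  have hJ := P.inner_J
  have hX : S2 (Ulim H) (cut2 (sideM P) true false x) x := s2_cut2 _ _ _ x
  have hm' : S2 (Ulim H) (fun i o => bar P (cut2 (sideN P) false true m i o)) (bar P m) :=
    ((s2_cut2 (sideN P) false true m).adj).conjOp P
  have t1 : Tw2 (Ulim H) (fun i o => cut2 (sideM P) true false x i o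
      (bar P (cut2 (sideN P) false true m i o) P.ξ)) (x (bar P m P.ξ)) :=
    ((hX.mul hm').t2 P.ξ).tw2
  have t2 : Tw2 (Ulim H) (fun i o => bar P (cut2 (sideN P) false true m i o)
      (cut2 (sideM P) true false x i o P.ξ)) (bar P m (x P.ξ)) :=
    ((hm'.mul hX).t2 P.ξ).tw2
  have t3 := hM.tw2_prod (sideM P) cToo hx hy
  have t4 : Tw2 (Ulim H) (fun i o => Λ (bar P (cut2 (sideN P) true false n i o *
      cut2 (sideN P) false true m i o))) (P.conjOp S1 (n (m P.ξ))) := by
    have := (hN.tw2_prod (sideN P) cS1 (star_mem hm) (star_mem hn)).conj P.J hJ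
    rw [← ContinuousLinearMap.mul_apply (star m), ← star_mul,
      conj_flip S1 (mul_mem hn hm)] at this
    refine this.congr (Eventually.of_forall fun i => Eventually.of_forall fun o => ?_)
    rw [Maps.Λ_bar_eq (P := P) (Λ := Λ), star_mul, star_cut2, star_cut2]
  have t5a : Tw2 (Ulim H) (fun i o => L (cut2 (sideM P) false true y i o) +
      Λ (bar P (cut2 (sideN P) false true m i o))) (Tio (y P.ξ) + P.conjOp S3 (m P.ξ)) := by
    refine (cTio y hy).add ?_
    have := (cS3 _ (star_mem hm)).conj P.J hJ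
    rw [conj_flip S3 hm] at this
    exact this.congr (Eventually.of_forall fun i => Eventually.of_forall fun o => by
      rw [Maps.Λ_bar_eq (P := P) (Λ := Λ), star_cut2]; rfl)
  have t6a : Tw2 (Ulim H) (fun i o => L (cut2 (sideM P) true false x i o) +
      Λ (bar P (cut2 (sideN P) true false n i o))) (Toi (x P.ξ) + P.conjOp S2' (n P.ξ)) := by
    refine (cToi x hx).add ?_
    have := (cS2 _ (star_mem hn)).conj P.J hJ
    rw [conj_flip S2' hn] at this
    exact this.congr (Eventually.of_forall fun i => Eventually.of_forall fun o => by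
      rw [Maps.Λ_bar_eq (P := P) (Λ := Λ), star_cut2]; rfl)
  have hbd : ∀ z ∈ P.M, ∀ w ∈ P.N, ‖L z + Λ (bar P w)‖ ≤ a * ‖z‖ + a * ‖w‖ := fun z hz w hw =>
    (norm_add_le _ _).trans (add_le_add (h.bddL z hz)
      ((h.bddΛ _ (bar_mem P hw)).trans_eq (by rw [norm_bar])))
  have t5 := hX.apply_tw2 t5a (c := a * ‖y‖ + a * ‖m‖) (Eventually.of_forall fun i =>
    Eventually.of_forall fun o => (hbd _ (cut2_mem _ _ _ hy i o) _ (cut2_mem _ _ _ hm i o)).trans
      (add_le_add (mul_le_mul_of_nonneg_left (norm_cut2_le _ _ _ y i o) hM.nonneg)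
        (mul_le_mul_of_nonneg_left (norm_cut2_le _ _ _ m i o) hM.nonneg)))
  have t6 := hm'.apply_tw2 t6a (c := a * ‖x‖ + a * ‖n‖) (Eventually.of_forall fun i =>
    Eventually.of_forall fun o => (hbd _ (cut2_mem _ _ _ hx i o) _ (cut2_mem _ _ _ hn i o)).trans
      (add_le_add (mul_le_mul_of_nonneg_left (norm_cut2_le _ _ _ x i o) hM.nonneg)
        (mul_le_mul_of_nonneg_left (norm_cut2_le _ _ _ n i o) hM.nonneg)))
  have t7 : Tw2 (Ulim H) (fun i o => cut2 (sideM P) true false x i o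
      (bar P (cut2 (sideN P) false true m i o) (L 1 + Λ 1))) (x (bar P m (L 1 + Λ 1))) :=
    ((hX.mul hm').t2 (L 1 + Λ 1)).tw2
  exact (((((t1.sub t2).add t3).add t4).sub t5).sub t6).add t7

omit [CompleteSpace H] in
lemma norm_leftOp_diagonal_le (p : H →L[ℂ] H) (hp : ‖p‖ ≤ 1) :
    ‖leftOp (Matrix.diagonal fun _ : Fin d => p)‖ ≤ 1 :=
  ContinuousLinearMap.opNorm_le_bound _ zero_le_one fun v => by
    rw [one_mul]
    refine (pow_le_pow_iff_left₀ (norm_nonneg _) (norm_nonneg _) two_ne_zero).1 ?_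
    rw [PiLp.norm_sq_eq_of_L2, PiLp.norm_sq_eq_of_L2]
    refine Finset.sum_le_sum fun q _ => pow_le_pow_left₀ (norm_nonneg _) ?_ 2
    obtain ⟨i, k⟩ := q
    rw [leftOp_apply, Finset.sum_eq_single i (fun j _ hj => by simp [Matrix.diagonal, Ne.symm hj])
      (by simp), Matrix.diagonal_apply_eq]
    simpa using p.le_of_opNorm_le hp (v (i, k))

/-- The cut of a matrix. -/
noncomputable def cutMat {S : StarSubalgebra ℂ (H →L[ℂ] H)} (hS : Side P S) (s t : Bool)
    (X : Mat H d) (i o : Idx H) : Mat H d := fun j k => cut2 hS s t (X j k) i o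

lemma norm_cutMat_le {S : StarSubalgebra ℂ (H →L[ℂ] H)} (hS : Side P S) (s t : Bool)
    (X : Mat H d) (i o : Idx H) : ‖leftOp (cutMat hS s t X i o)‖ ≤ ‖leftOp X‖ := by
  have e : cutMat hS s t X i o = Matrix.diagonal (fun _ => cut hS (sel s i o)) * X *
      Matrix.diagonal (fun _ => cut hS (sel t i o)) := by
    funext j k
    rw [Matrix.mul_diagonal, Matrix.diagonal_mul]
    rfl
  rw [e, leftOp_mul, leftOp_mul]
  exact (norm_mul_le _ _).trans ((mul_le_of_le_one_right (norm_nonneg _)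
    (norm_leftOp_diagonal_le _ (norm_cut_le hS _))).trans ((norm_mul_le _ _).trans
      (mul_le_of_le_one_left (norm_nonneg _) (norm_leftOp_diagonal_le _ (norm_cut_le hS _)))))

lemma eventually_adm {C ν : ℝ} (hν : 0 < ν) (s t : Bool) {X n : Mat H d} (h : Adm P C ν X n) :
    ∀ᶠ i in (Ulim H : Filter (Idx H)), ∀ᶠ o in (Ulim H : Filter (Idx H)),
      Adm P (C + 1) ν (cutMat (sideM P) s t X i o) (cutMat (sideN P) s t n i o) := by
  have hvec : T2 (Ulim H) (fun i o => (leftOp (cutMat (sideN P) s t n i o) -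
      leftOp (cutMat (sideM P) s t X i o)) (P.xi d)) ((leftOp n - leftOp X) (P.xi d)) := by
    refine t2_amp fun p => ?_
    obtain ⟨j, k⟩ := p
    simp only [sub_apply, P.leftOp_xi, PiLp.sub_apply, vecOf_apply, cutMat, ← smul_sub]
    obtain ⟨g, hg, hv⟩ := ((s2_cut2 (sideN P) s t (n j k)).t2 P.ξ).sub
      ((s2_cut2 (sideM P) s t (X j k)).t2 P.ξ)
    exact ⟨fun i => _ • g i, hg.mono fun i hi => hi.const_smul _, hv.const_smul _⟩
  have hlt : ‖(leftOp n - leftOp X) (P.xi d)‖ < (C + 1) * ν := by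
    linarith [h.vecNear]
  exact (hvec.eventually_le hlt).mono fun i hi => hi.mono fun o ho =>
    ⟨fun j k => cut2_mem _ _ _ (h.memX j k) i o, fun j k => cut2_mem _ _ _ (h.memn j k) i o,
      (norm_cutMat_le _ _ _ X i o).trans h.normX, (norm_cutMat_le _ _ _ n i o).trans h.normn, ho⟩

/-- The residual bound in the limit. -/
theorem Maps.exists_limit (h : Maps P a L Λ) {C ν R : ℝ} (hν : 0 < ν)
    (hR : ∀ (d : ℕ) (X n Y m : Mat H d), 0 < d → Adm P (C + 1) ν X n → Adm P (C + 1) ν Y m →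
      ‖res P L Λ X n Y m‖ ≤ R) :
    ∃ O : Ops H, O.Good P a ∧ ∀ (d : ℕ) (X n Y m : Mat H d), 0 < d → Adm P C ν X n →
      Adm P C ν Y m →
      ‖vecOf fun i k => ∑ j, rInf P O (X i j) (n i j) (Y j k) (m j k)‖ ≤ R := by
  obtain ⟨O, hO, hlim⟩ := h.exists_ops
  refine ⟨O, hO, fun d X n Y m hd hX hY => ?_⟩
  have hw : Tw2 (Ulim H) (fun i o => res P L Λ (cutMat (sideM P) true false X i o)
      (cutMat (sideN P) true false n i o) (cutMat (sideM P) false true Y i o)
      (cutMat (sideN P) false true m i o))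
      (vecOf fun i k => ∑ j, rInf P O (X i j) (n i j) (Y j k) (m j k)) := by
    refine tw2_amp fun p => ?_
    obtain ⟨i, k⟩ := p
    simp only [res, vecOf_apply]
    exact (Tw2.sum Finset.univ fun j _ =>
      hlim _ (hX.memX i j) _ (hX.memn i j) _ (hY.memX j k) _ (hY.memn j k)).smul _
  refine hw.norm_le ?_
  exact ((eventually_adm hν true false hX).and (eventually_adm hν false true hY)).mono fun i hi =>
    (hi.1.and hi.2).mono fun o ho => hR d _ _ _ _ hd ho.1 ho.2

/-- The limit residual in operator form. -/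
theorem rInf_eq (O : Ops H) (X n Y m : Mat H d) :
    vecOf (fun i k => ∑ j, rInf P O (X i j) (n i j) (Y j k) (m j k)) =
      leftOp X (rightOp (P.mirror (star m)) (P.xi d)) -
        rightOp (P.mirror (star m)) (leftOp X (P.xi d)) +
        ampOp d O.Too (leftOp X (leftOp Y (P.xi d))) +
        ampOp d O.Soo (leftOp n (leftOp m (P.xi d))) -
        leftOp X (ampOp d O.Tio (leftOp Y (P.xi d)) + ampOp d O.Sio (leftOp m (P.xi d))) -
        rightOp (P.mirror (star m))
          (ampOp d O.Toi (leftOp X (P.xi d)) + ampOp d O.Soi (leftOp n (P.xi d))) +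
        leftOp X (rightOp (P.mirror (star m))
          (vecOf fun i k => if i = k then O.v0 else 0)) := by
  have eamp : ∀ (T : H →L[ℂ] H) (v : Fin d → Fin d → H),
      ampOp d T (vecOf v) = vecOf fun i k => T (v i k) := fun T v =>
    Amp.ext' fun i k => by simp
  have em : ∀ l k, P.mirror (star m) l k = bar P (m l k) := fun l k => rfl
  rw [P.leftOp_xi, P.leftOp_xi, P.leftOp_xi, P.leftOp_xi]
  simp only [Pair.xi, leftOp_vecOf, rightOp_vecOf, eamp, ← vecOf_add, ← vecOf_sub, em]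
  congr 1; funext i k
  simp only [Pi.add_apply, Pi.sub_apply, rInf, map_sum, Finset.sum_add_distrib,
    Finset.sum_sub_distrib]
  have e4 : ∀ (v : H), ∑ j, X i j (∑ l, bar P (m l k) (if j = l then v else 0)) =
      ∑ j, X i j (bar P (m j k) v) := fun v =>
    sum_sum_diag X (fun l k => bar P (m l k)) v i k
  simp only [map_sum] at e4
  simp only [e4]

end Vale.Agent.P096.Full.Linear
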