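import Vale.Agent.P096.Full.Linear.Extend
import Vale.Agent.P096.Full.Linear.Limit

/-!
P096, LINEAR: one operator solves the limit residual.
-/

open scoped InnerProductSpace ComplexConjugate

namespace Vale.Agent.P096.Full.Linear

universe u

variable {H : Type u} [NormedAddCommGroup H] [InnerProductSpace ℂ H] [CompleteSpace H] {d : ℕ}
variable {P : Pair H} {a : ℝ} {L Λ : (H →L[ℂ] H) → H}

/-- The operator of `bar` on matrices. -/
noncomputable def barOp (P : Pair H) (m : Mat H d) : Amp H d →L[ℂ] Amp H d :=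
  rightOp (P.mirror (star m))

lemma norm_barOp (m : Mat H d) : ‖barOp P m‖ = ‖leftOp m‖ := by
  rw [barOp, P.norm_rightOp_mirror, ← star_leftOp, ContinuousLinearMap.star_eq_adjoint,
    LinearIsometryEquiv.norm_map]

lemma barOp_mem {m : Mat H d} (hm : ∀ i j, m i j ∈ P.N) (i j : Fin d) :
    P.mirror (star m) i j ∈ P.B :=
  P.mirror_mem (fun i j => by rw [Matrix.star_apply]; exact star_mem (hm j i)) i j

lemma barOp_xi {m : Mat H d} (hm : ∀ i j, m i j ∈ P.N) :
    barOp P m (P.xi d) = leftOp m (P.xi d) := by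
  rw [barOp, P.rightOp_mirror_xi (fun i j => by rw [Matrix.star_apply]; exact star_mem (hm j i)),
    star_star]

omit [CompleteSpace H] in
lemma norm_ampOp_le (T : H →L[ℂ] H) : ‖ampOp d T‖ ≤ ‖T‖ :=
  ContinuousLinearMap.opNorm_le_bound _ (norm_nonneg T) fun v => by
    refine (pow_le_pow_iff_left₀ (norm_nonneg _) (by positivity) two_ne_zero).1 ?_
    rw [mul_pow, PiLp.norm_sq_eq_of_L2, PiLp.norm_sq_eq_of_L2, Finset.mul_sum]
    refine Finset.sum_le_sum fun q _ => ?_
    obtain ⟨i, k⟩ := q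
    rw [ampOp_apply, ← mul_pow]
    exact pow_le_pow_left₀ (norm_nonneg _) (T.le_opNorm _) 2

omit [CompleteSpace H] in
lemma ampOp_add (S T : H →L[ℂ] H) : ampOp d (S + T) = ampOp d S + ampOp d T :=
  ContinuousLinearMap.ext fun v => Amp.ext' fun i k => by simp

/-- The expression which `A` has to make small. -/
noncomputable def defect (P : Pair H) (A : H →L[ℂ] H) (X m : Mat H d) : Amp H d :=
  (leftOp X * barOp P m - barOp P m * leftOp X) (P.xi d) +
    ((ampOp d A * leftOp X - leftOp X * ampOp d A) * barOp P m -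
      barOp P m * (ampOp d A * leftOp X - leftOp X * ampOp d A)) (P.xi d)

/-- The limit residual in operator form. -/
lemma rInf_eq' (O : Ops H) (X n Y m : Mat H d) :
    vecOf (fun i k => ∑ j, rInf P O (X i j) (n i j) (Y j k) (m j k)) =
      leftOp X (barOp P m (P.xi d)) - barOp P m (leftOp X (P.xi d)) +
        ampOp d O.Too (leftOp X (leftOp Y (P.xi d))) +
        ampOp d O.Soo (leftOp n (leftOp m (P.xi d))) -
        leftOp X (ampOp d O.Tio (leftOp Y (P.xi d)) + ampOp d O.Sio (leftOp m (P.xi d))) -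
        barOp P m (ampOp d O.Toi (leftOp X (P.xi d)) + ampOp d O.Soi (leftOp n (P.xi d))) +
        leftOp X (barOp P m (vecOf fun i k => if i = k then O.v0 else 0)) :=
  rInf_eq O X n Y m

/-- The residual with the six operators merged into three. -/
noncomputable def merged (P : Pair H) (A B₁ B₂ : Amp H d →L[ℂ] Amp H d) (w : Amp H d)
    (X Y m : Mat H d) : Amp H d :=
  (leftOp X * barOp P m - barOp P m * leftOp X) (P.xi d) +
    A (leftOp X (leftOp Y (P.xi d))) - leftOp X (B₁ (leftOp Y (P.xi d))) -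
    barOp P m (B₂ (leftOp X (P.xi d))) + leftOp X (barOp P m w)

omit [CompleteSpace H] in
lemma quarter_smul (v : Amp H d) : ((1 / 4 : ℂ) • (1 : Amp H d →L[ℂ] Amp H d)) v =
    (1 / 4 : ℂ) • v := rfl

lemma adm_quarter {C ν : ℝ} (hC : 0 ≤ C * ν) :
    Adm P C ν ((1 / 4 : ℂ) • (1 : Mat H d)) ((1 / 4 : ℂ) • (1 : Mat H d)) := by
  have h1 : ‖(1 : Amp H d →L[ℂ] Amp H d)‖ ≤ 1 := ContinuousLinearMap.norm_id_le
  have hn : ‖leftOp ((1 / 4 : ℂ) • (1 : Mat H d))‖ ≤ 1 / 4 := by
    rw [leftOp_smul, leftOp_one, norm_smul, norm_div, norm_one, Complex.norm_ofNat]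
    exact mul_le_of_le_one_right (by norm_num) h1
  have hm : ∀ (S : StarSubalgebra ℂ (H →L[ℂ] H)) (i j : Fin d),
      ((1 / 4 : ℂ) • (1 : Mat H d)) i j ∈ S := fun S i j => by
    rw [Matrix.smul_apply, Matrix.one_apply]
    exact SMulMemClass.smul_mem _ (by split_ifs <;> simp [one_mem, zero_mem])
  refine ⟨hm P.M, hm P.N, hn, hn, ?_⟩
  simpa using hC

lemma barOp_quarter : barOp P ((1 / 4 : ℂ) • (1 : Mat H d)) = (1 / 4 : ℂ) • 1 := by
  have e : P.mirror (star ((1 / 4 : ℂ) • (1 : Mat H d))) = (1 / 4 : ℂ) • (1 : Mat H d) := by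
    funext i j
    simp only [Pair.mirror, Matrix.star_apply, Matrix.smul_apply, star_smul, P.conjOp_smul,
      RCLike.star_def, Complex.conj_conj]
    by_cases h : i = j
    · subst h; simp [Matrix.one_apply, P.conjOp_one]
    · simp [Matrix.one_apply, h, Ne.symm h]
      ext v; simp
  rw [barOp, e, rightOp_smul, rightOp_one]

/-- Merging the six operators. -/
theorem merged_le {C ν R : ℝ} (hC : 0 ≤ C) (hν : P.NuLe ν) (ha : 0 ≤ a) {O : Ops H}
    (hO : O.Good P a) {X n Y m : Mat H d} (hX : Adm P C ν X n) (hY : Adm P C ν Y m)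
    (hI : ‖vecOf fun i k => ∑ j, rInf P O (X i j) (n i j) (Y j k) (m j k)‖ ≤ R) :
    ‖merged P (ampOp d (O.Too + O.Soo)) (ampOp d (O.Tio + O.Sio)) (ampOp d (O.Toi + O.Soi))
      (vecOf fun i k => if i = k then O.v0 else 0) X Y m‖ ≤ R + 12 * (C + 1) * a * ν := by
  set A := ampOp d (O.Too + O.Soo) with hA
  set B₁ := ampOp d (O.Tio + O.Sio) with hB₁
  set B₂ := ampOp d (O.Toi + O.Soi) with hB₂
  set w : Amp H d := vecOf fun i k => if i = k then O.v0 else 0 with hw
  have hν0 := hν.pos.le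
  have hsm : ∀ i j, m i j ∈ P.N := hY.memn
  set eX := (leftOp n - leftOp X) (P.xi d) with heX
  set eY := (leftOp m - leftOp Y) (P.xi d) with heY
  have key : merged P A B₁ B₂ w X Y m =
      (vecOf fun i k => ∑ j, rInf P O (X i j) (n i j) (Y j k) (m j k)) +
        (leftOp X (ampOp d O.Sio eY) + barOp P m (ampOp d O.Soi eX) -
          ampOp d O.Soo (barOp P m eX + leftOp X eY -
            (leftOp X * barOp P m - barOp P m * leftOp X) (P.xi d))) := by
    have hc : leftOp n (leftOp m (P.xi d)) = barOp P m (leftOp n (P.xi d)) := by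
      rw [← barOp_xi hsm, ← ContinuousLinearMap.mul_apply, barOp,
        P.commute_leftOp_mirror hX.memn (fun i j => by
          rw [Matrix.star_apply]; exact star_mem (hsm j i)),
        ContinuousLinearMap.mul_apply]
    rw [rInf_eq', merged, hA, hB₁, hB₂, heX, heY, hc, ← hw]
    simp only [ampOp_add, sub_apply, add_apply, ContinuousLinearMap.mul_apply, map_add,
      map_sub, barOp_xi hsm]
    abel
  rw [key]
  refine (norm_add_le _ _).trans (add_le_add hI ?_)
  have hc := hν.bound d X (P.mirror (star m)) hX.memX (fun i j => barOp_mem hsm i j)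
  have nb : ‖barOp P m‖ ≤ 1 / 4 := (norm_barOp m).trans_le hY.normn
  have hc' : ‖(leftOp X * barOp P m - barOp P m * leftOp X) (P.xi d)‖ ≤ ν * (1 / 16) :=
    hc.trans (mul_le_mul_of_nonneg_left ((mul_le_mul hX.normX nb (norm_nonneg _)
      (by norm_num)).trans_eq (by norm_num)) hν0)
  have hs : ‖barOp P m eX + leftOp X eY -
      (leftOp X * barOp P m - barOp P m * leftOp X) (P.xi d)‖ ≤ (C + 1) * ν := by
    refine (norm_sub_le _ _).trans ((add_le_add (norm_add_le _ _) hc').trans ?_)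
    have h1 := (barOp P m).le_of_opNorm_le nb eX
    have h2 := (leftOp X).le_of_opNorm_le hX.normX eY
    nlinarith [hX.vecNear, hY.vecNear, mul_nonneg hC hν0]
  refine (norm_sub_le _ _).trans ((add_le_add (norm_add_le _ _) le_rfl).trans ?_)
  have b1 := (leftOp X).le_of_opNorm_le hX.normX (ampOp d O.Sio eY)
  have b2 := (barOp P m).le_of_opNorm_le nb (ampOp d O.Soi eX)
  have b3 := (ampOp d O.Sio).le_of_opNorm_le ((norm_ampOp_le _).trans hO.nSio) eY
  have b4 := (ampOp d O.Soi).le_of_opNorm_le ((norm_ampOp_le _).trans hO.nSoi) eX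
  have b5 := (ampOp d O.Soo).le_of_opNorm_le ((norm_ampOp_le _).trans hO.nSoo)
    (barOp P m eX + leftOp X eY - (leftOp X * barOp P m - barOp P m * leftOp X) (P.xi d))
  nlinarith [mul_le_mul_of_nonneg_left hs (show (0 : ℝ) ≤ 3 * a by linarith),
    mul_le_mul_of_nonneg_left hX.vecNear (show (0 : ℝ) ≤ 3 * a by linarith),
    mul_le_mul_of_nonneg_left hY.vecNear (show (0 : ℝ) ≤ 3 * a by linarith),
    mul_nonneg (mul_nonneg ha hν0) hC, mul_nonneg ha hν0]

/-- The main algebraic step. -/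
theorem defect_le {C γ ν R : ℝ} (hC : 0 ≤ C) (hν : P.NuLe ν) (hγ : P.OpLe γ) (hd : 0 < d)
    (ha : 0 ≤ a) {O : Ops H} (hO : O.Good P a)
    (hI : ∀ (X n Y m : Mat H d), Adm P C ν X n → Adm P C ν Y m →
      ‖vecOf fun i k => ∑ j, rInf P O (X i j) (n i j) (Y j k) (m j k)‖ ≤ R)
    {X n Y m : Mat H d} (hX : Adm P C ν X n) (hY : Adm P C ν Y m) :
    ‖defect P (O.Too + O.Soo) X m‖ ≤ 8 * R + 64 * (C + 1) * a * (ν + γ) := by
  set A := ampOp d (O.Too + O.Soo) with hA
  set B₁ := ampOp d (O.Tio + O.Sio) with hB₁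
  set B₂ := ampOp d (O.Toi + O.Soi) with hB₂
  set w : Amp H d := vecOf fun i k => if i = k then O.v0 else 0 with hw
  set K := 12 * (C + 1) * a * ν with hK
  have hν0 := hν.pos.le
  have nA : ‖A‖ ≤ 6 * a := (norm_ampOp_le _).trans ((norm_add_le _ _).trans (by
    linarith [hO.nToo, hO.nSoo]))
  have nB₂ : ‖B₂‖ ≤ 6 * a := (norm_ampOp_le _).trans ((norm_add_le _ _).trans (by
    linarith [hO.nToi, hO.nSoi]))
  have hmerge : ∀ X n Y m : Mat H d, Adm P C ν X n → Adm P C ν Y m →
      ‖merged P A B₁ B₂ w X Y m‖ ≤ R + K := fun X n Y m hX hY =>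
    merged_le hC hν ha hO hX hY (hI X n Y m hX hY)
  have q := adm_quarter (P := P) (d := d) (mul_nonneg hC hν0)
  set r₁ := A (leftOp Y (P.xi d)) - B₁ (leftOp Y (P.xi d)) - barOp P m (B₂ (P.xi d)) +
    barOp P m w with hr₁
  set r₂ := A (leftOp X (P.xi d)) - leftOp X (B₁ (P.xi d)) - B₂ (leftOp X (P.xi d)) +
    leftOp X w with hr₂
  set r₀ := A (P.xi d) - B₁ (P.xi d) - B₂ (P.xi d) + w with hr₀
  have e₁ : merged P A B₁ B₂ w ((1 / 4 : ℂ) • 1) Y m = (1 / 4 : ℂ) • r₁ := by
    simp only [merged, hr₁, leftOp_smul, leftOp_one, smul_mul_assoc, one_mul, mul_smul_comm,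
      mul_one, sub_self, zero_apply, quarter_smul, ContinuousLinearMap.map_smul, zero_add]
    module
  have e₂ : merged P A B₁ B₂ w X ((1 / 4 : ℂ) • 1) ((1 / 4 : ℂ) • 1) = (1 / 4 : ℂ) • r₂ := by
    simp only [merged, hr₂, barOp_quarter, leftOp_smul, leftOp_one, smul_mul_assoc, one_mul,
      mul_smul_comm, mul_one, sub_self, zero_apply, quarter_smul, ContinuousLinearMap.map_smul,
      zero_add]
    module
  have e₀ : merged P A B₁ B₂ w ((1 / 4 : ℂ) • 1) ((1 / 4 : ℂ) • 1) ((1 / 4 : ℂ) • 1) =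
      (1 / 16 : ℂ) • r₀ := by
    simp only [merged, hr₀, barOp_quarter, leftOp_smul, leftOp_one, smul_mul_assoc, one_mul,
      mul_smul_comm, mul_one, sub_self, zero_apply, quarter_smul, ContinuousLinearMap.map_smul,
      zero_add]
    module
  have n₁ : ‖r₁‖ ≤ 4 * (R + K) := by
    have := hmerge _ _ _ _ q hY
    rw [e₁, norm_smul, norm_div, norm_one, Complex.norm_ofNat] at this
    linarith
  have n₂ : ‖r₂‖ ≤ 4 * (R + K) := by
    have := hmerge _ _ _ _ hX q
    rw [e₂, norm_smul, norm_div, norm_one, Complex.norm_ofNat] at this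
    linarith
  have n₀ : ‖r₀‖ ≤ 16 * (R + K) := by
    have := hmerge _ _ _ _ q q
    rw [e₀, norm_smul, norm_div, norm_one, Complex.norm_ofNat] at this
    linarith
  have key : defect P (O.Too + O.Soo) X m = merged P A B₁ B₂ w X Y m -
      leftOp X r₁ - barOp P m r₂ -
      (leftOp X * barOp P m - barOp P m * leftOp X) (B₂ (P.xi d)) +
      barOp P m (leftOp X r₀) +
      A (leftOp X ((leftOp m - leftOp Y) (P.xi d))) -
      leftOp X (A ((leftOp m - leftOp Y) (P.xi d))) := by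
    simp only [defect, merged, ← hA, hr₁, hr₂, hr₀, sub_apply, add_apply,
      ContinuousLinearMap.mul_apply, map_add, map_sub, barOp_xi hY.memn]
    abel
  have nb : ‖barOp P m‖ ≤ 1 / 4 := (norm_barOp m).trans_le hY.normn
  have hcomm : ‖leftOp X * barOp P m - barOp P m * leftOp X‖ ≤ γ * (1 / 16) :=
    (hγ.comm d X _ hX.memX (fun i j => barOp_mem hY.memn i j)).trans
      (mul_le_mul_of_nonneg_left ((mul_le_mul hX.normX nb (norm_nonneg _)
        (by norm_num)).trans_eq (by norm_num)) hγ.nonneg)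
  have m1 := hmerge X n Y m hX hY
  have m2 := (leftOp X).le_of_opNorm_le hX.normX r₁
  have m3 := (barOp P m).le_of_opNorm_le nb r₂
  have m4 := (leftOp X * barOp P m - barOp P m * leftOp X).le_of_opNorm_le hcomm (B₂ (P.xi d))
  have m5 : ‖B₂ (P.xi d)‖ ≤ 6 * a := by
    simpa [P.norm_xi hd] using B₂.le_of_opNorm_le nB₂ (P.xi d)
  have m6 := (barOp P m).le_of_opNorm_le nb (leftOp X r₀)
  have m7 := (leftOp X).le_of_opNorm_le hX.normX r₀
  have m8 := A.le_of_opNorm_le nA (leftOp X ((leftOp m - leftOp Y) (P.xi d)))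
  have m9 := (leftOp X).le_of_opNorm_le hX.normX ((leftOp m - leftOp Y) (P.xi d))
  have m10 := (leftOp X).le_of_opNorm_le hX.normX (A ((leftOp m - leftOp Y) (P.xi d)))
  have m11 := A.le_of_opNorm_le nA ((leftOp m - leftOp Y) (P.xi d))
  rw [key]
  refine (norm_sub_le _ _).trans ((add_le_add (norm_add_le _ _) le_rfl).trans ?_)
  refine (add_le_add (add_le_add (norm_add_le _ _) le_rfl) le_rfl).trans ?_
  refine (add_le_add (add_le_add (add_le_add (norm_sub_le _ _) le_rfl) le_rfl) le_rfl).trans ?_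
  refine (add_le_add (add_le_add (add_le_add (add_le_add (norm_sub_le _ _) le_rfl) le_rfl) le_rfl)
    le_rfl).trans ?_
  refine (add_le_add (add_le_add (add_le_add (add_le_add (add_le_add (norm_sub_le _ _) le_rfl)
    le_rfl) le_rfl) le_rfl) le_rfl).trans ?_
  have hR : 0 ≤ R := (norm_nonneg _).trans (hI X n Y m hX hY)
  nlinarith [mul_le_mul_of_nonneg_left m5 (show (0 : ℝ) ≤ γ * (1 / 16) by
      have := hγ.nonneg; positivity),
    mul_le_mul_of_nonneg_left hY.vecNear (show (0 : ℝ) ≤ 6 * a by linarith),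
    mul_le_mul_of_nonneg_left m9 (show (0 : ℝ) ≤ 6 * a by linarith),
    mul_le_mul_of_nonneg_left m7 (show (0 : ℝ) ≤ (1 : ℝ) / 4 by norm_num),
    mul_nonneg (mul_nonneg ha hν0) hC, mul_nonneg ha hν0, mul_nonneg ha hγ.nonneg,
    mul_nonneg (mul_nonneg ha hγ.nonneg) hC]

/-- A bounded equivariant operator makes the defect small on admissible pairs. -/
theorem exists_defect (h : Maps P a L Λ) {C C' γ ν ε : ℝ} (hC : 0 ≤ C) (hν : P.NuLe ν)
    (hγ : P.OpLe γ) (hb : ResBd P C' ν ε L Λ) (hdil : CanDilate P (C + 1) C' ν) :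
    ∃ A : H →L[ℂ] H, ‖A‖ ≤ 6 * a ∧ Equiv' P A ∧
      ∀ (d : ℕ) (X n Y m : Mat H d), 0 < d → Adm P C ν X n → Adm P C ν Y m →
        ‖defect P A X m‖ ≤ 64 * ε + 64 * (C + 1) * a * (ν + γ) := by
  obtain ⟨O, hO, hI⟩ := h.exists_limit hν.pos (C := C) (R := 8 * ε)
    fun d X n Y m hd hX hY => res_le h hb hdil hd hX hY
  refine ⟨O.Too + O.Soo, (norm_add_le _ _).trans (by linarith [hO.nToo, hO.nSoo]),
    fun k g hg => ?_, fun d X n Y m hd hX hY => ?_⟩
  · constructor
    · rw [add_mul, mul_add, (hO.eToo k g hg).1, (hO.eSoo k g hg).1]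
    · rw [add_mul, mul_add, (hO.eToo k g hg).2, (hO.eSoo k g hg).2]
  · refine (defect_le hC hν hγ hd h.eqvM.nonneg hO (hI d · · · · hd) hX hY).trans_eq ?_
    ring

end Vale.Agent.P096.Full.Linear
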