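import Vale.Agent.P096.Full.Amp

/-!
P096, LINEAR: iterated weak and strong limits along one ultrafilter.
-/

open scoped InnerProductSpace ComplexConjugate
open Filter Topology

namespace Vale.Agent.P096.Full.Linear

universe u v

variable {H : Type u} [NormedAddCommGroup H] [InnerProductSpace ℂ H] [CompleteSpace H]
variable {ι : Type v} {U : Ultrafilter ι}

/-- Weak convergence of vectors. -/
def TendsV (U : Ultrafilter ι) (f : ι → H) (v : H) : Prop :=
  ∀ η : H, Tendsto (fun i => ⟪η, f i⟫_ℂ) U (𝓝 ⟪η, v⟫_ℂ)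

omit [CompleteSpace H] in
lemma TendsV.of_tendsto {f : ι → H} {v : H} (h : Tendsto f U (𝓝 v)) : TendsV U f v :=
  fun η => ((continuous_const.inner continuous_id).tendsto v).comp h

omit [CompleteSpace H] in
lemma TendsV.norm_le {f : ι → H} {v : H} (h : TendsV U f v) {c : ℝ}
    (hb : ∀ᶠ i in (U : Filter ι), ‖f i‖ ≤ c) : ‖v‖ ≤ c := by
  have h1 : ‖⟪v, v⟫_ℂ‖ ≤ ‖v‖ * c := le_of_tendsto (h v).norm (hb.mono fun i hi =>
    (norm_inner_le_norm _ _).trans (mul_le_mul_of_nonneg_left hi (norm_nonneg _)))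
  obtain ⟨i, hi⟩ := hb.exists
  rw [inner_self_eq_norm_sq_to_K, norm_pow, RCLike.norm_ofReal, abs_norm, pow_two] at h1
  rcases (norm_nonneg v).eq_or_lt with h0 | h0
  · exact h0 ▸ (norm_nonneg _).trans hi
  · exact le_of_mul_le_mul_left h1 h0

omit [CompleteSpace H] in
lemma TendsV.congr {f g : ι → H} {v : H} (h : TendsV U f v)
    (e : ∀ᶠ i in (U : Filter ι), f i = g i) : TendsV U g v :=
  fun η => (h η).congr' (e.mono fun i hi => by simp only [hi])

omit [CompleteSpace H] in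
lemma TendsV.add {f g : ι → H} {v w : H} (h : TendsV U f v) (h' : TendsV U g w) :
    TendsV U (fun i => f i + g i) (v + w) := fun η => by
  simp only [inner_add_right]; exact (h η).add (h' η)

omit [CompleteSpace H] in
lemma TendsV.smul {f : ι → H} {v : H} (h : TendsV U f v) (c : ℂ) :
    TendsV U (fun i => c • f i) (c • v) := fun η => by
  simp only [inner_smul_right]; exact (h η).const_mul c

omit [CompleteSpace H] in
lemma TendsV.unique {f : ι → H} {v w : H} (h : TendsV U f v) (h' : TendsV U f w) : v = w :=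
  ext_inner_left ℂ fun η => tendsto_nhds_unique (h η) (h' η)

lemma TendsV.map (T : H →L[ℂ] H) {f : ι → H} {v : H} (h : TendsV U f v) :
    TendsV U (fun i => T (f i)) (T v) := fun η => by
  simpa only [ContinuousLinearMap.adjoint_inner_left] using h (T.adjoint η)

lemma TendsV.conj (J : H ≃ₗᵢ⋆[ℂ] H) (hJ : ∀ x y, ⟪J x, J y⟫_ℂ = conj ⟪x, y⟫_ℂ)
    {f : ι → H} {v : H} (h : TendsV U f v) : TendsV U (fun i => J (f i)) (J v) := fun η => by
  obtain ⟨η', rfl⟩ := J.surjective η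
  simp only [hJ]
  exact (Complex.continuous_conj.tendsto _).comp (h η')

/-- Operators converging strongly, with adjoints, times a weakly converging bounded family. -/
lemma TendsV.op {A : ι → (H →L[ℂ] H)} {B : H →L[ℂ] H} {f : ι → H} {v : H}
    (hA : ∀ η, Tendsto (fun i => star (A i) η) U (𝓝 (star B η))) (h : TendsV U f v) {c : ℝ}
    (hb : ∀ᶠ i in (U : Filter ι), ‖f i‖ ≤ c) : TendsV U (fun i => A i (f i)) (B v) := fun η => by
  simp only [← ContinuousLinearMap.adjoint_inner_left, ← ContinuousLinearMap.star_eq_adjoint]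
  have h0 : Tendsto (fun i => ⟪star (A i) η - star B η, f i⟫_ℂ) U (𝓝 0) := by
    refine squeeze_zero_norm' (a := fun i => ‖star (A i) η - star B η‖ * c)
      (hb.mono fun i hi => (norm_inner_le_norm _ _).trans
        (mul_le_mul_of_nonneg_left hi (norm_nonneg _))) ?_
    simpa using ((tendsto_iff_norm_sub_tendsto_zero.1 (hA η)).mul_const c)
  simpa [inner_sub_left] using (h (star B η)).add h0

/-- A bounded family has a weak limit along an ultrafilter. -/
theorem exists_tendsV (U : Ultrafilter ι) (f : ι → H) {c : ℝ}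
    (hb : ∀ᶠ i in (U : Filter ι), ‖f i‖ ≤ c) : ∃ v, TendsV U f v := by
  have hc : 0 ≤ c := by obtain ⟨i, hi⟩ := hb.exists; exact (norm_nonneg _).trans hi
  have hlim : ∀ η : H, ∃ z ∈ Metric.closedBall (0 : ℂ) (‖η‖ * c),
      Tendsto (fun i => ⟪f i, η⟫_ℂ) U (𝓝 z) := fun η => by
    refine (isCompact_closedBall (0 : ℂ) (‖η‖ * c)).ultrafilter_le_nhds
      (U.map fun i => ⟪f i, η⟫_ℂ) ?_
    rw [Ultrafilter.coe_map, le_principal_iff, Filter.mem_map]
    exact hb.mono fun i hi => mem_closedBall_zero_iff.2 ((norm_inner_le_norm _ _).trans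
      (by rw [mul_comm]; exact mul_le_mul_of_nonneg_left hi (norm_nonneg _)))
  choose φ hφb hφ using hlim
  let Φ : H →ₗ[ℂ] ℂ :=
    { toFun := φ
      map_add' := fun a b => tendsto_nhds_unique (hφ (a + b))
        (by simpa only [inner_add_right] using (hφ a).add (hφ b))
      map_smul' := fun z a => tendsto_nhds_unique (hφ (z • a))
        (by simpa only [inner_smul_right, RingHom.id_apply, smul_eq_mul] using (hφ a).const_mul z) }
  let Φc : StrongDual ℂ H := Φ.mkContinuous c fun η => by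
    rw [mul_comm]; exact mem_closedBall_zero_iff.1 (hφb η)
  refine ⟨(InnerProductSpace.toDual ℂ H).symm Φc, fun η => ?_⟩
  have e : ⟪(InnerProductSpace.toDual ℂ H).symm Φc, η⟫_ℂ = φ η :=
    InnerProductSpace.toDual_symm_apply
  rw [← inner_conj_symm η, e]
  simpa only [Function.comp_def, inner_conj_symm] using (Complex.continuous_conj.tendsto _).comp (hφ η)

/-- Iterated weak convergence: first the second index, then the first. -/
def Tw2 (U : Ultrafilter ι) (f : ι → ι → H) (v : H) : Prop :=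
  ∃ g : ι → H, (∀ᶠ i in (U : Filter ι), TendsV U (f i) (g i)) ∧ TendsV U g v

omit [CompleteSpace H] in
lemma Tw2.norm_le {f : ι → ι → H} {v : H} (h : Tw2 U f v) {c : ℝ}
    (hb : ∀ᶠ i in (U : Filter ι), ∀ᶠ o in (U : Filter ι), ‖f i o‖ ≤ c) : ‖v‖ ≤ c := by
  obtain ⟨g, hg, hv⟩ := h
  exact hv.norm_le ((hg.and hb).mono fun i hi => hi.1.norm_le hi.2)

omit [CompleteSpace H] in
lemma Tw2.unique {f : ι → ι → H} {v w : H} (h : Tw2 U f v) (h' : Tw2 U f w) : v = w := by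
  obtain ⟨g, hg, hv⟩ := h
  obtain ⟨g', hg', hw⟩ := h'
  exact (hv.congr ((hg.and hg').mono fun i hi => hi.1.unique hi.2)).unique hw

omit [CompleteSpace H] in
lemma Tw2.congr {f f' : ι → ι → H} {v : H} (h : Tw2 U f v)
    (e : ∀ᶠ i in (U : Filter ι), ∀ᶠ o in (U : Filter ι), f i o = f' i o) : Tw2 U f' v := by
  obtain ⟨g, hg, hv⟩ := h
  exact ⟨g, (hg.and e).mono fun i hi => hi.1.congr hi.2, hv⟩

omit [CompleteSpace H] in
lemma Tw2.add {f f' : ι → ι → H} {v w : H} (h : Tw2 U f v) (h' : Tw2 U f' w) :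
    Tw2 U (fun i o => f i o + f' i o) (v + w) := by
  obtain ⟨g, hg, hv⟩ := h
  obtain ⟨g', hg', hw⟩ := h'
  exact ⟨fun i => g i + g' i, (hg.and hg').mono fun i hi => hi.1.add hi.2, hv.add hw⟩

omit [CompleteSpace H] in
lemma Tw2.smul {f : ι → ι → H} {v : H} (h : Tw2 U f v) (c : ℂ) :
    Tw2 U (fun i o => c • f i o) (c • v) := by
  obtain ⟨g, hg, hv⟩ := h
  exact ⟨fun i => c • g i, hg.mono fun i hi => hi.smul c, hv.smul c⟩

lemma Tw2.conj (J : H ≃ₗᵢ⋆[ℂ] H) (hJ : ∀ x y, ⟪J x, J y⟫_ℂ = conj ⟪x, y⟫_ℂ)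
    {f : ι → ι → H} {v : H} (h : Tw2 U f v) : Tw2 U (fun i o => J (f i o)) (J v) := by
  obtain ⟨g, hg, hv⟩ := h
  exact ⟨fun i => J (g i), hg.mono fun i hi => hi.conj J hJ, hv.conj J hJ⟩

/-- A bounded double family has an iterated weak limit. -/
theorem exists_tw2 (U : Ultrafilter ι) (f : ι → ι → H) {c : ℝ}
    (hb : ∀ᶠ i in (U : Filter ι), ∀ᶠ o in (U : Filter ι), ‖f i o‖ ≤ c) : ∃ v, Tw2 U f v := by
  classical
  let g : ι → H := fun i =>
    if h : ∀ᶠ o in (U : Filter ι), ‖f i o‖ ≤ c then (exists_tendsV U (f i) h).choose else 0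
  have hg : ∀ᶠ i in (U : Filter ι), TendsV U (f i) (g i) := hb.mono fun i hi => by
    simp only [g, dif_pos hi]; exact (exists_tendsV U (f i) hi).choose_spec
  obtain ⟨v, hv⟩ := exists_tendsV U g ((hg.and hb).mono fun i hi => hi.1.norm_le hi.2)
  exact ⟨v, g, hg, hv⟩

/-- Iterated norm convergence of vectors. -/
def T2 (U : Ultrafilter ι) (f : ι → ι → H) (v : H) : Prop :=
  ∃ g : ι → H, (∀ᶠ i in (U : Filter ι), Tendsto (f i) U (𝓝 (g i))) ∧ Tendsto g U (𝓝 v)

omit [CompleteSpace H] in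
lemma T2.tw2 {f : ι → ι → H} {v : H} (h : T2 U f v) : Tw2 U f v := by
  obtain ⟨g, hg, hv⟩ := h
  exact ⟨g, hg.mono fun i hi => .of_tendsto hi, .of_tendsto hv⟩

omit [InnerProductSpace ℂ H] [CompleteSpace H] in
lemma T2.eventually_le {f : ι → ι → H} {v : H} (h : T2 U f v) {c : ℝ} (hc : ‖v‖ < c) :
    ∀ᶠ i in (U : Filter ι), ∀ᶠ o in (U : Filter ι), ‖f i o‖ ≤ c := by
  obtain ⟨g, hg, hv⟩ := h
  refine (hg.and ((hv.norm).eventually (eventually_lt_nhds hc))).mono fun i hi => ?_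
  exact ((hi.1.norm).eventually (eventually_lt_nhds hi.2)).mono fun o ho => ho.le

omit [InnerProductSpace ℂ H] [CompleteSpace H] in
lemma T2.sub {f f' : ι → ι → H} {v w : H} (h : T2 U f v) (h' : T2 U f' w) :
    T2 U (fun i o => f i o - f' i o) (v - w) := by
  obtain ⟨g, hg, hv⟩ := h
  obtain ⟨g', hg', hw⟩ := h'
  exact ⟨fun i => g i - g' i, (hg.and hg').mono fun i hi => hi.1.sub hi.2, hv.sub hw⟩

/-- Iterated strong convergence of a bounded double family of operators, with the adjoints. -/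
structure S2 (U : Ultrafilter ι) (A : ι → ι → (H →L[ℂ] H)) (B : H →L[ℂ] H) : Prop where
  bdd : ∃ c, ∀ i o, ‖A i o‖ ≤ c
  lim : ∃ G : ι → (H →L[ℂ] H),
    (∀ᶠ i in (U : Filter ι), ∀ h, Tendsto (fun o => A i o h) U (𝓝 (G i h)) ∧
      Tendsto (fun o => star (A i o) h) U (𝓝 (star (G i) h))) ∧
    ∀ h, Tendsto (fun i => G i h) U (𝓝 (B h)) ∧
      Tendsto (fun i => star (G i) h) U (𝓝 (star B h))

omit [CompleteSpace H] in
lemma tendsto_apply {A : ι → (H →L[ℂ] H)} {B : H →L[ℂ] H} {f : ι → H} {v : H} {c : ℝ}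
    (hc : ∀ᶠ i in (U : Filter ι), ‖A i‖ ≤ c) (hA : ∀ h, Tendsto (fun i => A i h) U (𝓝 (B h)))
    (hf : Tendsto f U (𝓝 v)) : Tendsto (fun i => A i (f i)) U (𝓝 (B v)) := by
  have h0 : Tendsto (fun i => A i (f i - v)) U (𝓝 0) := by
    refine squeeze_zero_norm' (a := fun i => c * ‖f i - v‖)
      (hc.mono fun i hi => (A i).le_of_opNorm_le hi _) ?_
    simpa using (tendsto_iff_norm_sub_tendsto_zero.1 hf).const_mul c
  simpa [map_sub] using h0.add (hA v)

omit [CompleteSpace H] in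
lemma norm_le_of_tendsto_apply {A : ι → (H →L[ℂ] H)} {B : H →L[ℂ] H} {c : ℝ} (h0 : 0 ≤ c)
    (hc : ∀ i, ‖A i‖ ≤ c) (hA : ∀ h, Tendsto (fun i => A i h) U (𝓝 (B h))) : ‖B‖ ≤ c :=
  ContinuousLinearMap.opNorm_le_bound _ h0 fun h =>
    le_of_tendsto (hA h).norm (Eventually.of_forall fun i => (A i).le_of_opNorm_le (hc i) h)

lemma S2.exists_bound {A : ι → ι → (H →L[ℂ] H)} {B : H →L[ℂ] H} (h : S2 U A B) :
    ∃ c, 0 ≤ c ∧ ∀ i o, ‖A i o‖ ≤ c := by
  obtain ⟨c, hc⟩ := h.bdd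
  exact ⟨max c 0, le_max_right _ _, fun i o => (hc i o).trans (le_max_left _ _)⟩

lemma S2.const (B : H →L[ℂ] H) : S2 U (fun _ _ => B) B :=
  ⟨⟨‖B‖, fun _ _ => le_rfl⟩, fun _ => B,
    Eventually.of_forall fun _ _ => ⟨tendsto_const_nhds, tendsto_const_nhds⟩,
    fun _ => ⟨tendsto_const_nhds, tendsto_const_nhds⟩⟩

lemma S2.adj {A : ι → ι → (H →L[ℂ] H)} {B : H →L[ℂ] H} (h : S2 U A B) :
    S2 U (fun i o => star (A i o)) (star B) := by
  obtain ⟨c, hc⟩ := h.bdd
  obtain ⟨G, hG, hB⟩ := h.lim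
  refine ⟨⟨c, fun i o => by rw [norm_star]; exact hc i o⟩, fun i => star (G i),
    hG.mono fun i hi v => ?_, fun v => ?_⟩
  · simp only [star_star]; exact ⟨(hi v).2, (hi v).1⟩
  · simp only [star_star]; exact ⟨(hB v).2, (hB v).1⟩

lemma S2.mul {A A' : ι → ι → (H →L[ℂ] H)} {B B' : H →L[ℂ] H} (h : S2 U A B) (h' : S2 U A' B') :
    S2 U (fun i o => A i o * A' i o) (B * B') := by
  obtain ⟨c, hc0, hc⟩ := h.exists_bound
  obtain ⟨c', hc0', hc'⟩ := h'.exists_bound
  obtain ⟨G, hG, hB⟩ := h.lim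
  obtain ⟨G', hG', hB'⟩ := h'.lim
  have nG : ∀ᶠ i in (U : Filter ι), ‖G i‖ ≤ c ∧ ‖G' i‖ ≤ c' :=
    (hG.and hG').mono fun i hi => ⟨norm_le_of_tendsto_apply hc0 (hc i) fun v => (hi.1 v).1,
      norm_le_of_tendsto_apply hc0' (hc' i) fun v => (hi.2 v).1⟩
  refine ⟨⟨c * c', fun i o => (norm_mul_le _ _).trans
    (mul_le_mul (hc i o) (hc' i o) (norm_nonneg _) hc0)⟩, fun i => G i * G' i,
    (hG.and hG').mono fun i hi v => ⟨?_, ?_⟩, fun v => ⟨?_, ?_⟩⟩
  · simp only [ContinuousLinearMap.mul_apply]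
    exact tendsto_apply (Eventually.of_forall (hc i)) (fun w => (hi.1 w).1) (hi.2 v).1
  · simp only [star_mul, ContinuousLinearMap.mul_apply]
    exact tendsto_apply (Eventually.of_forall fun o => (norm_star (A' i o)).trans_le (hc' i o))
      (fun w => (hi.2 w).2) (hi.1 v).2
  · simp only [ContinuousLinearMap.mul_apply]
    exact tendsto_apply (nG.mono fun i hi => hi.1) (fun w => (hB w).1) (hB' v).1
  · simp only [star_mul, ContinuousLinearMap.mul_apply]
    exact tendsto_apply (nG.mono fun i hi => (norm_star (G' i)).trans_le hi.2)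
      (fun w => (hB' w).2) (hB v).2

lemma S2.conjOp (P : Pair H) {A : ι → ι → (H →L[ℂ] H)} {B : H →L[ℂ] H} (h : S2 U A B) :
    S2 U (fun i o => P.conjOp (A i o)) (P.conjOp B) := by
  obtain ⟨c, hc⟩ := h.bdd
  obtain ⟨G, hG, hB⟩ := h.lim
  refine ⟨⟨c, fun i o => by rw [P.norm_conjOp]; exact hc i o⟩, fun i => P.conjOp (G i),
    hG.mono fun i hi v => ?_, fun v => ?_⟩
  · simp only [P.star_conjOp]
    exact ⟨(P.J.continuous.tendsto _).comp (hi (P.J v)).1,
      (P.J.continuous.tendsto _).comp (hi (P.J v)).2⟩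
  · simp only [P.star_conjOp]
    exact ⟨(P.J.continuous.tendsto _).comp (hB (P.J v)).1,
      (P.J.continuous.tendsto _).comp (hB (P.J v)).2⟩

lemma S2.t2 {A : ι → ι → (H →L[ℂ] H)} {B : H →L[ℂ] H} (h : S2 U A B) (v : H) :
    T2 U (fun i o => A i o v) (B v) := by
  obtain ⟨G, hG, hB⟩ := h.lim
  exact ⟨fun i => G i v, hG.mono fun i hi => (hi v).1, (hB v).1⟩

lemma S2.apply_tw2 {A : ι → ι → (H →L[ℂ] H)} {B : H →L[ℂ] H} {f : ι → ι → H} {v : H}
    (h : S2 U A B) (hf : Tw2 U f v) {c : ℝ}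
    (hb : ∀ᶠ i in (U : Filter ι), ∀ᶠ o in (U : Filter ι), ‖f i o‖ ≤ c) :
    Tw2 U (fun i o => A i o (f i o)) (B v) := by
  obtain ⟨G, hG, hB⟩ := h.lim
  obtain ⟨g, hg, hv⟩ := hf
  exact ⟨fun i => G i (g i),
    (hG.and (hg.and hb)).mono fun i hi => hi.2.1.op (fun η => (hi.1 η).2) hi.2.2,
    hv.op (fun η => (hB η).2) ((hg.and hb).mono fun i hi => hi.1.norm_le hi.2)⟩

end Vale.Agent.P096.Full.Linear
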