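import Vale.Agent.P082.LittleG
import Vale.Agent.P096.Full.Linear.Average
import Vale.Agent.P096.Full.Linear.Weak

/-!
P096, LINEAR: cuts, and the two-norm bounded operators of a bounded equivariant map.
-/

open scoped InnerProductSpace ComplexConjugate
open Filter Topology

namespace Vale.Agent.P096.Full.Linear

universe u

variable {H : Type u} [NormedAddCommGroup H] [InnerProductSpace ℂ H] [CompleteSpace H]
variable {P : Pair H} {S : StarSubalgebra ℂ (H →L[ℂ] H)}

/-- The indices of the cuts: finitely many operators and a tolerance. -/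
abbrev Idx (H : Type u) [NormedAddCommGroup H] [InnerProductSpace ℂ H] : Type u :=
  Finset (H →L[ℂ] H) × ℕ

/-- The ultrafilter of the limits. -/
noncomputable def Ulim (H : Type u) [NormedAddCommGroup H] [InnerProductSpace ℂ H] :
    Ultrafilter (Idx H) := by
  classical exact Ultrafilter.of atTop

lemma eventually_Ulim {H : Type u} [NormedAddCommGroup H] [InnerProductSpace ℂ H] (F : Finset (H →L[ℂ] H)) (j : ℕ) :
    ∀ᶠ i in (Ulim H : Filter (Idx H)), F ⊆ i.1 ∧ j ≤ i.2 := by
  classical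
  exact Filter.mem_of_superset (Ultrafilter.of_le atTop (eventually_ge_atTop ((F, j) : Idx H)))
    fun i hi => ⟨(Prod.le_def.1 hi).1, (Prod.le_def.1 hi).2⟩

lemma commute_cavg {g : H →L[ℂ] H} (hg : g ∈ P.M) (k : ℕ) (y : H →L[ℂ] H) :
    Commute g (cavg P k y) := by
  unfold cavg
  exact Commute.sum_right _ _ _ fun q hq =>
    (show Commute g q from (P.cen_comm k q hq g hg).symm).smul_right _

/-- The deviation of the average of `star z * z` from its central part. -/
noncomputable def dev (P : Pair H) (k : ℕ) (z : H →L[ℂ] H) : H →L[ℂ] H :=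
  av P k (star z * z) - cavg P k (star z * z)

/-- The sum of the squares of the deviations. -/
noncomputable def devSq (P : Pair H) (S : StarSubalgebra ℂ (H →L[ℂ] H))
    (F : Finset (H →L[ℂ] H)) (k : ℕ) : H →L[ℂ] H := by
  classical exact
    ∑ z ∈ F.filter (· ∈ S),
      (star (dev P k z) * dev P k z + star (dev P k (star z)) * dev P k (star z))

lemma devSq_nonneg (F : Finset (H →L[ℂ] H)) (k : ℕ) : 0 ≤ devSq P S F k := by
  unfold devSq
  exact Finset.sum_nonneg fun z _ =>
    add_nonneg (star_mul_self_nonneg _) (star_mul_self_nonneg _)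

lemma re_inner_star_mul (A : H →L[ℂ] H) (v : H) :
    (⟪v, (star A * A) v⟫_ℂ).re = ‖A v‖ ^ 2 := by
  rw [ContinuousLinearMap.mul_apply, ContinuousLinearMap.star_eq_adjoint,
    ContinuousLinearMap.adjoint_inner_right]
  exact inner_self_eq_norm_sq (𝕜 := ℂ) _

lemma re_inner_devSq (F : Finset (H →L[ℂ] H)) (k : ℕ) (v : H) [DecidablePred (· ∈ S)] :
    (⟪v, devSq P S F k v⟫_ℂ).re =
      ∑ z ∈ F.filter (· ∈ S), (‖dev P k z v‖ ^ 2 + ‖dev P k (star z) v‖ ^ 2) := by
  unfold devSq
  rw [sum_apply, inner_sum, Complex.re_sum]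
  refine Finset.sum_congr (by congr) fun z _ => ?_
  rw [add_apply, inner_add_right, Complex.add_re, re_inner_star_mul, re_inner_star_mul]

lemma Side.tendsto_dev (hS : Side P S) {z : H →L[ℂ] H} (hz : z ∈ S) :
    Tendsto (fun k => dev P k z P.ξ) atTop (𝓝 0) := by
  simpa only [dev, sub_apply] using hS.tendsto_av (mul_mem (star_mem hz) hz)

lemma Side.exists_level (hS : Side P S) (F : Finset (H →L[ℂ] H)) (j : ℕ) :
    ∃ k, j ≤ k ∧ (⟪P.ξ, devSq P S F k P.ξ⟫_ℂ).re ≤ ((1 : ℝ) / (j + 1)) ^ 2 := by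
  classical
  have h : Tendsto (fun k => (⟪P.ξ, devSq P S F k P.ξ⟫_ℂ).re) atTop (𝓝 0) := by
    simp only [re_inner_devSq]
    rw [show (0 : ℝ) = ∑ z ∈ F.filter (· ∈ S), ((0 : ℝ) ^ 2 + 0 ^ 2) by simp]
    refine tendsto_finsetSum _ fun z hz => ?_
    have hz' := (Finset.mem_filter.1 hz).2
    simpa using ((hS.tendsto_dev hz').norm.pow 2).add ((hS.tendsto_dev (star_mem hz')).norm.pow 2)
  exact ((eventually_ge_atTop j).and (h.eventually
    (eventually_le_nhds (show (0 : ℝ) < ((1 : ℝ) / (j + 1)) ^ 2 by positivity)))).exists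

/-- The level of a cut. -/
noncomputable def lev (hS : Side P S) (i : Idx H) : ℕ := (hS.exists_level i.1 i.2).choose

/-- The function defining a cut. -/
noncomputable def cutFun (η t : ℝ) : ℝ := η / (η + |t|)

/-- The cut. -/
noncomputable def cut (hS : Side P S) (i : Idx H) : H →L[ℂ] H :=
  cfc (cutFun ((1 : ℝ) / (i.2 + 1))) (devSq P S i.1 (lev hS i))

lemma Side.dev_mem (hS : Side P S) (k : ℕ) {z : H →L[ℂ] H} (hz : z ∈ S) : dev P k z ∈ S :=
  sub_mem (hS.av_mem k (mul_mem (star_mem hz) hz)) (hS.cavg_mem k _)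

lemma Side.devSq_mem (hS : Side P S) (F : Finset (H →L[ℂ] H)) (k : ℕ) :
    devSq P S F k ∈ S := by
  classical
  unfold devSq
  exact sum_mem fun z hz => add_mem
    (mul_mem (star_mem (hS.dev_mem k (Finset.mem_filter.1 hz).2))
      (hS.dev_mem k (Finset.mem_filter.1 hz).2))
    (mul_mem (star_mem (hS.dev_mem k (star_mem (Finset.mem_filter.1 hz).2)))
      (hS.dev_mem k (star_mem (Finset.mem_filter.1 hz).2)))

lemma cut_mem (hS : Side P S) (i : Idx H) : cut hS i ∈ S :=
  haveI := hS.closed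
  cfc_mem _ (hS.devSq_mem _ _)

lemma cut_star (hS : Side P S) (i : Idx H) : star (cut hS i) = cut hS i :=
  (cfc_predicate (cutFun ((1 : ℝ) / (i.2 + 1))) (devSq P S i.1 (lev hS i))).star_eq

lemma continuous_cutFun {η : ℝ} (hη : 0 < η) : Continuous (cutFun η) :=
  continuous_const.div (continuous_const.add continuous_abs) fun t =>
    (add_pos_of_pos_of_nonneg hη (abs_nonneg t)).ne'

lemma cutFun_le_one {η : ℝ} (hη : 0 < η) (t : ℝ) : |cutFun η t| ≤ 1 := by
  rw [cutFun, abs_div, abs_of_pos hη, abs_of_pos (add_pos_of_pos_of_nonneg hη (abs_nonneg t)),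
    div_le_one (by positivity)]
  linarith [abs_nonneg t]

lemma norm_cut_le (hS : Side P S) (i : Idx H) : ‖cut hS i‖ ≤ 1 :=
  norm_cfc_le zero_le_one fun t _ => cutFun_le_one (by positivity) t

lemma cut_commute (hS : Side P S) (i : Idx H) {k : ℕ} (hk : k ≤ lev hS i) {g : H →L[ℂ] H}
    (hg : g ∈ P.G k) : Commute g (cut hS i) := by
  classical
  have hg' := G_le hk hg
  have hd : ∀ z, Commute g (dev P (lev hS i) z) := fun z =>
    (av_commute hg' _).sub_right (commute_cavg (P.G_mem _ g hg').1 _ _)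
  have hsd : ∀ z, Commute g (star (dev P (lev hS i) z)) := fun z => by
    have h1 : Commute (star g) (dev P (lev hS i) z) :=
      (av_commute (P.G_star _ g hg') _).sub_right (commute_cavg (star_mem (P.G_mem _ g hg').1) _ _)
    simpa using h1.star_star
  refine (Commute.cfc_real ?_ _).symm
  unfold devSq
  exact Commute.sum_left _ _ _ fun z _ =>
    ((hsd z).symm.mul_left (hd z).symm).add_left
    ((hsd (star z)).symm.mul_left (hd (star z)).symm)

lemma cut_dev_le (hS : Side P S) (i : Idx H) {z : H →L[ℂ] H} (hz : z ∈ S) (hzi : z ∈ i.1)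
    (w : H →L[ℂ] H) (hw : w = z ∨ w = star z) :
    ‖dev P (lev hS i) w * cut hS i‖ ≤ √((1 : ℝ) / (i.2 + 1)) := by
  classical
  set η : ℝ := (1 : ℝ) / (i.2 + 1)
  set R := devSq P S i.1 (lev hS i) with hR
  set p := cut hS i with hp
  have hη : 0 < η := by positivity
  have hsa : IsSelfAdjoint R := IsSelfAdjoint.of_nonneg (devSq_nonneg _ _)
  have hn : ‖p * R * p‖ ≤ η := by
    have hc := continuous_cutFun hη
    have e : p * R * p = cfc (fun t => cutFun η t * t * cutFun η t) R := by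
      rw [cfc_mul _ _ R, cfc_mul _ _ R, cfc_id' ℝ R]
      rfl
    rw [e]
    refine norm_cfc_le hη.le fun t _ => ?_
    rw [Real.norm_eq_abs, cutFun, abs_mul, abs_mul, abs_div, abs_of_pos hη,
      abs_of_pos (add_pos_of_pos_of_nonneg hη (abs_nonneg t))]
    have ht := abs_nonneg t
    rw [show η / (η + |t|) * |t| * (η / (η + |t|)) = η * (η * |t| / (η + |t|) ^ 2) by
      field_simp]
    refine mul_le_of_le_one_right hη.le ((div_le_one (by positivity)).2 ?_)
    nlinarith
  refine ContinuousLinearMap.opNorm_le_bound _ (Real.sqrt_nonneg _) fun v => ?_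
  refine (pow_le_pow_iff_left₀ (norm_nonneg _) (by positivity) two_ne_zero).1 ?_
  rw [mul_pow, Real.sq_sqrt hη.le, ContinuousLinearMap.mul_apply]
  calc ‖dev P (lev hS i) w (p v)‖ ^ 2 ≤ (⟪p v, R (p v)⟫_ℂ).re := by
        rw [hR, re_inner_devSq]
        refine le_trans ?_ (Finset.single_le_sum (f := fun z =>
          ‖dev P (lev hS i) z (p v)‖ ^ 2 + ‖dev P (lev hS i) (star z) (p v)‖ ^ 2)
          (fun z _ => by positivity) (Finset.mem_filter.2 ⟨hzi, hz⟩))
        rcases hw with rfl | rfl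
        exacts [le_add_of_nonneg_right (sq_nonneg _), le_add_of_nonneg_left (sq_nonneg _)]
    _ = (⟪v, (p * R * p) v⟫_ℂ).re := by
        rw [← ContinuousLinearMap.adjoint_inner_right, ← ContinuousLinearMap.star_eq_adjoint,
          hp, cut_star]
        rfl
    _ ≤ ‖v‖ * (η * ‖v‖) := (Complex.re_le_norm _).trans ((norm_inner_le_norm _ _).trans
        (mul_le_mul_of_nonneg_left ((p * R * p).le_of_opNorm_le hn v) (norm_nonneg _)))
    _ = η * ‖v‖ ^ 2 := by ring

lemma norm_cut_av_le (hS : Side P S) (i : Idx H) {z : H →L[ℂ] H} (hz : z ∈ S) (hzi : z ∈ i.1)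
    (w : H →L[ℂ] H) (hw : w = z ∨ w = star z) {m : ℕ} {q : H →L[ℂ] H} (hq : q ∈ P.cen m) :
    ‖cut hS i * (q * av P (lev hS i) (star w * w)) * cut hS i‖ ≤
      √((1 : ℝ) / (i.2 + 1)) + ‖q * cavg P (lev hS i) (star w * w)‖ := by
  have hc : cut hS i * q = q * cut hS i := (hS.cenComm m q hq _ (cut_mem hS i)).symm
  have e : cut hS i * (q * av P (lev hS i) (star w * w)) * cut hS i =
      q * (cut hS i * (dev P (lev hS i) w * cut hS i)) +
        cut hS i * (q * cavg P (lev hS i) (star w * w)) * cut hS i := by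
    simp only [dev, ← mul_assoc, hc]
    noncomm_ring
  rw [e]
  refine (norm_add_le _ _).trans (add_le_add ?_ ?_)
  · exact (norm_mul_le _ _).trans ((mul_le_of_le_one_left (norm_nonneg _) (P.norm_cen_le hq)).trans
      ((norm_mul_le _ _).trans ((mul_le_of_le_one_left (norm_nonneg _)
        (norm_cut_le hS i)).trans (cut_dev_le hS i hz hzi w hw))))
  · exact (norm_mul_le _ _).trans ((mul_le_of_le_one_right (norm_nonneg _) (norm_cut_le hS i)).trans
      ((norm_mul_le _ _).trans (mul_le_of_le_one_left (norm_nonneg _) (norm_cut_le hS i))))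

lemma norm_cut_xi_le (hS : Side P S) (i : Idx H) :
    ‖cut hS i P.ξ - P.ξ‖ ^ 2 ≤ (1 : ℝ) / (i.2 + 1) := by
  set η : ℝ := (1 : ℝ) / (i.2 + 1) with hη'
  set R := devSq P S i.1 (lev hS i) with hR
  have hη : 0 < η := by positivity
  have hsa : IsSelfAdjoint R := IsSelfAdjoint.of_nonneg (devSq_nonneg _ _)
  have hc := continuous_cutFun hη
  set D := cut hS i - 1 with hD
  have hd : D = cfc (fun t => cutFun η t - 1) R := by
    rw [cfc_sub _ _ R, cfc_const_one ℝ R]
    rfl
  have hpos : 0 ≤ η⁻¹ • R - star D * D := by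
    have hs : star D = D := by rw [hD, star_sub, cut_star, star_one]
    have e1 : η⁻¹ • R = cfc (fun t : ℝ => η⁻¹ * t) R := by
      rw [cfc_const_mul η⁻¹ (fun t => t) R, cfc_id' ℝ R]
    rw [hs, hd, e1, ← cfc_mul _ _ R, ← cfc_sub _ _ R]
    refine cfc_nonneg fun t ht => ?_
    have ht0 : 0 ≤ t := spectrum_nonneg_of_nonneg (devSq_nonneg _ _) ht
    rw [cutFun, abs_of_nonneg ht0, sub_nonneg, show η / (η + t) - 1 = -(t / (η + t)) by
      field_simp; ring, neg_mul_neg, div_mul_div_comm, inv_mul_eq_div,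
      div_le_div_iff₀ (by positivity) hη]
    nlinarith [mul_nonneg ht0 ht0, mul_nonneg (mul_nonneg ht0 ht0) ht0, sq_nonneg η,
      mul_nonneg ht0 (sq_nonneg η)]
  have h := ((ContinuousLinearMap.nonneg_iff_isPositive _).1 hpos).inner_nonneg_right P.ξ
  rw [sub_apply, inner_sub_right, Complex.le_def] at h
  have h2 := h.1
  rw [Complex.sub_re, re_inner_star_mul, hD, sub_apply,
    ContinuousLinearMap.one_apply, smul_apply, inner_smul_right_eq_smul,
    Complex.smul_re, Complex.zero_re] at h2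
  have hk := (hS.exists_level i.1 i.2).choose_spec.2
  have h3 : η⁻¹ * (⟪P.ξ, R P.ξ⟫_ℂ).re ≤ η := by
    rw [inv_mul_le_iff₀ hη]
    exact hk.trans_eq (by rw [hη']; ring)
  rw [smul_eq_mul] at h2
  linarith

lemma le_lev (hS : Side P S) (i : Idx H) : i.2 ≤ lev hS i :=
  (hS.exists_level i.1 i.2).choose_spec.1

lemma tendsto_tol : Tendsto (fun i : Idx H => (1 : ℝ) / (i.2 + 1)) (Ulim H) (𝓝 0) := by
  have h : Tendsto (fun i : Idx H => i.2) (Ulim H) atTop := tendsto_atTop.2 fun j =>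
    (eventually_Ulim (∅ : Finset (H →L[ℂ] H)) j).mono fun i hi => hi.2
  exact (tendsto_one_div_add_atTop_nhds_zero_nat (𝕜 := ℝ)).comp h

/-- The cuts tend strongly to one. -/
theorem tendsto_cut (hS : Side P S) (v : H) :
    Tendsto (fun i => cut hS i v) (Ulim H) (𝓝 v) := by
  have h0 : Tendsto (fun i => cut hS i P.ξ - P.ξ) (Ulim H) (𝓝 0) :=
    squeeze_zero_norm (fun i => Real.le_sqrt_of_sq_le (norm_cut_xi_le hS i))
      (by simpa using (tendsto_tol (H := H)).sqrt)
  rw [Metric.tendsto_nhds]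
  intro ε hε
  obtain ⟨_, ⟨y, hy, rfl⟩, hd⟩ := Metric.mem_closure_iff.1 (hS.dense v) (ε / 4) (by positivity)
  have h1 : Tendsto (fun i => cut hS i (y P.ξ) - y P.ξ) (Ulim H) (𝓝 0) := by
    have e : ∀ i, cut hS i (y P.ξ) - y P.ξ = P.conjOp (star y) (cut hS i P.ξ - P.ξ) := fun i => by
      have h2 : P.conjOp (star y) P.ξ = y P.ξ := by rw [hS.conj_xi (star_mem hy), star_star]
      rw [map_sub, h2, ← ContinuousLinearMap.mul_apply (P.conjOp (star y)),
        ← hS.comm _ (cut_mem hS i) _ (star_mem hy), ContinuousLinearMap.mul_apply, h2]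
    simp only [e]
    have := ((P.conjOp (star y)).continuous.tendsto 0).comp h0
    rw [ContinuousLinearMap.map_zero] at this
    exact this
  refine (Metric.tendsto_nhds.1 h1 (ε / 4) (by positivity)).mono fun i hi => ?_
  rw [dist_zero_right] at hi
  rw [dist_eq_norm] at hd ⊢
  calc ‖cut hS i v - v‖ = ‖cut hS i (v - y P.ξ) + (cut hS i (y P.ξ) - y P.ξ) - (v - y P.ξ)‖ := by
        rw [map_sub]; abel_nf
    _ ≤ ‖cut hS i (v - y P.ξ)‖ + ‖cut hS i (y P.ξ) - y P.ξ‖ + ‖v - y P.ξ‖ :=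
        (norm_sub_le _ _).trans (add_le_add (norm_add_le _ _) le_rfl)
    _ < ε := by
        have := (cut hS i).le_of_opNorm_le (norm_cut_le hS i) (v - y P.ξ)
        linarith

/-- The outer or the inner index. -/
def sel {α : Type*} (s : Bool) (i o : α) : α := if s then o else i

/-- The sandwiched cuts converge strongly. -/
theorem s2_cut (hS : Side P S) (s : Bool) :
    S2 (Ulim H) (fun i o => cut hS (sel s i o)) 1 := by
  refine ⟨⟨1, fun i o => norm_cut_le hS _⟩, if s then fun _ => 1 else cut hS,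
    Eventually.of_forall fun i v => ?_, fun v => ?_⟩
  · cases s
    · exact ⟨tendsto_const_nhds, tendsto_const_nhds⟩
    · simp only [sel, if_true, cut_star, star_one, ContinuousLinearMap.one_apply]
      exact ⟨tendsto_cut hS v, tendsto_cut hS v⟩
  · cases s
    · simp only [Bool.false_eq_true, if_false, cut_star, star_one, ContinuousLinearMap.one_apply]
      exact ⟨tendsto_cut hS v, tendsto_cut hS v⟩
    · exact ⟨tendsto_const_nhds, tendsto_const_nhds⟩

lemma eventually_sel {p : Idx H → Prop} (s : Bool)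
    (h : ∀ᶠ i in (Ulim H : Filter (Idx H)), p i) :
    ∀ᶠ i in (Ulim H : Filter (Idx H)), ∀ᶠ o in (Ulim H : Filter (Idx H)), p (sel s i o) := by
  cases s
  · exact h.mono fun i hi => Eventually.of_forall fun _ => hi
  · exact Eventually.of_forall fun _ => h

/-- The hypotheses on a map: linear and bounded on `S`, and equivariant. -/
structure Eqv (P : Pair H) (S : StarSubalgebra ℂ (H →L[ℂ] H)) (a : ℝ)
    (L : (H →L[ℂ] H) → H) : Prop where
  lin : ∀ x ∈ S, ∀ y ∈ S, ∀ c : ℂ, L (c • x + y) = c • L x + L y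
  bdd : ∀ x ∈ S, ‖L x‖ ≤ a * ‖x‖
  law : ∀ k, ∀ g ∈ P.G k, ∀ h ∈ P.G k, ∀ x ∈ S,
    L (g * x * h) = g (P.conjOp (star h) (L x))

variable {a : ℝ} {L : (H →L[ℂ] H) → H}

lemma Eqv.map_add (hL : Eqv P S a L) {x y : H →L[ℂ] H} (hx : x ∈ S) (hy : y ∈ S) :
    L (x + y) = L x + L y := by
  simpa using hL.lin x hx y hy 1

lemma Eqv.map_zero (hL : Eqv P S a L) : L 0 = 0 := by
  simpa using hL.map_add (zero_mem S) (zero_mem S)

lemma Eqv.map_smul (hL : Eqv P S a L) {x : H →L[ℂ] H} (hx : x ∈ S) (c : ℂ) :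
    L (c • x) = c • L x := by
  simpa [hL.map_zero] using hL.lin x hx 0 (zero_mem S) c

lemma Eqv.nonneg (hL : Eqv P S a L) : 0 ≤ a := by
  have h1 : ‖(1 : H →L[ℂ] H)‖ = 1 := le_antisymm ContinuousLinearMap.norm_id_le
    (by simpa [P.norm_ξ] using (1 : H →L[ℂ] H).le_opNorm P.ξ)
  have := (norm_nonneg _).trans (hL.bdd 1 (one_mem S))
  rwa [h1, mul_one] at this

lemma norm_apply_unitary {g : H →L[ℂ] H} (h : star g * g = 1) (v : H) : ‖g v‖ = ‖v‖ := by
  refine le_antisymm (by simpa using g.le_of_opNorm_le (norm_le_one_of_star_mul_self h) v) ?_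
  calc ‖v‖ = ‖star g (g v)‖ := by
        rw [← ContinuousLinearMap.mul_apply, h, ContinuousLinearMap.one_apply]
    _ ≤ 1 * ‖g v‖ := (star g).le_of_opNorm_le
        ((norm_star g).trans_le (norm_le_one_of_star_mul_self h)) _
    _ = _ := one_mul _

lemma col_bound {p q x : H →L[ℂ] H} (hp : star p = p) (hq : ‖q‖ ≤ 1) {k : ℕ}
    (hpk : ∀ g ∈ P.G k, Commute g p) :
    ‖∑ h ∈ P.G k, star (q * x * p * h) * (q * x * p * h)‖ ≤
      (P.G k).card * ‖p * av P k (star x * x) * p‖ := by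
  have hq1 : star q * q ≤ 1 := by
    refine (CStarAlgebra.norm_le_one_iff_of_nonneg _ (star_mul_self_nonneg _)).1 ?_
    rw [CStarRing.norm_star_mul_self]
    exact mul_le_one₀ hq (norm_nonneg _) hq
  have hle : ∑ h ∈ P.G k, star (q * x * p * h) * (q * x * p * h) ≤
      ∑ h ∈ P.G k, p * (star h * (star x * x) * h) * p := by
    refine Finset.sum_le_sum fun h hh => ?_
    calc star (q * x * p * h) * (q * x * p * h)
        = star (x * p * h) * (star q * q) * (x * p * h) := by simp only [star_mul, mul_assoc]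
      _ ≤ star (x * p * h) * 1 * (x * p * h) := star_left_conjugate_le_conjugate hq1 _
      _ = _ := by
          have e1 := (hpk h hh).eq
          have e2 := (hpk (star h) (P.G_star k h hh)).eq
          simp only [star_mul, mul_one, hp, mul_assoc]
          rw [← e1, ← mul_assoc (star h) p, e2, mul_assoc]
  refine (CStarAlgebra.norm_le_norm_of_nonneg_of_le
    (Finset.sum_nonneg fun h _ => star_mul_self_nonneg _) hle).trans_eq ?_
  have e : ∑ h ∈ P.G k, p * (star h * (star x * x) * h) * p =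
      ((P.G k).card : ℂ) • (p * av P k (star x * x) * p) := by
    rw [← Finset.sum_mul, ← Finset.mul_sum, av, mul_smul_comm, smul_mul_assoc, smul_smul,
      mul_inv_cancel₀ (G_card_ne k), one_smul, ← sum_star]
    simp only [star_star]
  rw [e, norm_smul, Complex.norm_natCast]

/-- The two-sided bound with independent levels. -/
theorem Eqv.cut_bound (hS : Side P S) (hL : Eqv P S a L) {p q x : H →L[ℂ] H} (hpS : p ∈ S)
    (hqS : q ∈ S) (hxS : x ∈ S) (hp : star p = p) (hq : star q = q) (hp1 : ‖p‖ ≤ 1)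
    (hq1 : ‖q‖ ≤ 1) {k l : ℕ} (hpk : ∀ g ∈ P.G k, Commute g p) (hql : ∀ g ∈ P.G l, Commute g q) :
    ‖L (q * x * p)‖ ^ 2 ≤ 3 * a ^ 2 *
      (‖p * av P k (star x * x) * p‖ + ‖q * av P l (x * star x) * q‖) := by
  haveI := hS.closed
  let Lc : S →L[ℂ] H :=
    LinearMap.mkContinuous
      { toFun := fun z => L z
        map_add' := fun y z => hL.map_add y.2 z.2
        map_smul' := fun c z => hL.map_smul z.2 c }
      a fun z => hL.bdd z z.2
  set w := q * x * p with hw
  have hwS : w ∈ S := mul_mem (mul_mem hqS hxS) hpS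
  let Y : {g // g ∈ P.G l} × {h // h ∈ P.G k} → S := fun i =>
    ⟨i.1.1 * w * i.2.1, mul_mem (mul_mem (hS.gMem _ _ i.1.2) hwS) (hS.gMem _ _ i.2.2)⟩
  have hY : ∀ i, ‖Lc (Y i)‖ = ‖L w‖ := fun i => by
    show ‖L (i.1.1 * w * i.2.1)‖ = _
    rw [hL.law (max l k) _ (G_le (le_max_left _ _) i.1.2) _ (G_le (le_max_right _ _) i.2.2) w hwS,
      norm_apply_unitary (P.G_mem _ _ i.1.2).2.2.1, P.conjOp_apply, LinearIsometryEquiv.norm_map,
      norm_apply_unitary (by rw [star_star]; exact (P.G_mem _ _ i.2.2).2.2.2),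
      LinearIsometryEquiv.norm_map]
  have h := Vale.Agent.P082.LittleG.little_grothendieck Lc Y
  simp only [hY, Finset.sum_const, Finset.card_univ, Fintype.card_prod, Fintype.card_coe,
    nsmul_eq_mul] at h
  push_cast at h
  set nl : ℝ := ((P.G l).card : ℝ)
  set nk : ℝ := ((P.G k).card : ℝ)
  set A := ‖p * av P k (star x * x) * p‖
  set B := ‖q * av P l (x * star x) * q‖
  have hA : ‖∑ i, star (Y i) * Y i‖ ≤ nl * nk * A := by
    show ‖((∑ i, star (Y i) * Y i : S) : H →L[ℂ] H)‖ ≤ _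
    push_cast [StarMemClass.coe_star]
    have e : ∑ i, star (Y i : H →L[ℂ] H) * (Y i : H →L[ℂ] H) =
        (P.G l).card • ∑ h ∈ P.G k, star (q * x * p * h) * (q * x * p * h) := by
      rw [Fintype.sum_prod_type, ← Finset.sum_coe_sort (P.G k)]
      rw [Finset.sum_congr rfl fun (g : {g // g ∈ P.G l}) _ =>
        Finset.sum_congr rfl fun (h : {h // h ∈ P.G k}) _ =>
          show star (g.1 * w * h.1) * (g.1 * w * h.1) = star (w * h.1) * (w * h.1) by
            simp only [star_mul, mul_assoc]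
            rw [← mul_assoc (star g.1) g.1, (P.G_mem l _ g.2).2.2.1, one_mul]]
      simp [hw]
    rw [e, ← Nat.cast_smul_eq_nsmul ℂ, norm_smul, Complex.norm_natCast]
    exact (mul_le_mul_of_nonneg_left (col_bound hp hq1 hpk) (Nat.cast_nonneg _)).trans_eq
      (mul_assoc _ _ _).symm
  have hB : ‖∑ i, Y i * star (Y i)‖ ≤ nl * nk * B := by
    show ‖((∑ i, Y i * star (Y i) : S) : H →L[ℂ] H)‖ ≤ _
    push_cast [StarMemClass.coe_star]
    have e : ∑ i, (Y i : H →L[ℂ] H) * star (Y i : H →L[ℂ] H) =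
        (P.G k).card • ∑ g ∈ P.G l, star (p * star x * q * g) * (p * star x * q * g) := by
      rw [Fintype.sum_prod_type, Finset.sum_comm, ← sum_star (k := l)]
      rw [← Finset.sum_coe_sort (P.G l)]
      rw [Finset.sum_congr rfl fun (h : {h // h ∈ P.G k}) _ =>
        Finset.sum_congr rfl fun (g : {g // g ∈ P.G l}) _ =>
          show g.1 * w * h.1 * star (g.1 * w * h.1) =
              star (p * star x * q * star g.1) * (p * star x * q * star g.1) by
            simp only [hw, star_mul, star_star, hp, hq, mul_assoc]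
            rw [← mul_assoc h.1 (star h.1), (P.G_mem k _ h.2).2.2.2, one_mul]]
      simp
    rw [e, ← Nat.cast_smul_eq_nsmul ℂ, norm_smul, Complex.norm_natCast]
    have := mul_le_mul_of_nonneg_left (col_bound (x := star x) hq hp1 hql)
      (Nat.cast_nonneg (α := ℝ) (P.G k).card)
    rw [star_star] at this
    exact this.trans_eq (by ring)
  have hn : ‖Lc‖ ^ 2 ≤ a ^ 2 := pow_le_pow_left₀ (norm_nonneg _)
    (LinearMap.mkContinuous_norm_le _ hL.nonneg _) 2
  have hnl : 0 < nl := Nat.cast_pos.2 (G_card_pos l)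
  have hnk : 0 < nk := Nat.cast_pos.2 (G_card_pos k)
  refine le_of_mul_le_mul_left ?_ (mul_pos hnl hnk)
  calc nl * nk * ‖L w‖ ^ 2 ≤ _ := h
    _ ≤ 3 * a ^ 2 * (nl * nk * A + nl * nk * B) :=
        mul_le_mul (mul_le_mul_of_nonneg_left hn (by norm_num)) (add_le_add hA hB)
          (by positivity) (by positivity)
    _ = _ := by ring

/-- The cut family of `L` at `x`. -/
noncomputable def cutFam (hS : Side P S) (L : (H →L[ℂ] H) → H) (s t : Bool) (x : H →L[ℂ] H)
    (i o : Idx H) : H :=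
  L (cut hS (sel s i o) * x * cut hS (sel t i o))

lemma Eqv.norm_cutFam_le (hS : Side P S) (hL : Eqv P S a L) (s t : Bool) {x : H →L[ℂ] H}
    (hx : x ∈ S) (i o : Idx H) : ‖cutFam hS L s t x i o‖ ≤ a * ‖x‖ := by
  refine (hL.bdd _ (mul_mem (mul_mem (cut_mem hS _) hx) (cut_mem hS _))).trans
    (mul_le_mul_of_nonneg_left ?_ hL.nonneg)
  refine (norm_mul_le _ _).trans ((mul_le_of_le_one_right (norm_nonneg _) (norm_cut_le hS _)).trans
    ((norm_mul_le _ _).trans (mul_le_of_le_one_left (norm_nonneg _) (norm_cut_le hS _))))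

/-- The weights of one level add up to the squared norm. -/
lemma sum_cavg_le {k m : ℕ} (hkm : k ≤ m) (w : H →L[ℂ] H)
    (hw : ∀ q ∈ P.cen k, q * w = w * q) :
    ∑ q ∈ P.cen m, ‖q * cavg P k (star w * w)‖ * ‖q P.ξ‖ ^ 2 ≤ ‖w P.ξ‖ ^ 2 := by
  classical
  have one : ∀ r ∈ P.cen k, coef P r ((star w * w) P.ξ) =
      (((‖r (w P.ξ)‖ ^ 2 / ‖r P.ξ‖ ^ 2 : ℝ)) : ℂ) := fun r hr => by
    have e : ⟪r P.ξ, (star w * w) P.ξ⟫_ℂ = ((‖r (w P.ξ)‖ ^ 2 : ℝ) : ℂ) := by
      rw [comp_mul_apply, ContinuousLinearMap.star_eq_adjoint,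
        ContinuousLinearMap.adjoint_inner_right, ← comp_mul_apply, ← hw r hr, comp_mul_apply,
        inner_cen_right hr, show ⟪w P.ξ, r (w P.ξ)⟫_ℂ = ⟪r (w P.ξ), r (w P.ξ)⟫_ℂ by
          rw [inner_cen_right hr, cen_apply_self hr], inner_self_eq_norm_sq_to_K]
      norm_cast
    rw [coef, e, ← Complex.ofReal_div]
  have split : ∀ f : (H →L[ℂ] H) → ℝ,
      ∑ q ∈ P.cen m, f q = ∑ r ∈ P.cen k, ∑ q ∈ P.under r m, f q := fun f => by
    rw [← Finset.sum_biUnion]
    · refine Finset.sum_congr ?_ fun _ _ => rfl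
      ext q
      simp only [Finset.mem_biUnion, P.mem_under]
      exact ⟨fun hq => let ⟨r, hr, h⟩ := P.cen_le hkm q hq; ⟨r, hr, hq, h⟩,
        fun ⟨_, _, hq, _⟩ => hq⟩
    · intro r hr r' hr' hne
      refine Finset.disjoint_left.2 fun q hq hq' => (P.cen_proj m q (P.mem_under.1 hq).1).2.2 ?_
      rw [← (P.mem_under.1 hq).2, ← (P.mem_under.1 hq').2, mul_assoc,
        P.cen_orth k r' hr' r hr (Ne.symm hne), mul_zero]
  rw [split, show ‖w P.ξ‖ ^ 2 = ∑ r ∈ P.cen k, ‖r (w P.ξ)‖ ^ 2 by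
    rw [← P.sum_norm_sq (P.cen k) subset_rfl, P.cen_sum, one_apply_eq_self]]
  refine Finset.sum_le_sum fun r hr => ?_
  have hp := pow_pos (norm_pos_iff.2 (P.cen_xi_ne hr)) 2
  have hs : P.under r m ⊆ P.cen m := fun q hq => (P.mem_under.1 hq).1
  calc ∑ q ∈ P.under r m, ‖q * cavg P k (star w * w)‖ * ‖q P.ξ‖ ^ 2
      ≤ ∑ q ∈ P.under r m, ‖r (w P.ξ)‖ ^ 2 / ‖r P.ξ‖ ^ 2 * ‖q P.ξ‖ ^ 2 := by
        refine Finset.sum_le_sum fun q hq => mul_le_mul_of_nonneg_right ?_ (sq_nonneg _)
        obtain ⟨hqm, hqr⟩ := P.mem_under.1 hq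
        have e : q * cavg P k (star w * w) = coef P r ((star w * w) P.ξ) • q := by
          rw [cavg, Finset.mul_sum, Finset.sum_eq_single r]
          · rw [mul_smul_comm, hqr]
          · intro r' hr' hne
            rw [mul_smul_comm, ← hqr, mul_assoc, P.cen_orth k r hr r' hr' (Ne.symm hne),
              mul_zero, smul_zero]
          · exact fun h => absurd hr h
        rw [e, norm_smul, one r hr, Complex.norm_real,
          Real.norm_of_nonneg (div_nonneg (sq_nonneg _) hp.le)]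
        exact mul_le_of_le_one_right (div_nonneg (sq_nonneg _) hp.le) (P.norm_cen_le hqm)
    _ = _ := by
        rw [← Finset.mul_sum, ← P.sum_norm_sq _ hs, P.cen_split hkm hr, div_mul_cancel₀ _ hp.ne']

/-- A bound on every central part. -/
def LocBd (P : Pair H) (S : StarSubalgebra ℂ (H →L[ℂ] H)) (a : ℝ) (L : (H →L[ℂ] H) → H) : Prop :=
  ∀ x ∈ S, ∀ k, ∀ q ∈ P.cen k, ‖q (L x)‖ ≤ a * ‖x‖ * ‖q P.ξ‖

lemma Eqv.map_cen (hS : Side P S) (hL : Eqv P S a L) {k : ℕ} {q : H →L[ℂ] H} (hq : q ∈ P.cen k)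
    {x : H →L[ℂ] H} (hx : x ∈ S) : L (q * x) = q (L x) := by
  set g : H →L[ℂ] H := 1 - (2 : ℂ) • q with hg
  have hgG : g ∈ P.G k := P.cen_sym k q hq
  have e := hL.law k g hgG 1 (P.G_one k) x hx
  rw [mul_one, star_one, P.conjOp_one, one_apply_eq_self] at e
  have h2 : q = (1 / 2 : ℂ) • ((1 : H →L[ℂ] H) - g) := P.cen_eq hq
  have h3 : q * x = (1 / 2 : ℂ) • (x + (-1 : ℂ) • (g * x)) := by
    rw [h2, smul_mul_assoc, sub_mul, one_mul, neg_one_smul, sub_eq_add_neg]
  have hgx : g * x ∈ S := mul_mem (hS.gMem k g hgG) hx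
  rw [h3, hL.map_smul (add_mem hx (SMulMemClass.smul_mem _ hgx)), hL.map_add hx
    (SMulMemClass.smul_mem _ hgx), hL.map_smul hgx, e]
  conv_rhs => rw [h2]
  simp only [smul_apply, sub_apply, one_apply_eq_self]
  module

lemma av_cen (hS : Side P S) {k m : ℕ} {q y : H →L[ℂ] H} (hq : q ∈ P.cen m) :
    av P k (q * y) = q * av P k y := by
  simp only [av, Finset.mul_sum, mul_smul_comm]
  refine congrArg _ (Finset.sum_congr rfl fun g hg => ?_)
  rw [← mul_assoc g q, ← hS.cenComm m q hq g (hS.gMem k g hg)]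
  simp only [mul_assoc]

lemma Eqv.eventually_cutFam_le (hS : Side P S) (hL : Eqv P S a L) (hl : LocBd P S a L)
    (s t : Bool) {x : H →L[ℂ] H} (hx : x ∈ S) {ε : ℝ} (hε : 0 < ε) :
    ∀ᶠ i in (Ulim H : Filter (Idx H)), ∀ᶠ o in (Ulim H : Filter (Idx H)),
      ‖cutFam hS L s t x i o‖ ≤ 3 * a * ‖x P.ξ‖ + ε := by
  have ha := hL.nonneg
  have hsmall : ∀ᶠ i in (Ulim H : Filter (Idx H)),
      x ∈ i.1 ∧ 6 * a ^ 2 * √((1 : ℝ) / (i.2 + 1)) ≤ ε ^ 2 := by
    refine ((eventually_Ulim {x} 0).mono fun i hi => hi.1 (Finset.mem_singleton_self x)).and ?_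
    have := ((tendsto_tol (H := H)).sqrt).const_mul (6 * a ^ 2)
    rw [Real.sqrt_zero, mul_zero] at this
    exact this.eventually (eventually_le_nhds (by positivity))
  refine ((eventually_sel s hsmall).and (eventually_sel t hsmall)).mono fun i hi =>
    (hi.1.and hi.2).mono fun o ho => ?_
  obtain ⟨⟨h1, h1'⟩, h2, h2'⟩ := ho
  set i₁ := sel s i o
  set i₂ := sel t i o
  set p := cut hS i₂ with hp
  set p' := cut hS i₁ with hp'
  set k := lev hS i₂
  set l := lev hS i₁
  set m := max k l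
  set τ₁ := √((1 : ℝ) / (i₁.2 + 1))
  set τ₂ := √((1 : ℝ) / (i₂.2 + 1))
  have hw : cutFam hS L s t x i o = L (p' * x * p) := rfl
  have hwS : p' * x * p ∈ S := mul_mem (mul_mem (cut_mem hS _) hx) (cut_mem hS _)
  have part : ∀ q ∈ P.cen m, ‖q (L (p' * x * p))‖ ^ 2 ≤ 3 * a ^ 2 *
      ((‖q * cavg P k (star x * x)‖ + ‖q * cavg P l (x * star x)‖) * ‖q P.ξ‖ ^ 2 +
        (τ₁ + τ₂) * ‖q P.ξ‖ ^ 2) := fun q hq => by
    obtain ⟨hqs, hqq, -⟩ := P.cen_proj m q hq
    have hqS := hS.cen_mem hq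
    have hLq : Eqv P S (a * ‖q P.ξ‖) (fun z => q (L z)) :=
      ⟨fun y hy z hz c => by rw [hL.lin y hy z hz c, _root_.map_add, _root_.map_smul],
        fun y hy => (hl y hy m q hq).trans_eq (by ring), fun j g hg h hh y hy => by
          rw [hL.law j g hg h hh y hy, ← comp_mul_apply q g,
            P.cen_comm m q hq g (P.G_mem j g hg).1, comp_mul_apply,
            ← comp_mul_apply q, P.cen_comm_B hq ⟨star h, star_mem (P.G_mem j h hh).2.1, rfl⟩,
            comp_mul_apply]⟩
    have h := hLq.cut_bound hS (cut_mem hS i₂) (cut_mem hS i₁) (mul_mem hqS hx) (cut_star hS _)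
      (cut_star hS _) (norm_cut_le hS _) (norm_cut_le hS _) (k := k) (l := l)
      (fun g hg => cut_commute hS _ le_rfl hg) (fun g hg => cut_commute hS _ le_rfl hg)
    have e1 : p' * (q * x) * p = q * (p' * x * p) := by
      rw [← mul_assoc p' q, ← hS.cenComm m q hq p' (cut_mem hS _)]
      simp only [mul_assoc]
    have e2 : q (L (p' * (q * x) * p)) = q (L (p' * x * p)) := by
      rw [e1, hL.map_cen hS hq hwS, cen_apply_self hq]
    have e3 : star (q * x) * (q * x) = q * (star x * x) := by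
      rw [star_mul, hqs, ← mul_assoc (star x * q), mul_assoc (star x) q q, hqq,
        ← hS.cenComm m q hq _ (star_mem hx), mul_assoc]
    have e4 : q * x * star (q * x) = q * (x * star x) := by
      rw [star_mul, hqs, hS.cenComm m q hq x hx, mul_assoc x q, ← mul_assoc q (star x),
        hS.cenComm m q hq _ (star_mem hx), mul_assoc (star x) q q, hqq, ← mul_assoc,
        ← hS.cenComm m q hq _ (mul_mem hx (star_mem hx))]
    rw [← hp, ← hp', e3, e4, av_cen hS hq, av_cen hS hq] at h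
    simp only [e2] at h
    have hA := norm_cut_av_le hS i₂ hx h2 x (Or.inl rfl) hq
    have hB := norm_cut_av_le hS i₁ hx h1 (star x) (Or.inr rfl) hq
    rw [star_star] at hB
    refine h.trans ?_
    rw [mul_pow]
    calc _ ≤ 3 * (a ^ 2 * ‖q P.ξ‖ ^ 2) * ((τ₂ + ‖q * cavg P k (star x * x)‖) +
          (τ₁ + ‖q * cavg P l (x * star x)‖)) :=
          mul_le_mul_of_nonneg_left (add_le_add hA hB) (by positivity)
      _ = _ := by ring
  refine (pow_le_pow_iff_left₀ (norm_nonneg _) (by positivity) two_ne_zero).1 ?_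
  have hP : ∀ v : H, ‖v‖ ^ 2 = ∑ q ∈ P.cen m, ‖q v‖ ^ 2 := fun v => by
    rw [← P.sum_norm_sq (P.cen m) subset_rfl v, P.cen_sum, one_apply_eq_self]
  rw [hw, hP]
  refine (Finset.sum_le_sum part).trans ?_
  have hk := sum_cavg_le (le_max_left k l) x fun q hq => hS.cenComm k q hq x hx
  have hl' := sum_cavg_le (le_max_right k l) (star x)
    fun q hq => hS.cenComm l q hq _ (star_mem hx)
  rw [star_star, hS.norm_star_xi hx] at hl'
  rw [← Finset.mul_sum, Finset.sum_add_distrib, ← Finset.mul_sum, ← hP P.ξ, P.norm_ξ]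
  simp only [add_mul, Finset.sum_add_distrib]
  have h3 : 0 ≤ a * ‖x P.ξ‖ := by positivity
  nlinarith [mul_le_mul_of_nonneg_left (add_le_add hk hl') (show (0 : ℝ) ≤ 3 * a ^ 2 by positivity),
    mul_nonneg h3 hε.le, mul_nonneg h3 h3]

/-- The two-norm bounded operator of a pair of cut positions. -/
theorem Eqv.exists_op (hS : Side P S) (hL : Eqv P S a L) (hl : LocBd P S a L) (s t : Bool) :
    ∃ T : H →L[ℂ] H, ‖T‖ ≤ 3 * a ∧
      (∀ x ∈ S, Tw2 (Ulim H) (cutFam hS L s t x) (T (x P.ξ))) ∧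
      ∀ k, ∀ g ∈ P.G k, T * g = g * T ∧ T * P.conjOp g = P.conjOp g * T := by
  have hex : ∀ x : S, ∃ v, Tw2 (Ulim H) (cutFam hS L s t x) v := fun x =>
    exists_tw2 _ _ (c := a * ‖(x : H →L[ℂ] H)‖) (Eventually.of_forall fun i =>
      Eventually.of_forall fun o => hL.norm_cutFam_le hS s t x.2 i o)
  choose f hf using hex
  have hm : ∀ (y : H →L[ℂ] H), y ∈ S → ∀ i, cut hS i * y ∈ S := fun y hy i =>
    mul_mem (cut_mem hS i) hy
  let F : S →ₗ[ℂ] H :=
    { toFun := f
      map_add' := fun x y => (hf (x + y)).unique (((hf x).add (hf y)).congr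
        (Eventually.of_forall fun i => Eventually.of_forall fun o => by
          rw [cutFam, cutFam, cutFam, AddMemClass.coe_add, mul_add, add_mul,
            hL.map_add (mul_mem (hm _ x.2 _) (cut_mem hS _)) (mul_mem (hm _ y.2 _) (cut_mem hS _))]))
      map_smul' := fun c x => (hf (c • x)).unique (((hf x).smul c).congr
        (Eventually.of_forall fun i => Eventually.of_forall fun o => by
          rw [cutFam, cutFam, SetLike.val_smul, mul_smul_comm, smul_mul_assoc,
            hL.map_smul (mul_mem (hm _ x.2 _) (cut_mem hS _))])) }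
  let e : S →ₗ[ℂ] H :=
    { toFun := fun x => (x : H →L[ℂ] H) P.ξ
      map_add' := fun x y => by simp
      map_smul' := fun c x => by simp }
  have hd : DenseRange e := by
    have : Set.range e = (fun x : H →L[ℂ] H => x P.ξ) '' (S : Set (H →L[ℂ] H)) := by
      ext v
      exact ⟨fun ⟨x, hx⟩ => ⟨x, x.2, hx⟩, fun ⟨x, hx, hv⟩ => ⟨⟨x, hx⟩, hv⟩⟩
    rw [DenseRange, this]
    exact hS.dense
  have hb : ∀ x, ‖F x‖ ≤ 3 * a * ‖e x‖ := fun x =>
    le_of_forall_pos_le_add fun ε hε =>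
      (hf x).norm_le (hL.eventually_cutFam_le hS hl s t x.2 hε)
  set T := F.extendOfNorm e
  have hT : ∀ x : S, T (e x) = F x := LinearMap.extendOfNorm_eq hd ⟨_, hb⟩
  refine ⟨T, ContinuousLinearMap.opNorm_le_bound _ (by have := hL.nonneg; positivity) fun v =>
    LinearMap.norm_extendOfNorm_apply_le hd _ hb v, fun x hx => ?_, ?_⟩
  · have := hT ⟨x, hx⟩
    exact this ▸ hf ⟨x, hx⟩
  · intro k g hg
    have key : ∀ g₁ ∈ P.G k, ∀ h₁ ∈ P.G k, ∀ v,
        T (g₁ (P.conjOp (star h₁) v)) = g₁ (P.conjOp (star h₁) (T v)) := by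
      intro g₁ hg₁ h₁ hh₁
      refine congrFun (hd.equalizer (by fun_prop) (by fun_prop) (funext fun x => ?_))
      show T (g₁ (P.conjOp (star h₁) (e x))) = g₁ (P.conjOp (star h₁) (T (e x)))
      have hgx : g₁ * (x : H →L[ℂ] H) * h₁ ∈ S :=
        mul_mem (mul_mem (hS.gMem k _ hg₁) x.2) (hS.gMem k _ hh₁)
      have e1 : g₁ (P.conjOp (star h₁) (e x)) = e ⟨_, hgx⟩ := by
        show g₁ (P.conjOp (star h₁) ((x : H →L[ℂ] H) P.ξ)) = _
        rw [← ContinuousLinearMap.mul_apply (P.conjOp (star h₁)),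
          ← hS.comm _ x.2 _ (star_mem (hS.gMem k _ hh₁)), ContinuousLinearMap.mul_apply,
          hS.conj_xi (star_mem (hS.gMem k _ hh₁)), star_star]
        rfl
      rw [e1, hT, hT]
      refine (hf ⟨_, hgx⟩).unique (Tw2.congr (f := fun i o => g₁ (P.conjOp (star h₁)
        (cutFam hS L s t x i o))) ?_ ?_)
      · exact (S2.const (g₁ * P.conjOp (star h₁))).apply_tw2 (hf x)
          (Eventually.of_forall fun i => Eventually.of_forall fun o =>
            hL.norm_cutFam_le hS s t x.2 i o)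
      · have hev := (eventually_Ulim (H := H) ∅ k).mono fun i hi => hi.2
        refine ((eventually_sel s hev).and (eventually_sel t hev)).mono fun i hi =>
          (hi.1.and hi.2).mono fun o ho => ?_
        set q := cut hS (sel s i o)
        set p := cut hS (sel t i o)
        have hq := (cut_commute hS (sel s i o) (ho.1.trans (le_lev hS _)) hg₁).eq
        have hp := (cut_commute hS (sel t i o) (ho.2.trans (le_lev hS _)) hh₁).eq
        rw [cutFam, cutFam, show q * (g₁ * (x : H →L[ℂ] H) * h₁) * p =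
            g₁ * (q * x * p) * h₁ by
          simp only [mul_assoc]; rw [hp, ← mul_assoc q g₁, ← hq, mul_assoc],
          hL.law k g₁ hg₁ h₁ hh₁ _ (mul_mem (mul_mem (cut_mem hS _) x.2) (cut_mem hS _))]
    refine ⟨?_, ?_⟩
    · refine ContinuousLinearMap.ext fun v => ?_
      simpa [P.conjOp_one] using key g hg 1 (P.G_one k) v
    · refine ContinuousLinearMap.ext fun v => ?_
      simpa using key 1 (P.G_one k) (star g) (P.G_star k g hg) v

end Vale.Agent.P096.Full.Linear
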