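import Vale.Agent.P096.Full.Linear.Residual

/-!
P096, LINEAR: the residual bound passes from mirrored symmetries to admissible pairs.
-/

open scoped InnerProductSpace ComplexConjugate

namespace Vale.Agent.P096.Full.Linear

universe u

variable {H : Type u} [NormedAddCommGroup H] [InnerProductSpace ℂ H] [CompleteSpace H] {d : ℕ}
variable {P : Pair H} {a : ℝ} {L Λ : (H →L[ℂ] H) → H}

lemma Maps.res1_neg_right (h : Maps P a L Λ) {x y n m : H →L[ℂ] H} (hx : x ∈ P.M)
    (hy : y ∈ P.M) (hn : n ∈ P.N) (hm : m ∈ P.N) :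
    res1 P L Λ x n (-y) (-m) = -res1 P L Λ x n y m := by
  have h0 : res1 P L Λ x n 0 0 = 0 := by
    simpa using h.res1_right hx (zero_mem P.M) (zero_mem P.M) hn (zero_mem P.N) (zero_mem P.N) 1
  simpa [h0] using h.res1_right hx hy (zero_mem P.M) hn hm (zero_mem P.N) (-1)

omit [CompleteSpace H] in
lemma norm_vecOf_sub_le (v : Fin (d + d) → Fin (d + d) → H) :
    ‖vecOf (fun i k : Fin d => v (Fin.castAdd d i) (Fin.castAdd d k))‖ ≤ 2 * ‖vecOf v‖ := by
  refine (pow_le_pow_iff_left₀ (norm_nonneg _) (by positivity) two_ne_zero).1 ?_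
  rw [mul_pow, norm_sq_vecOf, norm_sq_vecOf]
  have h : ∑ i : Fin d, ∑ k : Fin d, ‖v (Fin.castAdd d i) (Fin.castAdd d k)‖ ^ 2 ≤
      ∑ i, ∑ k, ‖v i k‖ ^ 2 := by
    rw [Fin.sum_univ_add]
    refine le_add_of_le_of_nonneg (Finset.sum_le_sum fun i _ => ?_) (by positivity)
    rw [Fin.sum_univ_add]
    exact le_add_of_nonneg_right (by positivity)
  have h0 : 0 ≤ ∑ i, ∑ k, ‖v i k‖ ^ 2 := by positivity
  refine (mul_le_mul_of_nonneg_left h (by positivity)).trans ?_
  rw [← mul_assoc]
  refine mul_le_mul_of_nonneg_right ?_ h0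
  rcases Nat.eq_zero_or_pos d with rfl | hd
  · simp
  · push_cast
    have : (0 : ℝ) < d := by exact_mod_cast hd
    field_simp
    norm_num

/-- The residual bound for mirrored symmetries. -/
def ResBd (P : Pair H) (C ν ε : ℝ) (L Λ : (H →L[ℂ] H) → H) : Prop :=
  ∀ (d : ℕ) (X Y n m : Mat H d), 0 < d → P.VecMirrored C ν X n → P.VecMirrored C ν Y m →
    ‖(leftOp X * rightOp (P.mirror m) - rightOp (P.mirror m) * leftOp X) (P.xi d)
      + mapVec L (X * Y) + mapVec Λ (rmul (P.mirror m) (P.mirror n))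
      - leftOp X (mapVec L Y + mapVec Λ (P.mirror m))
      - rightOp (P.mirror m) (mapVec L X + mapVec Λ (P.mirror n))
      + leftOp X (rightOp (P.mirror m) (mapVec L 1 + mapVec Λ 1))‖ ≤ ε

/-- Admissible self-adjoint pairs dilate to mirrored symmetries. -/
def CanDilate (P : Pair H) (C C' ν : ℝ) : Prop :=
  ∀ (d : ℕ) (X n : Mat H d), 0 < d → star X = X → star n = n → Adm P C ν X n →
    ∃ s t : Mat H d, P.VecMirrored C' ν (blk X s s (-X)) (blk n t t (-n)) ∧
      P.VecMirrored C' ν (blk X (-s) (-s) (-X)) (blk n (-t) (-t) (-n))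

theorem res_le_of_selfAdjoint (h : Maps P a L Λ) {C C' ν ε : ℝ} (hb : ResBd P C' ν ε L Λ)
    (hd' : CanDilate P C C' ν) (hd : 0 < d) {X Y n m : Mat H d} (sX : star X = X)
    (sn : star n = n) (sY : star Y = Y) (sm : star m = m) (hX : Adm P C ν X n)
    (hY : Adm P C ν Y m) : ‖res P L Λ X n Y m‖ ≤ 2 * ε := by
  obtain ⟨s, t, hs, -⟩ := hd' d X n hd sX sn hX
  obtain ⟨s', t', hs1, hs2⟩ := hd' d Y m hd sY sm hY
  have hdd : 0 < d + d := by omega
  have b1 : ‖res P L Λ (blk X s s (-X)) (blk n t t (-n)) (blk Y s' s' (-Y))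
      (blk m t' t' (-m))‖ ≤ ε := by
    rw [res_eq h hs.memX hs1.memX hs.memn hs1.memn hs.symmn.1 hs1.symmn.1]
    exact hb _ _ _ _ _ hdd hs hs1
  have b2 : ‖res P L Λ (blk X s s (-X)) (blk n t t (-n)) (blk Y (-s') (-s') (-Y))
      (blk m (-t') (-t') (-m))‖ ≤ ε := by
    rw [res_eq h hs.memX hs2.memX hs.memn hs2.memn hs.symmn.1 hs2.symmn.1]
    exact hb _ _ _ _ _ hdd hs hs2
  set u : Fin (d + d) → Fin (d + d) → H := fun i k => ∑ j, res1 P L Λ (blk X s s (-X) i j)
    (blk n t t (-n) i j) (blk Y s' s' (-Y) j k) (blk m t' t' (-m) j k) with hu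
  set w : Fin (d + d) → Fin (d + d) → H := fun i k => ∑ j, res1 P L Λ (blk X s s (-X) i j)
    (blk n t t (-n) i j) (blk Y (-s') (-s') (-Y) j k) (blk m (-t') (-t') (-m) j k) with hw
  have e : (2 : ℂ) • res P L Λ X n Y m =
      vecOf (fun i k : Fin d => u (Fin.castAdd d i) (Fin.castAdd d k)) +
        vecOf (fun i k : Fin d => w (Fin.castAdd d i) (Fin.castAdd d k)) := by
    rw [res, ← vecOf_smul, ← vecOf_add]
    congr 1; funext i k
    simp only [hu, hw, Pi.smul_apply, Pi.add_apply, Fin.sum_univ_add, blk_ll, blk_lr, blk_rl]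
    have hsm : ∀ i j, s i j ∈ P.M := fun i j => by
      have := hs.memX (Fin.castAdd d i) (Fin.natAdd d j); rwa [blk_lr] at this
    have htm : ∀ i j, t i j ∈ P.N := fun i j => by
      have := hs.memn (Fin.castAdd d i) (Fin.natAdd d j); rwa [blk_lr] at this
    have hsm' : ∀ i j, s' i j ∈ P.M := fun i j => by
      have := hs1.memX (Fin.castAdd d i) (Fin.natAdd d j); rwa [blk_lr] at this
    have htm' : ∀ i j, t' i j ∈ P.N := fun i j => by
      have := hs1.memn (Fin.castAdd d i) (Fin.natAdd d j); rwa [blk_lr] at this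
    rw [Finset.sum_congr rfl (fun j _ => show res1 P L Λ (s i j) (t i j) ((-s') j k) ((-t') j k) =
      -res1 P L Λ (s i j) (t i j) (s' j k) (t' j k) from
        h.res1_neg_right (hsm i j) (hsm' j k) (htm i j) (htm' j k))]
    rw [Finset.sum_neg_distrib, two_smul]
    abel
  have h2 : ‖(2 : ℂ) • res P L Λ X n Y m‖ ≤ 2 * ε + 2 * ε := by
    rw [e]
    exact (norm_add_le _ _).trans (add_le_add
      ((norm_vecOf_sub_le u).trans (mul_le_mul_of_nonneg_left b1 zero_le_two))
      ((norm_vecOf_sub_le w).trans (mul_le_mul_of_nonneg_left b2 zero_le_two)))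
  rw [norm_smul, Complex.norm_ofNat] at h2
  linarith

lemma Adm.of_le {C C' ν : ℝ} {X n : Mat H d} (h : Adm P C ν X n) (hC : C * ν ≤ C' * ν) :
    Adm P C' ν X n := ⟨h.memX, h.memn, h.normX, h.normn, h.vecNear.trans hC⟩

lemma leftOp_comb (X : Mat H d) (c : ℂ) :
    leftOp (c • X + (conj c) • star X) = c • leftOp X + (conj c) • star (leftOp X) := by
  rw [leftOp_add, leftOp_smul, leftOp_smul, star_leftOp]

/-- The self-adjoint pair `(c X + conj c X*, c n + conj c n*)` with `‖c‖ = 1/2`. -/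
lemma Adm.part {C ν : ℝ} {X n : Mat H d} (h : Adm P C ν X n) {c : ℂ} (hc : ‖c‖ = 1 / 2) :
    star (c • X + (conj c) • star X) = c • X + (conj c) • star X ∧
      Adm P C ν (c • X + (conj c) • star X) (c • n + (conj c) • star n) := by
  have hs : ∀ Z : Mat H d, star (c • Z + (conj c) • star Z) = c • Z + (conj c) • star Z := fun Z => by
    simp only [star_add, star_smul, star_star, RCLike.star_def, Complex.conj_conj]
    exact add_comm _ _
  have hn : ∀ Z : Mat H d, ‖leftOp Z‖ ≤ 1 / 4 → ‖leftOp (c • Z + (conj c) • star Z)‖ ≤ 1 / 4 :=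
    fun Z hZ => by
      rw [leftOp_comb]
      refine (norm_add_le _ _).trans ?_
      rw [norm_smul, norm_smul, RCLike.norm_conj, ContinuousLinearMap.star_eq_adjoint,
        LinearIsometryEquiv.norm_map, hc]
      linarith
  refine ⟨hs X, ⟨fun i j => ?_, fun i j => ?_, hn X h.normX, hn n h.normn, ?_⟩⟩
  · simp only [Matrix.add_apply, Matrix.smul_apply, Matrix.star_apply]
    exact add_mem (SMulMemClass.smul_mem _ (h.memX i j))
      (SMulMemClass.smul_mem _ (star_mem (h.memX j i)))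
  · simp only [Matrix.add_apply, Matrix.smul_apply, Matrix.star_apply]
    exact add_mem (SMulMemClass.smul_mem _ (h.memn i j))
      (SMulMemClass.smul_mem _ (star_mem (h.memn j i)))
  · set v := (leftOp n - leftOp X) (P.xi d) with hv
    have e1 : leftOp (star n) (P.xi d) - leftOp (star X) (P.xi d) = P.Jd d v := by
      rw [hv, sub_apply, map_sub, P.Jd_leftOp_xi (Or.inr h.memn),
        P.Jd_leftOp_xi (Or.inl h.memX)]
    have e : (leftOp (c • n + (conj c) • star n) - leftOp (c • X + (conj c) • star X)) (P.xi d) =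
        c • v + conj c • P.Jd d v := by
      rw [← e1, hv]
      simp only [leftOp_add, leftOp_smul, sub_apply, add_apply, smul_apply]
      module
    rw [e]
    refine (norm_add_le _ _).trans ?_
    rw [norm_smul, norm_smul, RCLike.norm_conj, LinearIsometryEquiv.norm_map, hc]
    linarith [h.vecNear]

lemma Maps.res_left (h : Maps P a L Λ) {C ν : ℝ} {X X' Y n n' m : Mat H d} (hX : Adm P C ν X n)
    (hX' : Adm P C ν X' n') (hY : Adm P C ν Y m) (c : ℂ) :
    res P L Λ (c • X + X') (c • n + n') Y m = c • res P L Λ X n Y m + res P L Λ X' n' Y m := by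
  rw [res, res, res, ← vecOf_smul, ← vecOf_add]
  congr 1; funext i k
  simp only [Pi.add_apply, Pi.smul_apply, Matrix.add_apply, Matrix.smul_apply, Finset.smul_sum,
    ← Finset.sum_add_distrib]
  exact Finset.sum_congr rfl fun j _ =>
    h.res1_left (hX.memX i j) (hX'.memX i j) (hY.memX j k) (hX.memn i j) (hX'.memn i j)
      (hY.memn j k) c

lemma Maps.res_right (h : Maps P a L Λ) {C ν : ℝ} {X Y Y' n m m' : Mat H d} (hX : Adm P C ν X n)
    (hY : Adm P C ν Y m) (hY' : Adm P C ν Y' m') (c : ℂ) :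
    res P L Λ X n (c • Y + Y') (c • m + m') = c • res P L Λ X n Y m + res P L Λ X n Y' m' := by
  rw [res, res, res, ← vecOf_smul, ← vecOf_add]
  congr 1; funext i k
  simp only [Pi.add_apply, Pi.smul_apply, Matrix.add_apply, Matrix.smul_apply, Finset.smul_sum,
    ← Finset.sum_add_distrib]
  exact Finset.sum_congr rfl fun j _ =>
    h.res1_right (hX.memX i j) (hY.memX j k) (hY'.memX j k) (hX.memn i j) (hY.memn j k)
      (hY'.memn j k) c

/-- A matrix from the two self-adjoint parts. -/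
lemma parts_eq (X : Mat H d) :
    X = Complex.I • ((-Complex.I / 2) • X + conj (-Complex.I / 2) • star X) +
      ((1 / 2 : ℂ) • X + conj (1 / 2 : ℂ) • star X) := by
  simp only [map_div₀, map_neg, Complex.conj_I, map_one, map_ofNat, neg_neg, smul_add, smul_smul,
    mul_div_assoc', mul_neg, Complex.I_mul_I]
  module

/-- The residual bound on all admissible pairs. -/
theorem res_le (h : Maps P a L Λ) {C C' ν ε : ℝ} (hb : ResBd P C' ν ε L Λ)
    (hd' : CanDilate P C C' ν) (hd : 0 < d) {X Y n m : Mat H d} (hX : Adm P C ν X n)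
    (hY : Adm P C ν Y m) : ‖res P L Λ X n Y m‖ ≤ 8 * ε := by
  have c1 : ‖(-Complex.I / 2 : ℂ)‖ = 1 / 2 := by simp
  have c2 : ‖(1 / 2 : ℂ)‖ = 1 / 2 := by simp
  obtain ⟨sX1, hX1⟩ := hX.part c1
  obtain ⟨sX2, hX2⟩ := hX.part c2
  obtain ⟨sY1, hY1⟩ := hY.part c1
  obtain ⟨sY2, hY2⟩ := hY.part c2
  have sa : ∀ (Z : Mat H d) (c : ℂ), star (c • Z + (conj c) • star Z) =
      c • Z + (conj c) • star Z := fun Z c => by
    simp only [star_add, star_smul, star_star, RCLike.star_def, Complex.conj_conj]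
    exact add_comm _ _
  have b11 := res_le_of_selfAdjoint h hb hd' hd sX1 (sa n _) sY1 (sa m _) hX1 hY1
  have b12 := res_le_of_selfAdjoint h hb hd' hd sX1 (sa n _) sY2 (sa m _) hX1 hY2
  have b21 := res_le_of_selfAdjoint h hb hd' hd sX2 (sa n _) sY1 (sa m _) hX2 hY1
  have b22 := res_le_of_selfAdjoint h hb hd' hd sX2 (sa n _) sY2 (sa m _) hX2 hY2
  rw [parts_eq X, parts_eq n, h.res_left hX1 hX2 hY, parts_eq Y, parts_eq m,
    h.res_right hX1 hY1 hY2, h.res_right hX2 hY1 hY2]
  refine (norm_add_le _ _).trans ?_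
  rw [norm_smul, Complex.norm_I, one_mul]
  refine (add_le_add (norm_add_le _ _) (norm_add_le _ _)).trans ?_
  rw [norm_smul, norm_smul, Complex.norm_I, one_mul, one_mul]
  linarith

end Vale.Agent.P096.Full.Linear
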