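import Vale.Agent.P096.Full.Linear.Blk
import Vale.Agent.P096.Full.Linear.Cuts

/-!
P096, LINEAR: the residual as an entrywise bilinear form in admissible pairs.
-/

open scoped InnerProductSpace ComplexConjugate

namespace Vale.Agent.P096.Full.Linear

universe u

variable {H : Type u} [NormedAddCommGroup H] [InnerProductSpace ℂ H] [CompleteSpace H] {d : ℕ}

/-- The commutant image of `m`. -/
noncomputable def bar (P : Pair H) (m : H →L[ℂ] H) : H →L[ℂ] H := P.conjOp (star m)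

lemma bar_add (P : Pair H) (m n : H →L[ℂ] H) : bar P (m + n) = bar P m + bar P n := by
  simp only [bar, star_add, P.conjOp_add]

lemma bar_smul (P : Pair H) (c : ℂ) (m : H →L[ℂ] H) : bar P (c • m) = c • bar P m := by
  simp only [bar, star_smul, P.conjOp_smul, RCLike.star_def, Complex.conj_conj]

lemma bar_mem (P : Pair H) {m : H →L[ℂ] H} (h : m ∈ P.N) : bar P m ∈ P.B :=
  ⟨star m, star_mem h, rfl⟩

lemma bar_one (P : Pair H) : bar P 1 = 1 := by rw [bar, star_one, P.conjOp_one]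

/-- The two maps given by UNIFORM. -/
structure Maps (P : Pair H) (a : ℝ) (L Λ : (H →L[ℂ] H) → H) : Prop where
  linL : ∀ x ∈ P.M, ∀ y ∈ P.M, ∀ c : ℂ, L (c • x + y) = c • L x + L y
  linΛ : ∀ x ∈ P.B, ∀ y ∈ P.B, ∀ c : ℂ, Λ (c • x + y) = c • Λ x + Λ y
  bddL : ∀ x ∈ P.M, ‖L x‖ ≤ a * ‖x‖
  bddΛ : ∀ y ∈ P.B, ‖Λ y‖ ≤ a * ‖y‖
  lawL : ∀ k, ∀ g ∈ P.G k, ∀ h ∈ P.G k, ∀ x ∈ P.M,
    L (g * x * h) = g (P.conjOp (star h) (L x))
  lawΛ : ∀ k, ∀ g ∈ P.G k, ∀ h ∈ P.G k, ∀ y ∈ P.B,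
    Λ (P.conjOp (star h) * y * P.conjOp (star g)) = g (P.conjOp (star h) (Λ y))
  locL : LocBd P P.M a L
  locΛ : ∀ y ∈ P.B, ∀ k, ∀ q ∈ P.cen k, ‖q (Λ y)‖ ≤ a * ‖y‖ * ‖q P.ξ‖

variable {P : Pair H} {a : ℝ} {L Λ : (H →L[ℂ] H) → H}

/-- `Λ` read on `N` through the conjugation. -/
noncomputable def flipMap (P : Pair H) (Λ : (H →L[ℂ] H) → H) (n : H →L[ℂ] H) : H :=
  P.J (Λ (P.conjOp n))

theorem Maps.eqvM (h : Maps P a L Λ) : Eqv P P.M a L := ⟨h.linL, h.bddL, h.lawL⟩

theorem Maps.eqvN (h : Maps P a L Λ) : Eqv P P.N a (flipMap P Λ) where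
  lin x hx y hy c := by
    rw [flipMap, P.conjOp_add, P.conjOp_smul, h.linΛ _ ⟨x, hx, rfl⟩ _ ⟨y, hy, rfl⟩, map_add,
      LinearIsometryEquiv.map_smulₛₗ, Complex.conj_conj]
    rfl
  bdd x hx := by
    rw [flipMap, LinearIsometryEquiv.norm_map, ← P.norm_conjOp x]
    exact h.bddΛ _ ⟨x, hx, rfl⟩
  law k g hg g' hg' x hx := by
    have e := h.lawΛ k (star g') (P.G_star k g' hg') (star g) (P.G_star k g hg) (P.conjOp x)
      ⟨x, hx, rfl⟩
    simp only [star_star, ← P.conjOp_mul] at e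
    rw [flipMap, e, flipMap]
    have c := P.comm_N_B (P.G_mem k _ (P.G_star k g' hg')).2.1
      ⟨g, (P.G_mem k g hg).2.1, rfl⟩
    rw [← ContinuousLinearMap.mul_apply (star g'), c, ContinuousLinearMap.mul_apply]
    simp only [P.conjOp_apply, P.J_J]

theorem Maps.locN (h : Maps P a L Λ) : LocBd P P.N a (flipMap P Λ) := fun x hx k q hq => by
  have e : q (flipMap P Λ x) = P.J (q (Λ (P.conjOp x))) := by
    conv_rhs => rw [← P.conjOp_cen hq]
    rw [flipMap, P.conjOp_apply, P.J_J]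
  rw [e, LinearIsometryEquiv.norm_map, ← P.norm_conjOp x]
  exact h.locΛ _ ⟨x, hx, rfl⟩ k q hq

/-- Linearity on a subalgebra. -/
def Lin (S : Set (H →L[ℂ] H)) (L : (H →L[ℂ] H) → H) : Prop :=
  ∀ x ∈ S, ∀ y ∈ S, ∀ c : ℂ, L (c • x + y) = c • L x + L y

/-- One entry of the residual. -/
noncomputable def res1 (P : Pair H) (L Λ : (H →L[ℂ] H) → H) (x n y m : H →L[ℂ] H) : H :=
  x (bar P m P.ξ) - bar P m (x P.ξ) + L (x * y) + Λ (bar P (n * m)) -
    x (L y + Λ (bar P m)) - bar P m (L x + Λ (bar P n)) + x (bar P m (L 1 + Λ 1))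

/-- The residual of two pairs of matrices. -/
noncomputable def res (P : Pair H) (L Λ : (H →L[ℂ] H) → H) (X n Y m : Mat H d) : Amp H d :=
  vecOf fun i k => ∑ j, res1 P L Λ (X i j) (n i j) (Y j k) (m j k)

lemma Maps.res1_left (h : Maps P a L Λ) {x x' y n n' m : H →L[ℂ] H} (hx : x ∈ P.M)
    (hx' : x' ∈ P.M) (hy : y ∈ P.M) (hn : n ∈ P.N) (hn' : n' ∈ P.N) (hm : m ∈ P.N) (c : ℂ) :
    res1 P L Λ (c • x + x') (c • n + n') y m =
      c • res1 P L Λ x n y m + res1 P L Λ x' n' y m := by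
  have e1 := h.linL _ (mul_mem hx hy) _ (mul_mem hx' hy) c
  have e2 := h.linΛ _ (bar_mem P (mul_mem hn hm)) _ (bar_mem P (mul_mem hn' hm)) c
  simp only [res1, add_mul, smul_mul_assoc, bar_add, bar_smul, e1, e2, h.linL x hx x' hx' c,
    h.linΛ _ (bar_mem P hn) _ (bar_mem P hn') c, add_apply,
    smul_apply, map_add, ContinuousLinearMap.map_smul]
  module

lemma Maps.res1_right (h : Maps P a L Λ) {x y y' n m m' : H →L[ℂ] H} (hx : x ∈ P.M)
    (hy : y ∈ P.M) (hy' : y' ∈ P.M) (hn : n ∈ P.N) (hm : m ∈ P.N) (hm' : m' ∈ P.N) (c : ℂ) :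
    res1 P L Λ x n (c • y + y') (c • m + m') =
      c • res1 P L Λ x n y m + res1 P L Λ x n y' m' := by
  have e1 := h.linL _ (mul_mem hx hy) _ (mul_mem hx hy') c
  have e2 := h.linΛ _ (bar_mem P (mul_mem hn hm)) _ (bar_mem P (mul_mem hn hm')) c
  simp only [res1, mul_add, mul_smul_comm, bar_add, bar_smul, e1, e2, h.linL y hy y' hy' c,
    h.linΛ _ (bar_mem P hm) _ (bar_mem P hm') c, add_apply,
    smul_apply, map_add, ContinuousLinearMap.map_smul]
  module

omit [CompleteSpace H] in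
lemma leftOp_vecOf (X : Mat H d) (v : Fin d → Fin d → H) :
    leftOp X (vecOf v) = vecOf fun i k => ∑ j, X i j (v j k) :=
  Amp.ext' fun i k => by
    simp only [leftOp_apply, vecOf_apply, ContinuousLinearMap.map_smul, Finset.smul_sum]

omit [CompleteSpace H] in
lemma rightOp_vecOf (Y : Mat H d) (v : Fin d → Fin d → H) :
    rightOp Y (vecOf v) = vecOf fun i k => ∑ l, Y l k (v i l) :=
  Amp.ext' fun i k => by
    simp only [rightOp_apply, vecOf_apply, ContinuousLinearMap.map_smul, Finset.smul_sum]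

omit [CompleteSpace H] in
lemma vecOf_sub (v w : Fin d → Fin d → H) : vecOf (v - w) = vecOf v - vecOf w :=
  Amp.ext' fun i k => by simp [smul_sub]

lemma sum_sum_diag (X Y : Mat H d) (v : H) (i k : Fin d) :
    ∑ j, X i j (∑ l, Y l k (if j = l then v else 0)) = ∑ j, X i j (Y j k v) := by
  refine Finset.sum_congr rfl fun j _ => ?_
  rw [Finset.sum_eq_single j] <;> simp +contextual [eq_comm]

lemma Maps.map_zeroΛ (h : Maps P a L Λ) : Λ 0 = 0 := by
  have h0 : (0 : H →L[ℂ] H) ∈ P.B := zero_mem P.Bal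
  simpa using h.linΛ 0 h0 0 h0 1

lemma Maps.mapΛ_sum (h : Maps P a L Λ) {ι : Type*} (s : Finset ι) (f : ι → (H →L[ℂ] H))
    (hf : ∀ i, f i ∈ P.B) : Λ (∑ i ∈ s, f i) = ∑ i ∈ s, Λ (f i) := by
  induction s using Finset.cons_induction with
  | empty => simp [h.map_zeroΛ]
  | cons i s hi ih =>
    rw [Finset.sum_cons, Finset.sum_cons, ← ih]
    simpa using h.linΛ _ (hf i) _ (show _ ∈ P.Bal from sum_mem fun j _ => hf j) 1

lemma Maps.mapL_sum (h : Maps P a L Λ) {ι : Type*} (s : Finset ι) (f : ι → (H →L[ℂ] H))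
    (hf : ∀ i, f i ∈ P.M) : L (∑ i ∈ s, f i) = ∑ i ∈ s, L (f i) := by
  induction s using Finset.cons_induction with
  | empty => simp [h.eqvM.map_zero]
  | cons i s hi ih =>
    rw [Finset.sum_cons, Finset.sum_cons, ← ih]
    exact h.eqvM.map_add (hf i) (sum_mem fun j _ => hf j)

/-- For self-adjoint pairs the residual is the expression of UNIFORM. -/
theorem res_eq (h : Maps P a L Λ) {X Y n m : Mat H d} (hX : ∀ i j, X i j ∈ P.M)
    (hY : ∀ i j, Y i j ∈ P.M) (hn : ∀ i j, n i j ∈ P.N) (hm : ∀ i j, m i j ∈ P.N)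
    (sn : star n = n) (sm : star m = m) :
    res P L Λ X n Y m =
      (leftOp X * rightOp (P.mirror m) - rightOp (P.mirror m) * leftOp X) (P.xi d)
          + mapVec L (X * Y) + mapVec Λ (rmul (P.mirror m) (P.mirror n))
          - leftOp X (mapVec L Y + mapVec Λ (P.mirror m))
          - rightOp (P.mirror m) (mapVec L X + mapVec Λ (P.mirror n))
          + leftOp X (rightOp (P.mirror m) (mapVec L 1 + mapVec Λ 1)) := by
  have em : ∀ l k, P.mirror m l k = bar P (m l k) := fun l k => by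
    have := congrFun (congrFun sm k) l
    rw [Matrix.star_apply] at this
    rw [Pair.mirror, bar, ← this]
  have en : ∀ l k, P.mirror n l k = bar P (n l k) := fun l k => by
    have := congrFun (congrFun sn k) l
    rw [Matrix.star_apply] at this
    rw [Pair.mirror, bar, ← this]
  have h1 : mapVec L (1 : Mat H d) + mapVec Λ 1 =
      vecOf fun i k => if i = k then L 1 + Λ 1 else 0 := by
    rw [mapVec, mapVec, ← vecOf_add]
    congr 1; funext i k
    by_cases hik : i = k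
    · simp [hik]
    · simp [hik, Matrix.one_apply, h.eqvM.map_zero, h.map_zeroΛ]
  have h2 : ∀ i k, Λ (rmul (P.mirror m) (P.mirror n) i k) =
      ∑ j, Λ (bar P (n i j * m j k)) := fun i k => by
    rw [← P.mirror_mul, Pair.mirror, Matrix.mul_apply, ← h.mapΛ_sum _ _ fun j => bar_mem P
      (mul_mem (hn _ _) (hm _ _))]
    congr 1
    have e : ∀ j, m k j * n j i = star (n i j * m j k) := fun j => by
      rw [star_mul, ← Matrix.star_apply m, ← Matrix.star_apply n, sm, sn]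
    simp only [e, bar]
    exact map_sum (AddMonoidHom.mk' P.conjOp P.conjOp_add) _ _
  have h3 : ∀ i k, L ((X * Y) i k) = ∑ j, L (X i j * Y j k) := fun i k => by
    rw [Matrix.mul_apply]
    exact h.mapL_sum _ _ fun j => mul_mem (hX i j) (hY j k)
  rw [h1]
  simp only [res, mapVec, ← vecOf_add, Pair.xi, sub_apply,
    ContinuousLinearMap.mul_apply, leftOp_vecOf, rightOp_vecOf, ← vecOf_sub]
  congr 1; funext i k
  simp only [Pi.add_apply, Pi.sub_apply, h2, h3, em, en]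
  have e4 : ∑ l, bar P (m l k) (∑ j, X i j (if j = l then P.ξ else 0)) =
      ∑ j, bar P (m j k) (X i j P.ξ) := by
    refine Finset.sum_congr rfl fun l _ => ?_
    rw [Finset.sum_eq_single l] <;> simp +contextual
  rw [sum_sum_diag X (fun l k => bar P (m l k)), sum_sum_diag X (fun l k => bar P (m l k)), e4]
  simp only [res1, Finset.sum_add_distrib, Finset.sum_sub_distrib]

/-- Pairs of contractions which mirror each other on the trace vector. -/
structure Adm (P : Pair H) (C ν : ℝ) (X n : Mat H d) : Prop where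
  memX : ∀ i j, X i j ∈ P.M
  memn : ∀ i j, n i j ∈ P.N
  normX : ‖leftOp X‖ ≤ 1 / 4
  normn : ‖leftOp n‖ ≤ 1 / 4
  vecNear : ‖(leftOp n - leftOp X) (P.xi d)‖ ≤ C * ν

end Vale.Agent.P096.Full.Linear
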